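import Mathlib.Analysis.SpecialFunctions.Trigonometric.Bounds
import Mathlib.Analysis.SpecialFunctions.Log.Base
import Vale.Agent.P160.MathlibUsed

set_option linter.all false

section

section

namespace Vale.Agent.P160

open Finset

/-- Lazy step with a uniform seed in `Fin M`: value 1 at seed 0, value -1 at seed 1, else 0. -/
def st {M : ℕ} (a : Fin M) : ℤ := if a.val = 0 then 1 else if a.val = 1 then -1 else 0

/-- The walk with seeds `ω` and weights `v`. -/
def walk {ι : Type*} [Fintype ι] {M N : ℕ} (ω : ι → Fin M) (v : ι → ZMod N) : ZMod N :=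
  ∑ i, (st (ω i) : ZMod N) * v i

/-- Probability that the lazy walk with weights `v` equals `a`. -/
noncomputable def pr {ι : Type*} [Fintype ι] [DecidableEq ι] (M : ℕ) {N : ℕ}
    (v : ι → ZMod N) (a : ZMod N) : ℝ :=
  ((univ.filter (fun ω : ι → Fin M => walk ω v = a)).card : ℝ) / (M : ℝ) ^ Fintype.card ι

/-- Characteristic function of one lazy step at a unit complex number `z`. -/
noncomputable def cf (M : ℕ) (z : ℂ) : ℝ := 1 - 2 / M + 2 / M * z.re

/-- `Zf M v = N * P(walk = 0)`. -/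
noncomputable def Zf {ι : Type*} [Fintype ι] [DecidableEq ι] (M : ℕ) {N : ℕ}
    (v : ι → ZMod N) : ℝ := N * pr M v 0

end Vale.Agent.P160
end
end

section

section

namespace Vale.Agent.P160

open Finset

section charsum

/-- Sum of `z ^ st a` over the seeds. -/
lemma sum_zpow_st {M : ℕ} (hM : 2 ≤ M) (z : ℂ) (hz : ‖z‖ = 1) :
    ∑ a : Fin M, z ^ (st a) = ((M : ℝ) * cf M z : ℝ) := by
  obtain ⟨k, rfl⟩ : ∃ k, M = k + 2 := ⟨M - 2, by (clear * - hM; omega)⟩
  rw [Fin.sum_univ_succ, Fin.sum_univ_succ]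
  have h0 : st (0 : Fin (k + 2)) = 1 := by simp only [st, Fin.coe_ofNat_eq_mod, Nat.zero_mod, ↓reduceIte]
  have h1 : st (Fin.succ (0 : Fin (k + 1))) = -1 := by simp only [st, Fin.succ_zero_eq_one, Fin.coe_ofNat_eq_mod, Nat.one_mod, one_ne_zero, ↓reduceIte, Int.reduceNeg]
  have h2 : ∀ i : Fin k, st (Fin.succ (Fin.succ i)) = 0 := by
    intro i
    simp only [st, Fin.val_succ, Nat.add_eq_zero_iff, one_ne_zero, and_false, and_self, ↓reduceIte, Nat.add_eq_right]
  rw [h0, h1]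
  simp only [h2]
  have hz' : z⁻¹ = (starRingEnd ℂ) z := by
    rw [Complex.inv_def]
    have : Complex.normSq z = 1 := by
      rw [Complex.normSq_eq_norm_sq, hz]; norm_num
    rw [this]; simp only [inv_one, Complex.ofReal_one, mul_one]
  have hzz : z + z⁻¹ = ((2 * z.re : ℝ) : ℂ) := by
    rw [hz', Complex.add_conj]
  have hk : ((k : ℝ) + 2) ≠ 0 := by (clear * -; (clear * -; positivity))
  simp only [zpow_one, zpow_neg, zpow_zero, sum_const, card_univ, Fintype.card_fin, nsmul_eq_mul, mul_one, cf]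
  have : z + (z⁻¹ + (k : ℂ)) = ((2 * z.re + k : ℝ) : ℂ) := by
    push_cast at hzz ⊢
    linear_combination hzz
  rw [this]
  congr 1
  push_cast
  field_simp
  ring

/-- Product formula for the characteristic function of the lazy walk. -/
lemma sum_prod_zpow_st {ι : Type*} [Fintype ι] [DecidableEq ι] {M : ℕ} (hM : 2 ≤ M)
    (z : ι → ℂ) (hz : ∀ i, ‖z i‖ = 1) :
    ∑ ω : ι → Fin M, ∏ i, z i ^ (st (ω i)) =
      (((M : ℝ) ^ Fintype.card ι * ∏ i, cf M (z i) : ℝ) : ℂ) := by
  have h := Finset.prod_univ_sum (fun _ : ι => (univ : Finset (Fin M)))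
    (fun i a => z i ^ (st a))
  rw [Fintype.piFinset_univ] at h
  rw [← h]
  have : ∀ i, ∑ a : Fin M, z i ^ (st a) = ((M : ℝ) * cf M (z i) : ℝ) :=
    fun i => sum_zpow_st hM (z i) (hz i)
  simp only [this]
  rw [← Complex.ofReal_prod, Finset.prod_mul_distrib]
  simp only [prod_const, card_univ, Complex.ofReal_mul, Complex.ofReal_pow, Complex.ofReal_natCast, Complex.ofReal_prod]

lemma cf_nonneg {M : ℕ} (hM : 4 ≤ M) {z : ℂ} (hz : ‖z‖ = 1) : 0 ≤ cf M z := by
  have h1 : -1 ≤ z.re := by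
    have := Complex.abs_re_le_norm z
    rw [hz] at this
    exact (abs_le.mp this).1
  have hM' : (4 : ℝ) ≤ M := by exact_mod_cast hM
  unfold cf
  have h2 : 2 / (M : ℝ) ≤ 1 / 2 := by
    rw [div_le_div_iff₀ (by (clear * - hM; positivity)) (by norm_num)]; linarith only [hM']
  have h3 : 0 ≤ 2 / (M : ℝ) := by (clear * - hM; positivity)
  nlinarith only [h2, h1, h3]

lemma cf_le_one {M : ℕ} {z : ℂ} (hz : ‖z‖ = 1) : cf M z ≤ 1 := by
  have h1 : z.re ≤ 1 := by
    have := Complex.abs_re_le_norm z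
    rw [hz] at this
    exact (abs_le.mp this).2
  unfold cf
  have h3 : 0 ≤ 2 / (M : ℝ) := by (clear * -; positivity)
  nlinarith only [h1, h3]

end charsum

section zmod

variable {N : ℕ} [NeZero N]

/-- The standard character. -/
noncomputable def ee (x : ZMod N) : ℂ := ZMod.stdAddChar x

lemma norm_ee (x : ZMod N) : ‖ee x‖ = 1 := by
  unfold ee
  rw [ZMod.stdAddChar_apply]
  exact Circle.norm_coe _

lemma ee_add (x y : ZMod N) : ee (x + y) = ee x * ee y := by
  unfold ee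
  exact AddChar.map_add_eq_mul _ _ _

@[simp] lemma ee_zero : ee (0 : ZMod N) = 1 := by
  unfold ee
  exact AddChar.map_zero_eq_one _

lemma ee_sum {ι : Type*} (s : Finset ι) (f : ι → ZMod N) :
    ee (∑ i ∈ s, f i) = ∏ i ∈ s, ee (f i) := by
  classical
  induction s using Finset.induction_on with
  | empty => simp
  | insert a s ha ih => rw [sum_insert ha, prod_insert ha, ee_add, ih]

lemma ee_intCast_mul (k : ℤ) (x : ZMod N) : ee ((k : ZMod N) * x) = ee x ^ k := by
  unfold ee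
  rw [← zsmul_eq_mul, AddChar.map_zsmul_eq_zpow]

lemma ee_natCast_mul (k : ℕ) (x : ZMod N) : ee ((k : ZMod N) * x) = ee x ^ k := by
  have := ee_intCast_mul (N := N) (k : ℤ) x
  simpa only [Int.cast_natCast, zpow_natCast] using this

/-- Orthogonality. -/
lemma sum_ee_mul (x : ZMod N) : ∑ t : ZMod N, ee (t * x) = if x = 0 then (N : ℂ) else 0 := by
  have := AddChar.sum_mulShift x (ZMod.isPrimitive_stdAddChar N)
  simp only [ZMod.card] at this
  unfold ee
  rw [this]
  simp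

lemma ee_walk {ι : Type*} [Fintype ι] {M : ℕ} (ω : ι → Fin M) (v : ι → ZMod N) (t : ZMod N) :
    ee (t * walk ω v) = ∏ i, ee (t * v i) ^ (st (ω i)) := by
  unfold walk
  rw [mul_sum, ee_sum]
  refine prod_congr rfl fun i _ => ?_
  rw [← ee_intCast_mul]
  congr 1
  ring

/-- Fourier formula for the return probability of the lazy walk. -/
lemma pr_eq {ι : Type*} [Fintype ι] [DecidableEq ι] {M : ℕ} (hM : 2 ≤ M) (v : ι → ZMod N)
    (a : ZMod N) :
    ((N * pr M v a : ℝ) : ℂ) = ∑ t : ZMod N, ee (-(t * a)) * (∏ i, cf M (ee (t * v i)) : ℝ) := by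
  have h1 : ∀ ω : ι → Fin M, (if walk ω v = a then (N : ℂ) else 0) =
      ∑ t : ZMod N, ee (-(t * a)) * ee (t * walk ω v) := by
    intro ω
    have := sum_ee_mul (walk ω v - a)
    simp only [sub_eq_zero] at this
    rw [← this]
    refine sum_congr rfl fun t _ => ?_
    rw [← ee_add]
    congr 1
    ring
  have h2 : (((univ.filter (fun ω : ι → Fin M => walk ω v = a)).card : ℝ) : ℂ) * N =
      ∑ ω : ι → Fin M, (if walk ω v = a then (N : ℂ) else 0) := by
    rw [← sum_filter, sum_const, nsmul_eq_mul]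
    simp only [Complex.ofReal_natCast]
  have h3 : (((univ.filter (fun ω : ι → Fin M => walk ω v = a)).card : ℝ) : ℂ) * N =
      ∑ t : ZMod N, ee (-(t * a)) * (((M : ℝ) ^ Fintype.card ι *
        ∏ i, cf M (ee (t * v i)) : ℝ) : ℂ) := by
    rw [h2]
    simp only [h1]
    rw [sum_comm]
    refine sum_congr rfl fun t _ => ?_
    rw [← mul_sum]
    congr 1
    rw [← sum_prod_zpow_st hM (fun i => ee (t * v i)) (fun i => norm_ee _)]
    refine sum_congr rfl fun ω _ => ?_
    exact ee_walk ω v t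
  have hM0 : ((M : ℝ) ^ Fintype.card ι : ℝ) ≠ 0 := by
    have : (0 : ℝ) < M := by exact_mod_cast (by omega : 0 < M)
    (clear * - hM; positivity)
  unfold pr
  have hM0' : (((M : ℝ) ^ Fintype.card ι : ℝ) : ℂ) ≠ 0 := by exact_mod_cast hM0
  rw [← mul_right_inj' hM0']
  calc (((M : ℝ) ^ Fintype.card ι : ℝ) : ℂ) * ((N * (((univ.filter (fun ω : ι → Fin M =>
        walk ω v = a)).card : ℝ) / (M : ℝ) ^ Fintype.card ι) : ℝ) : ℂ)
      = (((univ.filter (fun ω : ι → Fin M => walk ω v = a)).card : ℝ) : ℂ) * N := by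
        have : (M : ℂ) ^ Fintype.card ι ≠ 0 := by exact_mod_cast hM0
        push_cast
        field_simp
    _ = _ := by
        rw [h3, mul_sum]
        refine sum_congr rfl fun t _ => ?_
        push_cast
        ring

lemma Zf_eq {ι : Type*} [Fintype ι] [DecidableEq ι] {M : ℕ} (hM : 2 ≤ M) (v : ι → ZMod N) :
    Zf M v = ∑ t : ZMod N, ∏ i, cf M (ee (t * v i)) := by
  have h := pr_eq hM v 0
  simp only [mul_zero, neg_zero, ee_zero, one_mul] at h
  unfold Zf
  exact_mod_cast h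

/-- The lazy walk is most likely at `0`. -/
lemma pr_le_pr_zero {ι : Type*} [Fintype ι] [DecidableEq ι] {M : ℕ} (hM : 4 ≤ M)
    (v : ι → ZMod N) (a : ZMod N) : pr M v a ≤ pr M v 0 := by
  have hN : (0 : ℝ) < N := by exact_mod_cast Nat.pos_of_ne_zero (NeZero.ne N)
  have h := pr_eq (by omega : 2 ≤ M) v a
  have h0 := Zf_eq (by omega : 2 ≤ M) v
  have h1 : N * pr M v a ≤ Zf M v := by
    have : (N * pr M v a : ℝ) = ‖((N * pr M v a : ℝ) : ℂ)‖ := by
      rw [Complex.norm_real, Real.norm_eq_abs, abs_of_nonneg]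
      unfold pr
      (clear * - hN hM; positivity)
    rw [this, h, h0]
    refine (norm_sum_le _ _).trans (sum_le_sum fun t _ => ?_)
    rw [norm_mul, norm_ee, one_mul, Complex.norm_real, Real.norm_eq_abs, abs_of_nonneg]
    exact prod_nonneg fun i _ => cf_nonneg hM (norm_ee _)
  unfold Zf at h1
  exact le_of_mul_le_mul_left h1 hN

end zmod

end Vale.Agent.P160
end
end

section

section

set_option linter.unusedSectionVars false

namespace Vale.Agent.P160

open Finset Matrix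

section rank

variable {α β : Type*} [Fintype α] [Fintype β] [DecidableEq α] [DecidableEq β]

/-- Number of `z` mod `N` with `Hᵀ z = 0`. -/
def kerT (N : ℕ) [NeZero N] (H : β → α → ℤ) : Finset (β → ZMod N) :=
  univ.filter (fun z => ∀ l, ∑ i, (H i l : ZMod N) * z i = 0)

lemma mem_kerT {N : ℕ} [NeZero N] {H : β → α → ℤ} {z : β → ZMod N} :
    z ∈ kerT N H ↔ ∀ l, ∑ i, (H i l : ZMod N) * z i = 0 := by
  simp only [kerT, mem_filter, mem_univ, true_and]

/-- The number of solutions of an inhomogeneous system is at most that of the homogeneous one. -/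
lemma card_affine_le {N : ℕ} [NeZero N] (H : β → α → ℤ) (w : α → ZMod N) :
    (univ.filter (fun z : β → ZMod N => ∀ l, ∑ i, (H i l : ZMod N) * z i = w l)).card ≤
      (kerT N H).card := by
  by_cases hne : (univ.filter (fun z : β → ZMod N =>
      ∀ l, ∑ i, (H i l : ZMod N) * z i = w l)).Nonempty
  · obtain ⟨z₀, hz₀⟩ := hne
    refine Finset.card_le_card_of_injOn (fun z => z - z₀) ?_ ?_
    · intro z hz
      simp only [coe_filter, mem_univ, true_and, Set.mem_ofPred_eq, mem_filter] at hz hz₀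
      rw [Finset.mem_coe, mem_kerT]
      intro l
      simp only [Pi.sub_apply, mul_sub, sum_sub_distrib]
      rw [hz l, hz₀ l, sub_self]
    · intro z _ z' _ h
      exact sub_left_injective h
  · rw [Finset.not_nonempty_iff_eq_empty] at hne
    rw [hne]; simp only [card_empty, zero_le]

variable (q : ℕ) [Fact q.Prime]

end rank

end Vale.Agent.P160
end
end

section

section
attribute [-instance] ProperSMul.toContinuousSMul IsTopologicalTorsor.toContinuousSMul IdemSemiring.toCanonicallyOrderedAdd IdemSemiring.toMulLeftMono IdemSemiring.toMulRightMono AddQuantale.instAddLeftMono AddQuantale.instAddRightMono Quantale.instMulLeftMono Quantale.instMulRightMono FiniteDimensional.rclike_to_real IsScalarTower.complexToReal FiniteDimensional.complexToReal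

namespace Vale.Agent.P160

open Finset

lemma sum_fin_succ_fun {n : ℕ} {α : Type*} [Fintype α] {R : Type*} [AddCommMonoid R]
    (F : (Fin (n + 1) → α) → R) :
    ∑ ω : Fin (n + 1) → α, F ω = ∑ a : α, ∑ ω : Fin n → α, F (Fin.cons a ω) := by
  rw [← (Fin.consEquiv (fun _ : Fin (n + 1) => α)).sum_comp, Fintype.sum_prod_type]
  rfl

lemma pr_eq_sum {ι : Type*} [Fintype ι] [DecidableEq ι] (M : ℕ) {N : ℕ}
    (v : ι → ZMod N) (a : ZMod N) :
    pr M v a = (∑ ω : ι → Fin M, if walk ω v = a then (1 : ℝ) else 0) /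
      (M : ℝ) ^ Fintype.card ι := by
  unfold pr
  rw [Finset.sum_boole]

lemma pr_nonneg {ι : Type*} [Fintype ι] [DecidableEq ι] (M : ℕ) {N : ℕ}
    (v : ι → ZMod N) (a : ZMod N) : 0 ≤ pr M v a := by
  unfold pr
  (clear * -; (clear * -; positivity))

lemma pr_le_one {ι : Type*} [Fintype ι] [DecidableEq ι] (M : ℕ) {N : ℕ}
    (v : ι → ZMod N) (a : ZMod N) : pr M v a ≤ 1 := by
  unfold pr
  refine div_le_one_of_le₀ ?_ (by positivity)
  calc ((univ.filter (fun ω : ι → Fin M => walk ω v = a)).card : ℝ)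
      ≤ ((univ : Finset (ι → Fin M)).card : ℝ) := by
        exact_mod_cast card_le_card (filter_subset _ _)
    _ = (M : ℝ) ^ Fintype.card ι := by simp only [card_univ, Fintype.card_pi, Fintype.card_fin, prod_const, Nat.cast_pow]

lemma walk_cons {n M N : ℕ} (s : Fin M) (ω : Fin n → Fin M) (a : ZMod N) (v : Fin n → ZMod N) :
    walk (Fin.cons s ω : Fin (n + 1) → Fin M) (Fin.cons a v : Fin (n + 1) → ZMod N) =
      (st s : ZMod N) * a + walk ω v := by
  unfold walk
  rw [Fin.sum_univ_succ]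
  simp only [Fin.cons_zero, Fin.cons_succ]

lemma pr_cons {n M N : ℕ} (a : ZMod N) (v : Fin n → ZMod N) (b : ZMod N) :
    pr M (Fin.cons a v : Fin (n + 1) → ZMod N) b =
      (∑ s : Fin M, pr M v (b - (st s : ZMod N) * a)) / M := by
  simp only [pr_eq_sum, sum_fin_succ_fun, walk_cons]
  rw [← Finset.sum_div, Fintype.card_fin, Fintype.card_fin, div_div]
  congr 1
  refine sum_congr rfl fun s _ => sum_congr rfl fun ω _ => ?_
  congr 1
  exact propext ⟨fun h => by rw [← h]; ring, fun h => by rw [h]; ring⟩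

lemma sum_st {M : ℕ} (hM : 2 ≤ M) {R : Type*} [AddCommMonoid R] [Module ℝ R] (g : ℤ → R) :
    ∑ s : Fin M, g (st s) = g 1 + g (-1) + ((M : ℝ) - 2) • g 0 := by
  obtain ⟨k, rfl⟩ : ∃ k, M = k + 2 := ⟨M - 2, by omega⟩
  rw [Fin.sum_univ_succ, Fin.sum_univ_succ]
  have h0 : st (0 : Fin (k + 2)) = 1 := by simp [st]
  have h1 : st (Fin.succ (0 : Fin (k + 1))) = -1 := by simp [st]
  have h2 : ∀ i : Fin k, st (Fin.succ (Fin.succ i)) = 0 := by
    intro i
    simp [st]
  rw [h0, h1]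
  simp only [h2, sum_const, card_univ, Fintype.card_fin]
  rw [add_assoc]
  congr 2
  push_cast
  rw [add_sub_cancel_right, Nat.cast_smul_eq_nsmul]

lemma pr_cons' {n M N : ℕ} (hM : 2 ≤ M) (a : ZMod N) (v : Fin n → ZMod N) (b : ZMod N) :
    pr M (Fin.cons a v : Fin (n + 1) → ZMod N) b =
      (1 - 2 / M) * pr M v b + (pr M v (b - a) + pr M v (b + a)) / M := by
  rw [pr_cons, sum_st hM (fun z : ℤ => pr M v (b - (z : ZMod N) * a))]
  have : (M : ℝ) ≠ 0 := by
    have : (0 : ℝ) < M := by exact_mod_cast (by omega : 0 < M)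
    positivity
  simp only [Int.cast_one, one_mul, Int.cast_neg, neg_mul, sub_neg_eq_add, Int.cast_zero, zero_mul, sub_zero, smul_eq_mul]
  field_simp
  ring

/-- Adding a coordinate does not increase the return probability. -/
lemma pr_cons_le {n M N : ℕ} [NeZero N] (hM : 4 ≤ M) (a : ZMod N) (v : Fin n → ZMod N) :
    pr M (Fin.cons a v : Fin (n + 1) → ZMod N) 0 ≤ pr M v 0 := by
  rw [pr_cons' (by omega)]
  have h1 := pr_le_pr_zero hM v (0 - a)
  have h2 := pr_le_pr_zero hM v (0 + a)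
  have hM0 : (0 : ℝ) < M := by exact_mod_cast (by omega : 0 < M)
  have : (pr M v (0 - a) + pr M v (0 + a)) / M ≤ 2 / M * pr M v 0 := by
    rw [div_mul_eq_mul_div]
    gcongr
    linarith only [h1, h2]
  linarith

lemma sum_pr {ι : Type*} [Fintype ι] [DecidableEq ι] {M N : ℕ} [NeZero N] (hM : 0 < M)
    (v : ι → ZMod N) : ∑ a : ZMod N, pr M v a = 1 := by
  simp only [pr_eq_sum]
  rw [← Finset.sum_div, sum_comm]
  simp only [sum_ite_eq, mem_univ, if_true, sum_const, card_univ, Fintype.card_fun, Fintype.card_fin, nsmul_eq_mul, Nat.cast_pow, mul_one]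
  have : (M : ℝ) ≠ 0 := by exact_mod_cast hM.ne'
  exact div_self (pow_ne_zero _ this)

/-- The number of weights `a` for which the return probability does not drop. -/
lemma card_bad {n M N : ℕ} [NeZero N] (hM : 4 ≤ M) (v : Fin n → ZMod N) {ρ ε' : ℝ}
    (hρ : 1 - 2 / M + ε' ≤ ρ) :
    ((univ.filter (fun a : ZMod N => ρ * pr M v 0 <
      pr M (Fin.cons a v : Fin (n + 1) → ZMod N) 0)).card : ℝ) * (ε' * pr M v 0) ≤ 2 / M := by
  have hM0 : (0 : ℝ) < M := by exact_mod_cast (by omega : 0 < M)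
  have hsum : ∑ a : ZMod N, (pr M v (0 - a) + pr M v (0 + a)) / M = 2 / M := by
    rw [← Finset.sum_div, sum_add_distrib]
    congr 1
    have h1 : ∑ a : ZMod N, pr M v (0 - a) = 1 := by
      rw [← sum_pr (by omega : 0 < M) v]
      exact (Equiv.subLeft (0 : ZMod N)).sum_comp (fun a => pr M v a)
    have h2 : ∑ a : ZMod N, pr M v (0 + a) = 1 := by
      rw [← sum_pr (by omega : 0 < M) v]
      simp only [zero_add]
    rw [h1, h2]; norm_num
  rw [← hsum]
  rw [← nsmul_eq_mul, ← sum_const]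
  refine (sum_le_sum ?_).trans (sum_le_sum_of_subset_of_nonneg (filter_subset _ _) ?_)
  · intro a ha
    rw [mem_filter] at ha
    have h := ha.2
    rw [pr_cons' (by omega : 2 ≤ M)] at h
    have h0 := pr_nonneg M v 0
    nlinarith only [h, hρ, h0]
  · intro a _ _
    have := pr_nonneg M v (0 - a)
    have := pr_nonneg M v (0 + a)
    (clear ε' hρ hM0 hsum; positivity)

/-- Moment recursion for the number of weight vectors with large return probability. -/
lemma moment_rec {M N : ℕ} [NeZero N] (hM : 4 ≤ M) {ρ ε' β κ : ℝ}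
    (hρ : 1 - 2 / M + ε' ≤ ρ) (hρ0 : 0 ≤ ρ) (hε' : 0 < ε') (hβ : 0 < β) (hκ : 0 ≤ κ) (n : ℕ) :
    ∑ v : Fin n → ZMod N, (if β ≤ pr M v 0 then (pr M v 0) ^ κ else 0) ≤
      (2 / M / (ε' * β) + N * ρ ^ κ) ^ n := by
  have hM0 : (0 : ℝ) < M := by exact_mod_cast (by omega : 0 < M)
  induction n with
  | zero =>
    simp only [univ_unique, sum_singleton, pow_zero]
    split_ifs
    · exact Real.rpow_le_one (pr_nonneg _ _ _) (pr_le_one _ _ _) hκ
    · exact zero_le_one
  | succ n ih =>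
    rw [sum_fin_succ_fun, sum_comm, pow_succ]
    have hb : 0 ≤ 2 / M / (ε' * β) + N * ρ ^ κ := by (clear * - hM hε' hβ hρ0; (clear * - hM hε' hβ hρ0; positivity))
    refine le_trans ?_ (mul_le_mul_of_nonneg_right ih hb)
    rw [sum_mul]
    refine sum_le_sum fun v _ => ?_
    by_cases hv : β ≤ pr M v 0
    · rw [if_pos hv]
      have hpos : 0 < pr M v 0 := lt_of_lt_of_le hβ hv
      -- bad and good a
      have hsplit : ∀ a : ZMod N, (if β ≤ pr M (Fin.cons a v : Fin (n + 1) → ZMod N) 0 then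
          (pr M (Fin.cons a v : Fin (n + 1) → ZMod N) 0) ^ κ else 0) ≤
          (if ρ * pr M v 0 < pr M (Fin.cons a v : Fin (n + 1) → ZMod N) 0 then
            (pr M v 0) ^ κ else 0) + ρ ^ κ * (pr M v 0) ^ κ := by
        intro a
        have hle := pr_cons_le hM a v
        have hnn := pr_nonneg M (Fin.cons a v : Fin (n + 1) → ZMod N) 0
        by_cases hbad : ρ * pr M v 0 < pr M (Fin.cons a v : Fin (n + 1) → ZMod N) 0
        · rw [if_pos hbad]
          have : 0 ≤ ρ ^ κ * (pr M v 0) ^ κ := by (clear * - hρ0 hpos; positivity)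
          split_ifs
          · have := Real.rpow_le_rpow hnn hle hκ
            (clear ε' hρ hε' hM0 ih hb hbad; linarith)
          · have : 0 ≤ (pr M v 0) ^ κ := by (clear * - hpos; positivity)
            (clear hM ε' hρ hε' hκ hM0 ih hb hle hnn hbad; linarith)
        · rw [if_neg hbad, zero_add]
          push Not at hbad
          have h3 : (pr M (Fin.cons a v : Fin (n + 1) → ZMod N) 0) ^ κ ≤
              ρ ^ κ * (pr M v 0) ^ κ := by
            rw [← Real.mul_rpow hρ0 hpos.le]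
            exact Real.rpow_le_rpow hnn hbad hκ
          split_ifs
          · exact h3
          · (clear * - hρ0 hpos; positivity)
      refine (sum_le_sum fun a _ => hsplit a).trans ?_
      rw [sum_add_distrib, ← sum_filter, sum_const, sum_const, nsmul_eq_mul, nsmul_eq_mul,
        card_univ, ZMod.card]
      have hcb := card_bad hM v hρ
      set c := ((univ.filter (fun a : ZMod N => ρ * pr M v 0 <
        pr M (Fin.cons a v : Fin (n + 1) → ZMod N) 0)).card : ℝ) with hc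
      have hc2 : c ≤ 2 / M / (ε' * β) := by
        rw [le_div_iff₀ (by (clear * - hε' hβ; positivity))]
        refine le_trans ?_ hcb
        have : 0 ≤ c := by rw [hc]; (clear hM ε' β κ hρ hρ0 hε' hβ hκ hM0 ih hb hv hpos hsplit c hcb hc; positivity)
        (clear hM κ hρ hρ0 hβ hκ hM0 ih hb hpos hsplit hcb hc this; gcongr)
      have hpk : 0 ≤ (pr M v 0) ^ κ := by positivity
      nlinarith only [hc2, hpk]
    · rw [if_neg hv, zero_mul]
      refine (sum_nonpos fun a _ => ?_)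
      have hle := pr_cons_le hM a v
      rw [if_neg]
      intro h
      exact hv (h.trans hle)

/-- Counting weight vectors with large return probability. -/
lemma card_large {M N : ℕ} [NeZero N] (hM : 4 ≤ M) {ρ ε' β κ : ℝ}
    (hρ : 1 - 2 / M + ε' ≤ ρ) (hρ0 : 0 ≤ ρ) (hε' : 0 < ε') (hβ : 0 < β) (hκ : 0 ≤ κ) (n : ℕ) :
    ((univ.filter (fun v : Fin n → ZMod N => β ≤ pr M v 0)).card : ℝ) * β ^ κ ≤
      (2 / M / (ε' * β) + N * ρ ^ κ) ^ n := by
  refine le_trans ?_ (moment_rec hM hρ hρ0 hε' hβ hκ n)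
  rw [← sum_filter, ← nsmul_eq_mul, ← sum_const]
  refine sum_le_sum fun v hv => ?_
  rw [mem_filter] at hv
  exact Real.rpow_le_rpow hβ.le hv.2 hκ

end Vale.Agent.P160
end
end

section

section

namespace Vale.Agent.P160

open Finset

/-- Product of one-step characteristic functions along `t`. -/
noncomputable def PP {ι : Type*} [Fintype ι] (M : ℕ) {N : ℕ} [NeZero N]
    (v : ι → ZMod N) (t : ZMod N) : ℝ := ∏ i, cf M (ee (t * v i))

section
variable {M N : ℕ} [NeZero N]

lemma PP_nonneg {ι : Type*} [Fintype ι] (hM : 4 ≤ M) (v : ι → ZMod N) (t : ZMod N) :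
    0 ≤ PP M v t := prod_nonneg fun _ _ => cf_nonneg hM (norm_ee _)

lemma cf_one : cf M 1 = 1 := by simp [cf]

lemma PP_zero {ι : Type*} [Fintype ι] (v : ι → ZMod N) : PP M v 0 = 1 := by
  simp only [PP, zero_mul, ee_zero, cf_one, prod_const_one]

lemma Zf_eq_sum_PP {ι : Type*} [Fintype ι] [DecidableEq ι] (hM : 2 ≤ M) (v : ι → ZMod N) :
    Zf M v = ∑ t : ZMod N, PP M v t := Zf_eq hM v

lemma PP_append {a b : ℕ} (va : Fin a → ZMod N) (vb : Fin b → ZMod N) (t : ZMod N) :
    PP M (Fin.append va vb) t = PP M va t * PP M vb t := by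
  unfold PP
  rw [Fin.prod_univ_add]
  simp only [Fin.append_left, Fin.append_right]

/-- Return probability of the integer lazy walk with `k` steps. -/
noncomputable def rk (M k : ℕ) : ℝ :=
  ((univ.filter (fun ω : Fin k → Fin M => ∑ i, st (ω i) = 0)).card : ℝ) / (M : ℝ) ^ k

lemma rk_nonneg (k : ℕ) : 0 ≤ rk M k := by unfold rk; (clear * -; positivity)

lemma abs_st_le (a : Fin M) : |st a| ≤ 1 := by
  unfold st
  split_ifs <;> simp

lemma abs_sum_st_le {k : ℕ} (ω : Fin k → Fin M) : |∑ i, st (ω i)| ≤ k := by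
  refine (abs_sum_le_sum_abs _ _).trans ?_
  refine (sum_le_sum fun i _ => abs_st_le (ω i)).trans ?_
  simp only [sum_const, card_univ, Fintype.card_fin, Int.nsmul_eq_mul, mul_one, Std.le_refl]

/-- For `t` of order larger than `k`, the return probability of the constant walk is `rk`. -/
lemma pr_const {k : ℕ} (t : ZMod N) (ht : ∀ i : ℕ, 1 ≤ i → i ≤ k → (i : ZMod N) * t ≠ 0) :
    pr M (fun _ : Fin k => t) 0 = rk M k := by
  unfold pr rk
  rw [Fintype.card_fin]
  congr 3
  ext ω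
  simp only [mem_filter, mem_univ, true_and]
  unfold walk
  rw [← sum_mul]
  constructor
  · intro h
    by_contra hne
    have habs := abs_sum_st_le ω
    rw [Int.abs_eq_natAbs] at habs
    set s := ∑ i, st (ω i) with hs
    have hcast : (∑ i, ((st (ω i) : ℤ) : ZMod N)) = ((s : ℤ) : ZMod N) := by
      rw [hs]; push_cast; rfl
    rw [hcast] at h
    refine ht s.natAbs (by omega) (by omega) ?_
    rcases Int.natAbs_eq s with h' | h'
    · rw [h'] at h
      simpa only [Nat.cast_natAbs, Int.cast_abs, Int.cast_eq] using h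
    · rw [h'] at h
      simpa only [Nat.cast_natAbs, Int.cast_abs, Int.cast_eq, Int.cast_neg, neg_mul, neg_eq_zero] using h
  · intro h
    have : (∑ i, ((st (ω i) : ℤ) : ZMod N)) = (((∑ i, st (ω i)) : ℤ) : ZMod N) := by
      push_cast; rfl
    rw [this, h]
    simp

lemma sum_cf_pow (hM : 2 ≤ M) (k : ℕ) (t : ZMod N) :
    ∑ a : ZMod N, cf M (ee (t * a)) ^ k = N * pr M (fun _ : Fin k => t) 0 := by
  have := Zf_eq hM (fun _ : Fin k => t)
  unfold Zf at this
  rw [this]
  refine sum_congr rfl fun a _ => ?_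
  rw [prod_const, card_univ, Fintype.card_fin, mul_comm]

/-- The `k`-th moment over the second block. -/
lemma sum_PP_pow (hM : 2 ≤ M) {k : ℕ} (b : ℕ) (t : ZMod N)
    (ht : ∀ i : ℕ, 1 ≤ i → i ≤ k → (i : ZMod N) * t ≠ 0) :
    ∑ vb : Fin b → ZMod N, (PP M vb t) ^ k = (N * rk M k) ^ b := by
  rw [← pr_const t ht, ← sum_cf_pow hM]
  unfold PP
  have h := Finset.prod_univ_sum (fun _ : Fin b => (univ : Finset (ZMod N)))
    (fun _ a => cf M (ee (t * a)) ^ k)
  rw [Fintype.piFinset_univ] at h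
  simp only [← prod_pow]
  rw [← h]
  simp only [prod_const, card_univ, Fintype.card_fin]

/-- Weighted power mean inequality. -/
lemma power_mean {ι : Type*} (s : Finset ι) (w X : ι → ℝ) (hw : ∀ i ∈ s, 0 ≤ w i)
    (hX : ∀ i ∈ s, 0 ≤ X i) {Λ : ℝ} (hΛ : 0 < Λ) (hwΛ : ∑ i ∈ s, w i ≤ Λ) (k : ℕ) :
    (∑ i ∈ s, w i * X i) ^ (k + 1) ≤ Λ ^ k * ∑ i ∈ s, w i * X i ^ (k + 1) := by
  have hW0 : 0 ≤ ∑ i ∈ s, w i := sum_nonneg hw
  rcases hW0.eq_or_lt with hW | hW
  · have : ∀ i ∈ s, w i = 0 := (sum_eq_zero_iff_of_nonneg hw).mp hW.symm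
    have h1 : ∑ i ∈ s, w i * X i = 0 := sum_eq_zero fun i hi => by rw [this i hi, zero_mul]
    rw [h1, zero_pow (Nat.succ_ne_zero k)]
    exact mul_nonneg (by positivity) (sum_nonneg fun i hi => mul_nonneg (hw i hi)
      (pow_nonneg (hX i hi) _))
  · set W := ∑ i ∈ s, w i with hWdef
    have hmean := Real.pow_arith_mean_le_arith_mean_pow s (fun i => w i / W) X
      (fun i hi => div_nonneg (hw i hi) hW.le)
      (by rw [← sum_div]; exact div_self hW.ne') hX (k + 1)
    have h1 : ∑ i ∈ s, w i / W * X i = (∑ i ∈ s, w i * X i) / W := by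
      rw [sum_div]; exact sum_congr rfl fun i _ => by ring
    have h2 : ∑ i ∈ s, w i / W * X i ^ (k + 1) = (∑ i ∈ s, w i * X i ^ (k + 1)) / W := by
      rw [sum_div]; exact sum_congr rfl fun i _ => by ring
    rw [h1, h2, div_pow, div_le_div_iff₀ (by (clear * - hW; positivity)) hW] at hmean
    have hnn : 0 ≤ ∑ i ∈ s, w i * X i ^ (k + 1) :=
      sum_nonneg fun i hi => mul_nonneg (hw i hi) (pow_nonneg (hX i hi) _)
    have h3 : (∑ i ∈ s, w i * X i) ^ (k + 1) ≤ (∑ i ∈ s, w i * X i ^ (k + 1)) * W ^ k := by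
      rw [pow_succ W k, ← mul_assoc] at hmean
      exact le_of_mul_le_mul_right hmean hW
    refine h3.trans ?_
    rw [mul_comm]
    (clear * - hW hwΛ hnn; gcongr)

/-- The order of `t` is at most `k`. -/
def SmallOrd (N k : ℕ) (t : ZMod N) : Prop := ∃ i ∈ Finset.Icc 1 k, (i : ZMod N) * t = 0

open Classical in
/-- Frequencies of small order. -/
noncomputable def T0 (N k : ℕ) [NeZero N] : Finset (ZMod N) :=
  univ.filter (SmallOrd N k)

lemma mem_T0 {k : ℕ} {t : ZMod N} : t ∈ T0 N k ↔ SmallOrd N k t := by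
  classical
  simp [T0]

lemma card_T0_le (k : ℕ) : ((T0 N k).card : ℝ) ≤ (k : ℝ) ^ 2 := by
  classical
  have h1 : T0 N k ⊆ (Finset.Icc 1 k).biUnion fun i =>
      univ.filter fun t : ZMod N => i • t = 0 := by
    intro t ht
    rw [mem_T0] at ht
    obtain ⟨i, hi, h⟩ := ht
    rw [mem_biUnion]
    refine ⟨i, hi, ?_⟩
    rw [mem_filter]
    exact ⟨mem_univ _, by rw [nsmul_eq_mul]; exact h⟩
  have h2 : (T0 N k).card ≤ ∑ i ∈ Finset.Icc 1 k, k := by
    refine (card_le_card h1).trans (card_biUnion_le.trans (sum_le_sum fun i hi => ?_))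
    rw [mem_Icc] at hi
    have := IsAddCyclic.card_nsmul_eq_zero_le (α := ZMod N) (n := i) (by omega)
    refine le_trans (le_of_eq ?_) (this.trans hi.2)
    congr
  rw [sum_const, Nat.card_Icc, smul_eq_mul] at h2
  have : (T0 N k).card ≤ k ^ 2 := by
    calc (T0 N k).card ≤ (k + 1 - 1) * k := h2
      _ = k ^ 2 := by rw [Nat.add_sub_cancel]; ring
  exact_mod_cast this

/-- Roots of unity of small order stay away from one. -/
lemma re_le_of_pow_eq_one {z : ℂ} (hz : ‖z‖ = 1) {i k : ℕ} (hi : 1 ≤ i) (hik : i ≤ k)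
    (h1 : z ^ i = 1) (hne : z ≠ 1) : z.re ≤ 1 - 1 / (2 * (k : ℝ) ^ 2) := by
  have hgeom : ∑ l ∈ range i, z ^ l = 0 := by
    have := geom_sum_mul z i
    rw [h1, sub_self] at this
    rcases mul_eq_zero.mp this with h | h
    · exact h
    · exact absurd (sub_eq_zero.mp h) hne
  have hpow : ∀ l : ℕ, ‖1 - z ^ l‖ ≤ l * ‖1 - z‖ := by
    intro l
    induction l with
    | zero => simp
    | succ l ih =>
      have : 1 - z ^ (l + 1) = (1 - z ^ l) + z ^ l * (1 - z) := by ring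
      rw [this]
      refine (norm_add_le _ _).trans ?_
      rw [norm_mul, norm_pow, hz, one_pow, one_mul]
      push_cast
      linarith only [ih]
  have hsum : (i : ℝ) ≤ i * (i * ‖1 - z‖) := by
    have h2 : ((i : ℕ) : ℂ) = ∑ l ∈ range i, (1 - z ^ l) := by
      rw [sum_sub_distrib, hgeom]
      simp only [sum_const, card_range, nsmul_eq_mul, mul_one, sub_zero]
    calc (i : ℝ) = ‖((i : ℕ) : ℂ)‖ := by simp only [RCLike.norm_natCast]
      _ = ‖∑ l ∈ range i, (1 - z ^ l)‖ := by rw [h2]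
      _ ≤ ∑ l ∈ range i, ‖1 - z ^ l‖ := norm_sum_le _ _
      _ ≤ ∑ l ∈ range i, (i * ‖1 - z‖) := by
        refine sum_le_sum fun l hl => (hpow l).trans ?_
        have : (l : ℝ) ≤ i := by exact_mod_cast (mem_range.mp hl).le
        (clear * - this; gcongr)
      _ = i * (i * ‖1 - z‖) := by simp only [sum_const, card_range, nsmul_eq_mul]
  have hi0 : (0 : ℝ) < i := by exact_mod_cast hi
  have hk : (i : ℝ) ≤ k := by exact_mod_cast hik
  have h3 : 1 ≤ (k : ℝ) * ‖1 - z‖ := by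
    have h4 : 1 ≤ (i : ℝ) * ‖1 - z‖ := by
      by_contra hcon
      push Not at hcon
      have := mul_lt_mul_of_pos_left hcon hi0
      rw [mul_one] at this
      linarith only [hsum, this]
    refine h4.trans ?_
    (clear * - hk; gcongr)
  have hnorm : ‖1 - z‖ ^ 2 = 2 - 2 * z.re := by
    rw [← Complex.normSq_eq_norm_sq, Complex.normSq_apply]
    have : z.re * z.re + z.im * z.im = 1 := by
      rw [← Complex.normSq_apply, Complex.normSq_eq_norm_sq, hz]; norm_num
    simp only [Complex.sub_re, Complex.one_re, Complex.sub_im, Complex.one_im, zero_sub]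
    linarith only [this]
  have hk0 : (0 : ℝ) < k := lt_of_lt_of_le hi0 hk
  have h5 : 1 ≤ (k : ℝ) ^ 2 * ‖1 - z‖ ^ 2 := by
    rw [← mul_pow]
    exact one_le_pow₀ h3
  rw [hnorm] at h5
  have h6 : 1 / (2 * (k : ℝ) ^ 2) ≤ 1 - z.re := by
    rw [div_le_iff₀ (by (clear * - hk0; (clear * - hk0; positivity)))]
    nlinarith only [h5]
  linarith only [h6]

lemma ee_ne_one {x : ZMod N} (hx : x ≠ 0) : ee x ≠ 1 := by
  intro h
  apply hx
  have := ZMod.injective_stdAddChar (N := N)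
  apply this
  unfold ee at h
  rw [h, AddChar.map_zero_eq_one]

lemma cf_le_of_small_order {k i : ℕ} (hM : 0 < M) (hi : 1 ≤ i) (hik : i ≤ k) {x : ZMod N}
    (hx : x ≠ 0) (h : (i : ZMod N) * x = 0) :
    cf M (ee x) ≤ 1 - 1 / (M * (k : ℝ) ^ 2) := by
  have h1 : ee x ^ i = 1 := by
    rw [← ee_natCast_mul, h, ee_zero]
  have := re_le_of_pow_eq_one (norm_ee x) hi hik h1 (ee_ne_one hx)
  unfold cf
  have hM' : (0 : ℝ) < M := by exact_mod_cast hM
  have hk : (0 : ℝ) < k := by exact_mod_cast (by omega : 0 < k)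
  have h2 : 2 / (M : ℝ) * (ee x).re ≤ 2 / M * (1 - 1 / (2 * (k : ℝ) ^ 2)) := by
    gcongr
  have h3 : 2 / (M : ℝ) * (1 - 1 / (2 * (k : ℝ) ^ 2)) = 2 / M - 1 / (M * (k : ℝ) ^ 2) := by
    (clear * - hk hM; field_simp)
  linarith

open Classical in
/-- Number of unit coordinates. -/
noncomputable def nu {ι : Type*} [Fintype ι] {N : ℕ}
    (v : ι → ZMod N) : ℕ := (univ.filter fun i => IsUnit (v i)).card

/-- Bound of `PP` at frequencies of small order. -/
lemma PP_small_order {ι : Type*} [Fintype ι]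
    {k : ℕ} (hM : 4 ≤ M) (hk : 1 ≤ k)
    (v : ι → ZMod N) {t : ZMod N} (ht : t ∈ T0 N k) (ht0 : t ≠ 0) :
    PP M v t ≤ (1 - 1 / (M * (k : ℝ) ^ 2)) ^ (nu v) := by
  classical
  rw [mem_T0] at ht
  obtain ⟨i, hi, h⟩ := ht
  rw [mem_Icc] at hi
  have hnu : nu v = (univ.filter fun i => IsUnit (v i)).card := by unfold nu; congr
  rw [hnu]
  unfold PP
  rw [← prod_filter_mul_prod_filter_not univ (fun i => IsUnit (v i))]
  have hM' : (4 : ℝ) ≤ M := by exact_mod_cast hM
  have hk' : (1 : ℝ) ≤ k := by exact_mod_cast hk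
  have hc : 0 ≤ 1 - 1 / (M * (k : ℝ) ^ 2) := by
    rw [sub_nonneg, div_le_one (by (clear * - hM hk; positivity))]
    nlinarith only [hk', hM']
  have h1 : ∏ x ∈ univ.filter (fun i => IsUnit (v i)), cf M (ee (t * v x)) ≤
      (1 - 1 / (M * (k : ℝ) ^ 2)) ^ (univ.filter (fun i => IsUnit (v i))).card := by
    rw [← prod_const]
    refine prod_le_prod (fun _ _ => cf_nonneg hM (norm_ee _)) fun l hl => ?_
    rw [mem_filter] at hl
    refine cf_le_of_small_order (by omega) hi.1 hi.2 ?_ ?_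
    · intro h0
      apply ht0
      exact (hl.2.mul_left_eq_zero).mp h0
    · rw [← mul_assoc, h, zero_mul]
  have h2 : ∏ x ∈ univ.filter (fun i => ¬ IsUnit (v i)), cf M (ee (t * v x)) ≤ 1 :=
    prod_le_one (fun _ _ => cf_nonneg hM (norm_ee _)) fun _ _ => cf_le_one (norm_ee _)
  have h3 : 0 ≤ ∏ x ∈ univ.filter (fun i => ¬ IsUnit (v i)), cf M (ee (t * v x)) :=
    prod_nonneg fun _ _ => cf_nonneg hM (norm_ee _)
  calc _ ≤ (1 - 1 / (M * (k : ℝ) ^ 2)) ^ (univ.filter (fun i => IsUnit (v i))).card * 1 := by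
        gcongr
    _ = _ := mul_one _

end

end Vale.Agent.P160
end
end

section

section

set_option linter.unusedSectionVars false

/-!
Definitions for the bound `limsup q_n ^ (1/n) ≤ 1 / sqrt 2`.
-/

namespace Vale.Agent.P160

open Finset

section defs

variable {α β : Type*} [Fintype α] [Fintype β] [DecidableEq α] [DecidableEq β]

/-- The half-lazy integer matrix with seeds `ω`. -/
def hm (ω : β → α → Fin 4) : β → α → ℤ := fun i l => st (ω i l)

/-- The kernel of `H` mod `N` (column vectors). -/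
def kerN (N : ℕ) [NeZero N] (H : β → α → ℤ) : Finset (α → ZMod N) :=
  univ.filter (fun u => ∀ i, ∑ l, (H i l : ZMod N) * u l = 0)

/-- Reductions mod 2 of the kernel vectors mod `2 ^ κ`. -/
def redN (κ : ℕ) (H : β → α → ℤ) : Finset (α → ZMod 2) :=
  (kerN (2 ^ κ) H).image (fun u i => ((u i).cast : ZMod 2))

/-- Unstructured vectors: at every level `j` with `I < j ≤ J`, all shifts of `x` by multiples of
`2 ^ (j - I)` have a flat lazy walk. -/
def GoodX (I : ℕ) (τ : ℝ) {J : ℕ} (x : α → ZMod (2 ^ J)) : Prop :=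
  ∀ j, I < j → j ≤ J → ∀ k : α → ZMod (2 ^ j),
    Zf 6 (fun i => ((x i).cast : ZMod (2 ^ j)) + 2 ^ (j - I) * k i) ≤ 1 + τ

/-- Two seed vectors are adjacent with respect to the square matrix `P` mod `2 ^ κ`. -/
def AdjP {κ r : ℕ} (P : Matrix (Fin r) (Fin r) (ZMod (2 ^ κ))) (ρ q : Fin r → Fin 4) : Prop :=
  ∃ lam y : Fin r → ZMod (2 ^ κ),
    P.transpose.mulVec lam = (fun j => ((st (ρ j) : ℤ) : ZMod (2 ^ κ))) ∧
    P.mulVec y = (fun j => ((st (q j) : ℤ) : ZMod (2 ^ κ))) ∧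
    (∑ j, lam j * ((st (q j) : ℤ) : ZMod (2 ^ κ)) = 0 ∨
      ∑ j, lam j * ((st (q j) : ℤ) : ZMod (2 ^ κ)) = 1 ∨
      ∑ j, lam j * ((st (q j) : ℤ) : ZMod (2 ^ κ)) = -1)

end defs

end Vale.Agent.P160
end
end

section

section

set_option linter.unusedSectionVars false

namespace Vale.Agent.P160

open Finset

section group

variable {G : Type*} [AddCommGroup G] [Fintype G] [DecidableEq G]
variable {E : Type*} [Fintype E] [DecidableEq E]

/-- Lazy walk with weights in an abelian group. -/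
def gwalk {M : ℕ} (ω : E → Fin M) (c : E → G) : G := ∑ e, (st (ω e)) • c e

/-- Probability that the lazy walk with weights `c` ends at `g`. -/
noncomputable def gpr (M : ℕ) (c : E → G) (g : G) : ℝ :=
  ((univ.filter (fun ω : E → Fin M => gwalk ω c = g)).card : ℝ) / (M : ℝ) ^ Fintype.card E

/-- Random subset sum. -/
def bwalk (b : E → Bool) (c : E → G) : G := ∑ e, if b e then c e else 0

/-- Probability that the uniform random subset sum is `g`. -/
noncomputable def bpr (c : E → G) (g : G) : ℝ :=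
  ((univ.filter (fun b : E → Bool => bwalk b c = g)).card : ℝ) / (2 : ℝ) ^ Fintype.card E

lemma norm_addChar (ψ : AddChar G ℂ) (g : G) : ‖ψ g‖ = 1 := AddChar.norm_apply ψ g

/-- Counting solutions of `f ω = g` by characters. -/
lemma card_filter_eq_sum {Ω : Type*} [Fintype Ω] (f : Ω → G) (g : G) :
    (Fintype.card G : ℂ) * ((univ.filter (fun ω : Ω => f ω = g)).card : ℂ) =
      ∑ ψ : AddChar G ℂ, ψ (-g) * ∑ ω : Ω, ψ (f ω) := by
  classical
  have h1 : ∀ ω : Ω, (∑ ψ : AddChar G ℂ, ψ (-g) * ψ (f ω)) =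
      if f ω = g then (Fintype.card G : ℂ) else 0 := by
    intro ω
    have := AddChar.sum_apply_eq_ite (f ω - g)
    simp only [sub_eq_zero] at this
    rw [← this]
    refine sum_congr rfl fun ψ _ => ?_
    rw [← AddChar.map_add_eq_mul]
    congr 1
    abel
  calc (Fintype.card G : ℂ) * ((univ.filter (fun ω : Ω => f ω = g)).card : ℂ)
      = ∑ ω : Ω, if f ω = g then (Fintype.card G : ℂ) else 0 := by
        rw [← sum_filter, sum_const, nsmul_eq_mul, mul_comm]
    _ = ∑ ω : Ω, ∑ ψ : AddChar G ℂ, ψ (-g) * ψ (f ω) := by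
        refine sum_congr rfl fun ω _ => ?_
        rw [h1]
    _ = _ := by
        rw [sum_comm]
        refine sum_congr rfl fun ψ _ => ?_
        rw [mul_sum]

lemma addChar_sum {κ : Type*} (ψ : AddChar G ℂ) (s : Finset κ) (f : κ → G) :
    ψ (∑ i ∈ s, f i) = ∏ i ∈ s, ψ (f i) := by
  classical
  induction s using Finset.induction_on with
  | empty => simp
  | insert a s ha ih => rw [sum_insert ha, prod_insert ha, AddChar.map_add_eq_mul, ih]

lemma sum_addChar_gwalk {M : ℕ} (hM : 2 ≤ M) (ψ : AddChar G ℂ) (c : E → G) :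
    ∑ ω : E → Fin M, ψ (gwalk ω c) =
      (((M : ℝ) ^ Fintype.card E * ∏ e, cf M (ψ (c e)) : ℝ) : ℂ) := by
  rw [← sum_prod_zpow_st hM (fun e => ψ (c e)) (fun e => norm_addChar ψ _)]
  refine sum_congr rfl fun ω _ => ?_
  unfold gwalk
  rw [addChar_sum]
  refine prod_congr rfl fun e _ => ?_
  rw [AddChar.map_zsmul_eq_zpow]

lemma sum_addChar_bwalk (ψ : AddChar G ℂ) (c : E → G) :
    ∑ b : E → Bool, ψ (bwalk b c) = ∏ e, (1 + ψ (c e)) := by
  have h := Finset.prod_univ_sum (fun _ : E => (univ : Finset Bool))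
    (fun e a => ψ (if a then c e else 0))
  rw [Fintype.piFinset_univ] at h
  have h2 : ∀ e, ∑ a : Bool, ψ (if a then c e else 0) = 1 + ψ (c e) := by
    intro e
    rw [Fintype.sum_bool]
    simp [add_comm]
  simp only [h2] at h
  rw [h]
  refine sum_congr rfl fun b _ => ?_
  unfold bwalk
  rw [addChar_sum]

/-- Fourier formula for the lazy walk in a group. -/
lemma gpr_eq {M : ℕ} (hM : 2 ≤ M) (c : E → G) (g : G) :
    ((Fintype.card G * gpr M c g : ℝ) : ℂ) =
      ∑ ψ : AddChar G ℂ, ψ (-g) * ((∏ e, cf M (ψ (c e)) : ℝ) : ℂ) := by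
  have hM0 : ((M : ℝ) ^ Fintype.card E : ℝ) ≠ 0 := by
    have : (0 : ℝ) < M := by exact_mod_cast (by omega : 0 < M)
    (clear * - hM; positivity)
  have hM0' : (((M : ℝ) ^ Fintype.card E : ℝ) : ℂ) ≠ 0 := by exact_mod_cast hM0
  have h := card_filter_eq_sum (fun ω : E → Fin M => gwalk ω c) g
  rw [← mul_right_inj' hM0']
  have e1 : (((M : ℝ) ^ Fintype.card E : ℝ) : ℂ) * ((Fintype.card G * gpr M c g : ℝ) : ℂ) =
      (Fintype.card G : ℂ) *
        ((univ.filter (fun ω : E → Fin M => gwalk ω c = g)).card : ℂ) := by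
    have : (M : ℂ) ^ Fintype.card E ≠ 0 := by exact_mod_cast hM0
    unfold gpr
    push_cast
    field_simp
  rw [e1, h, mul_sum]
  refine sum_congr rfl fun ψ _ => ?_
  rw [sum_addChar_gwalk hM]
  push_cast
  ring

lemma gpr_zero_eq {M : ℕ} (hM : 2 ≤ M) (c : E → G) :
    Fintype.card G * gpr M c 0 = ∑ ψ : AddChar G ℂ, ∏ e, cf M (ψ (c e)) := by
  have h := gpr_eq hM c 0
  simp only [neg_zero, AddChar.map_zero_eq_one, one_mul] at h
  exact_mod_cast h

lemma gpr_nonneg {M : ℕ} (c : E → G) (g : G) : 0 ≤ gpr M c g := by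
  unfold gpr
  (clear * -; positivity)

lemma cf_mono {M M' : ℕ} (hM : 4 ≤ M) (hMM : M ≤ M') {z : ℂ} (hz : ‖z‖ = 1) :
    cf M z ≤ cf M' z := by
  have h1 : z.re ≤ 1 := by
    have := Complex.abs_re_le_norm z
    rw [hz] at this
    exact (abs_le.mp this).2
  have hM' : (4 : ℝ) ≤ M := by exact_mod_cast hM
  have hMM' : (M : ℝ) ≤ M' := by exact_mod_cast hMM
  have h2 : 2 / (M' : ℝ) ≤ 2 / (M : ℝ) := by
    apply div_le_div_of_nonneg_left <;> linarith only [hM', hMM']
  unfold cf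
  nlinarith only [h1, h2]

omit [DecidableEq E] in
/-- Dropping factors from a product of numbers in `[0,1]`. -/
lemma prod_le_prod_comp {E' : Type*} [Fintype E'] (f : E' → E) (hf : Function.Injective f)
    (a : E → ℝ) (h0 : ∀ e, 0 ≤ a e) (h1 : ∀ e, a e ≤ 1) :
    ∏ e, a e ≤ ∏ e', a (f e') := by
  classical
  have hmap : ∏ e', a (f e') = ∏ x ∈ (univ : Finset E').map ⟨f, hf⟩, a x := by
    rw [Finset.prod_map]
    rfl
  rw [hmap, ← Finset.prod_sdiff (Finset.subset_univ ((univ : Finset E').map ⟨f, hf⟩))]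
  have h2 : ∏ x ∈ univ \ (univ : Finset E').map ⟨f, hf⟩, a x ≤ 1 :=
    Finset.prod_le_one (fun i _ => h0 i) (fun i _ => h1 i)
  have h3 : 0 ≤ ∏ x ∈ (univ : Finset E').map ⟨f, hf⟩, a x := Finset.prod_nonneg fun i _ => h0 i
  nlinarith only [h2, h3]

/-- Lazy walks: restricting to a sub-family and making the walk lazier increases the
probability of returning to `0`, and `0` is the most likely value. -/
lemma gpr_le_gpr {E' : Type*} [Fintype E'] [DecidableEq E'] {M M' : ℕ} (hM : 4 ≤ M)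
    (hMM : M ≤ M') (f : E' → E) (hf : Function.Injective f) (c : E → G) (g : G) :
    gpr M c g ≤ gpr M' (fun e => c (f e)) 0 := by
  have hG : (0 : ℝ) < Fintype.card G := by exact_mod_cast Fintype.card_pos
  have h := gpr_eq (by omega : 2 ≤ M) c g
  have h0 := gpr_zero_eq (by omega : 2 ≤ M') (fun e => c (f e))
  refine le_of_mul_le_mul_left ?_ hG
  have : (Fintype.card G * gpr M c g : ℝ) = ‖((Fintype.card G * gpr M c g : ℝ) : ℂ)‖ := by
    rw [Complex.norm_real, Real.norm_eq_abs, abs_of_nonneg]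
    exact mul_nonneg hG.le (gpr_nonneg _ _)
  rw [this, h, h0]
  refine (norm_sum_le _ _).trans (sum_le_sum fun ψ _ => ?_)
  rw [norm_mul, norm_addChar, one_mul, Complex.norm_real, Real.norm_eq_abs, abs_of_nonneg
    (prod_nonneg fun i _ => cf_nonneg hM (norm_addChar _ _))]
  refine (prod_le_prod_comp f hf _ (fun e => cf_nonneg hM (norm_addChar _ _))
    (fun e => cf_le_one (norm_addChar _ _))).trans ?_
  exact prod_le_prod (fun i _ => cf_nonneg hM (norm_addChar _ _))
    (fun i _ => cf_mono hM hMM (norm_addChar _ _))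

lemma norm_half_le_cf {z : ℂ} (hz : ‖z‖ = 1) : ‖(1 + z) / 2‖ ≤ cf 8 z := by
  have h1 : ‖(1 + z) / 2‖ ^ 2 = (1 + z.re) / 2 := by
    rw [norm_div, div_pow, ← Complex.normSq_eq_norm_sq (1 + z), Complex.normSq_apply]
    have h2 : z.re * z.re + z.im * z.im = 1 := by
      rw [← Complex.normSq_apply, Complex.normSq_eq_norm_sq, hz]; norm_num
    simp only [Complex.add_re, Complex.one_re, Complex.add_im, Complex.one_im, zero_add, Complex.norm_ofNat]
    linarith
  have hre : -1 ≤ z.re := by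
    have := Complex.abs_re_le_norm z
    rw [hz] at this
    exact (abs_le.mp this).1
  unfold cf
  have h3 : 0 ≤ ‖(1 + z) / 2‖ := norm_nonneg _
  push_cast
  nlinarith only [h1, sq_nonneg (‖(1 + z) / 2‖ - 1)]

end group

end Vale.Agent.P160
end
end

section

section

set_option linter.unusedSectionVars false

namespace Vale.Agent.P160

open Finset

section amgm

variable {T E : Type*} [Fintype T] [Nonempty T] [Fintype E]

lemma prod_le_mean_pow (z : T → ℝ) (hz : ∀ t, 0 ≤ z t) :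
    ∏ t, z t ≤ ((∑ t, z t) / Fintype.card T) ^ Fintype.card T := by
  classical
  have hT : (0 : ℝ) < Fintype.card T := by exact_mod_cast Fintype.card_pos
  have h := Real.geom_mean_le_arith_mean_weighted (univ : Finset T)
    (fun _ => 1 / (Fintype.card T : ℝ)) z (fun _ _ => by (clear z hz hT; positivity))
    (by rw [sum_const, card_univ, nsmul_eq_mul]; (clear z hz hT; field_simp)) (fun t _ => hz t)
  have h1 : ∑ t, 1 / (Fintype.card T : ℝ) * z t = (∑ t, z t) / Fintype.card T := by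
    rw [← mul_sum]; ring
  rw [h1] at h
  have h2 : (∏ t, z t ^ (1 / (Fintype.card T : ℝ))) ^ Fintype.card T = ∏ t, z t := by
    rw [← Finset.prod_pow]
    refine prod_congr rfl fun t _ => ?_
    rw [← Real.rpow_natCast, ← Real.rpow_mul (hz t)]
    rw [one_div, inv_mul_cancel₀ hT.ne', Real.rpow_one]
  rw [← h2]
  exact pow_le_pow_left₀ (prod_nonneg fun t _ => Real.rpow_nonneg (hz t) _) h _

/-- The weighted arithmetic-geometric inequality over a family of patterns. -/
lemma amgm_core (k : E → ℝ) (hk0 : ∀ e, 0 ≤ k e) (w : T → ℝ) (hw : ∀ t, 0 ≤ w t)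
    (hw1 : 1 ≤ ∏ t, w t) (y : T → E → ℝ) (hy : ∀ t e, 0 ≤ y t e)
    (hky : ∀ e, k e ^ Fintype.card T ≤ ∏ t, y t e) :
    ∏ e, k e ≤ (∑ t, w t * ∏ e, y t e) / Fintype.card T := by
  classical
  have hT : (0 : ℝ) < Fintype.card T := by exact_mod_cast Fintype.card_pos
  have h1 : (∏ e, k e) ^ Fintype.card T ≤ ∏ t, (w t * ∏ e, y t e) := by
    rw [← Finset.prod_pow, prod_mul_distrib, Finset.prod_comm (s := (univ : Finset T))]
    have h2 : ∏ e, k e ^ Fintype.card T ≤ ∏ e, ∏ t, y t e :=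
      prod_le_prod (fun e _ => pow_nonneg (hk0 e) _) (fun e _ => hky e)
    have h3 : 0 ≤ ∏ e, ∏ t, y t e := prod_nonneg fun e _ => prod_nonneg fun t _ => hy t e
    nlinarith only [h2, hw1, h3]
  have h2 := prod_le_mean_pow (fun t => w t * ∏ e, y t e)
    (fun t => mul_nonneg (hw t) (prod_nonneg fun e _ => hy t e))
  have h3 : 0 ≤ (∑ t, w t * ∏ e, y t e) / Fintype.card T :=
    div_nonneg (sum_nonneg fun t _ => mul_nonneg (hw t) (prod_nonneg fun e _ => hy t e)) hT.le
  exact le_of_pow_le_pow_left₀ (Fintype.card_ne_zero) h3 (h1.trans h2)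

end amgm

section mixed

variable {G : Type*} [AddCommGroup G] [Fintype G] [DecidableEq G]
variable {E₁ E₂ : Type*} [Fintype E₁] [DecidableEq E₁] [Fintype E₂] [DecidableEq E₂]

/-- Return probability of a mixed walk: half-lazy steps on `E₁`, lazier steps on `E₂`. -/
noncomputable def prM (c₁ : E₁ → G) (c₂ : E₂ → G) (g : G) : ℝ :=
  ((univ.filter (fun p : (E₁ → Fin 4) × (E₂ → Fin 8) =>
    gwalk p.1 c₁ + gwalk p.2 c₂ = g)).card : ℝ) /
      ((4 : ℝ) ^ Fintype.card E₁ * (8 : ℝ) ^ Fintype.card E₂)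

/-- Fourier formula for the mixed walk. -/
lemma prM_eq (c₁ : E₁ → G) (c₂ : E₂ → G) (g : G) :
    ((Fintype.card G * prM c₁ c₂ g : ℝ) : ℂ) =
      ∑ ψ : AddChar G ℂ, ψ (-g) * (((∏ e, cf 4 (ψ (c₁ e))) * ∏ e, cf 8 (ψ (c₂ e)) : ℝ) : ℂ) := by
  have hA : ((((4 : ℝ) ^ Fintype.card E₁ * (8 : ℝ) ^ Fintype.card E₂) : ℝ) : ℂ) ≠ 0 := by
    norm_cast
    (clear * -; positivity)
  have h := card_filter_eq_sum (fun p : (E₁ → Fin 4) × (E₂ → Fin 8) =>
    gwalk p.1 c₁ + gwalk p.2 c₂) g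
  rw [← mul_right_inj' hA]
  have e1 : ((((4 : ℝ) ^ Fintype.card E₁ * (8 : ℝ) ^ Fintype.card E₂) : ℝ) : ℂ) *
      ((Fintype.card G * prM c₁ c₂ g : ℝ) : ℂ) =
      (Fintype.card G : ℂ) * ((univ.filter (fun p : (E₁ → Fin 4) × (E₂ → Fin 8) =>
        gwalk p.1 c₁ + gwalk p.2 c₂ = g)).card : ℂ) := by
    unfold prM
    push_cast
    field_simp
  rw [e1, h, mul_sum]
  refine sum_congr rfl fun ψ _ => ?_
  have h2 : ∑ p : (E₁ → Fin 4) × (E₂ → Fin 8), ψ (gwalk p.1 c₁ + gwalk p.2 c₂) =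
      (∑ ω : E₁ → Fin 4, ψ (gwalk ω c₁)) * ∑ ω : E₂ → Fin 8, ψ (gwalk ω c₂) := by
    rw [Fintype.sum_prod_type, sum_mul_sum]
    refine sum_congr rfl fun a _ => sum_congr rfl fun b _ => ?_
    rw [AddChar.map_add_eq_mul]
  rw [h2, sum_addChar_gwalk (by norm_num), sum_addChar_gwalk (by norm_num)]
  push_cast
  ring

lemma prM_zero_eq (c₁ : E₁ → G) (c₂ : E₂ → G) :
    Fintype.card G * prM c₁ c₂ 0 =
      ∑ ψ : AddChar G ℂ, (∏ e, cf 4 (ψ (c₁ e))) * ∏ e, cf 8 (ψ (c₂ e)) := by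
  have h := prM_eq c₁ c₂ 0
  simp only [neg_zero, AddChar.map_zero_eq_one, one_mul] at h
  exact_mod_cast h

lemma norm_half_sq {z : ℂ} (hz : ‖z‖ = 1) : ‖(1 + z) / 2‖ ^ 2 = cf 4 z := by
  rw [norm_div, div_pow, ← Complex.normSq_eq_norm_sq (1 + z), Complex.normSq_apply]
  have h2 : z.re * z.re + z.im * z.im = 1 := by
    rw [← Complex.normSq_apply, Complex.normSq_eq_norm_sq, hz]; norm_num
  unfold cf
  simp only [Complex.add_re, Complex.one_re, Complex.add_im, Complex.one_im, zero_add, Complex.norm_ofNat, Nat.cast_ofNat]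
  linarith

lemma norm_half_le_one {z : ℂ} (hz : ‖z‖ = 1) : ‖(1 + z) / 2‖ ≤ 1 :=
  (norm_half_le_cf hz).trans (cf_le_one hz)

end mixed

section family

variable {G : Type*} [AddCommGroup G] [Fintype G] [DecidableEq G]
variable {E T : Type*} [Fintype E] [DecidableEq E] [Fintype T] [Nonempty T]
variable {E₁ E₂ : T → Type*} [∀ t, Fintype (E₁ t)] [∀ t, DecidableEq (E₁ t)]
  [∀ t, Fintype (E₂ t)] [∀ t, DecidableEq (E₂ t)]

omit [DecidableEq E] in
lemma prod_comp_eq {E' : Type*} [Fintype E'] (f : E' → E) (hf : Function.Injective f)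
    (a : E → ℝ) [DecidablePred fun e => ∃ e', f e' = e] :
    ∏ e', a (f e') = ∏ e, if ∃ e', f e' = e then a e else 1 := by
  classical
  rw [Finset.prod_ite, Finset.prod_const_one, mul_one]
  have h : (univ.filter fun e => ∃ e', f e' = e) = (univ : Finset E').map ⟨f, hf⟩ := by
    ext e
    simp only [univ_filter_exists, mem_image, mem_univ, true_and, mem_map, Function.Embedding.coeFn_mk]
  rw [h, prod_map]
  rfl

open Classical in
/-- Domination of a random subset sum by a weighted family of mixed walks. -/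
theorem bpr_le_family (c : E → G) (g : G) (w : T → ℝ) (hw : ∀ t, 0 ≤ w t)
    (hw1 : 1 ≤ ∏ t, w t) (f₁ : ∀ t, E₁ t → E) (hf₁ : ∀ t, Function.Injective (f₁ t))
    (f₂ : ∀ t, E₂ t → E) (hf₂ : ∀ t, Function.Injective (f₂ t))
    (hE : ∀ e, 2 * (univ.filter (fun t => ∃ e₁, f₁ t e₁ = e)).card +
      (univ.filter (fun t => ∃ e₂, f₂ t e₂ = e)).card ≤ Fintype.card T) :
    bpr c g ≤ (∑ t, w t * prM (fun e => c (f₁ t e)) (fun e => c (f₂ t e)) 0) /
      Fintype.card T := by
  have hG : (0 : ℝ) < Fintype.card G := by exact_mod_cast Fintype.card_pos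
  have hT : (0 : ℝ) < Fintype.card T := by exact_mod_cast Fintype.card_pos
  have h := card_filter_eq_sum (fun b : E → Bool => bwalk b c) g
  have h2E : (0 : ℝ) < (2 : ℝ) ^ Fintype.card E := by positivity
  have hb : (Fintype.card G * bpr c g : ℝ) * (2 : ℝ) ^ Fintype.card E =
      ‖(Fintype.card G : ℂ) *
        ((univ.filter (fun b : E → Bool => bwalk b c = g)).card : ℂ)‖ := by
    rw [norm_mul, Complex.norm_natCast, Complex.norm_natCast]
    unfold bpr
    (clear * -; (clear * -; field_simp))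
  -- the bound for every character
  have key : ∀ ψ : AddChar G ℂ, ∏ e, ‖(1 + ψ (c e)) / 2‖ ≤
      (∑ t, w t * ((∏ e, cf 4 (ψ (c (f₁ t e)))) * ∏ e, cf 8 (ψ (c (f₂ t e))))) /
        Fintype.card T := by
    intro ψ
    have hk0 : ∀ e, 0 ≤ ‖(1 + ψ (c e)) / 2‖ := fun e => norm_nonneg _
    have hk1 : ∀ e, ‖(1 + ψ (c e)) / 2‖ ≤ 1 := fun e => norm_half_le_one (norm_addChar _ _)
    set y : T → E → ℝ := fun t e =>
      (if ∃ e₁, f₁ t e₁ = e then cf 4 (ψ (c e)) else 1) *
        (if ∃ e₂, f₂ t e₂ = e then cf 8 (ψ (c e)) else 1) with hy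
    have hy0 : ∀ t e, 0 ≤ y t e := by
      intro t e
      rw [hy]
      have h4 := cf_nonneg (M := 4) le_rfl (norm_addChar ψ (c e))
      have h8 := cf_nonneg (M := 8) (by norm_num) (norm_addChar ψ (c e))
      (clear * - h4 h8; positivity)
    have h3 := amgm_core (fun e => ‖(1 + ψ (c e)) / 2‖) hk0 w hw hw1 y hy0 (by
      intro e
      have h8 := cf_nonneg (M := 8) (by norm_num) (norm_addChar ψ (c e))
      have hA : ∏ t, (if ∃ e₁, f₁ t e₁ = e then cf 4 (ψ (c e)) else 1) =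
          ‖(1 + ψ (c e)) / 2‖ ^ (2 * (univ.filter (fun t => ∃ e₁, f₁ t e₁ = e)).card) := by
        rw [pow_mul, norm_half_sq (norm_addChar _ _), ← Finset.prod_const, Finset.prod_filter]
      have hB : ‖(1 + ψ (c e)) / 2‖ ^ (univ.filter (fun t => ∃ e₂, f₂ t e₂ = e)).card ≤
          ∏ t, (if ∃ e₂, f₂ t e₂ = e then cf 8 (ψ (c e)) else 1) := by
        rw [← Finset.prod_const, Finset.prod_filter]
        refine prod_le_prod (fun t _ => ?_) fun t _ => ?_
        · split_ifs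
          · exact hk0 e
          · exact zero_le_one
        · split_ifs
          · exact norm_half_le_cf (norm_addChar _ _)
          · exact le_rfl
      rw [hy, prod_mul_distrib, hA]
      refine le_trans ?_ (mul_le_mul_of_nonneg_left hB (pow_nonneg (hk0 e) _))
      rw [← pow_add]
      exact pow_le_pow_of_le_one (hk0 e) (hk1 e) (hE e))
    refine h3.trans (le_of_eq ?_)
    congr 1
    refine sum_congr rfl fun t _ => ?_
    rw [hy, prod_mul_distrib, ← prod_comp_eq (f₁ t) (hf₁ t) (fun e => cf 4 (ψ (c e))),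
      ← prod_comp_eq (f₂ t) (hf₂ t) (fun e => cf 8 (ψ (c e)))]
  refine le_of_mul_le_mul_left ?_ hG
  refine le_of_mul_le_mul_right ?_ h2E
  rw [hb, h]
  have h4 : (Fintype.card G : ℝ) * ((∑ t, w t * prM (fun e => c (f₁ t e))
      (fun e => c (f₂ t e)) 0) / Fintype.card T) =
      ∑ ψ : AddChar G ℂ, (∑ t, w t * ((∏ e, cf 4 (ψ (c (f₁ t e)))) *
        ∏ e, cf 8 (ψ (c (f₂ t e))))) / Fintype.card T := by
    rw [← sum_div, sum_comm, mul_div_assoc', mul_sum]
    congr 1
    refine sum_congr rfl fun t _ => ?_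
    rw [← mul_sum, ← prM_zero_eq]
    ring
  rw [h4, sum_mul]
  refine (norm_sum_le _ _).trans (sum_le_sum fun ψ _ => ?_)
  rw [norm_mul, norm_addChar, one_mul, sum_addChar_bwalk, norm_prod]
  have h3 : ∏ e, ‖1 + ψ (c e)‖ = (∏ e, ‖(1 + ψ (c e)) / 2‖) * (2 : ℝ) ^ Fintype.card E := by
    rw [← Finset.card_univ, ← Finset.prod_const, ← Finset.prod_mul_distrib]
    refine prod_congr rfl fun e _ => ?_
    rw [norm_div]
    simp only [Complex.norm_ofNat, isUnit_iff_ne_zero, ne_eq, OfNat.ofNat_ne_zero, not_false_eq_true, IsUnit.div_mul_cancel]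
  rw [h3]
  exact mul_le_mul_of_nonneg_right (key ψ) h2E.le

end family

end Vale.Agent.P160
end
end

section

section

set_option linter.unusedSectionVars false

namespace Vale.Agent.P160

open Finset

/-- Probability, over an iid lazy matrix `ω`, that `H x = 0` and `Hᵀ z = 0`. -/
noncomputable def Bpr {α β : Type*} [Fintype α] [Fintype β] [DecidableEq α] [DecidableEq β]
    (M : ℕ) {N : ℕ} (x : α → ZMod N) (z : β → ZMod N) : ℝ :=
  ((univ.filter (fun ω : β → α → Fin M =>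
    (∀ i, walk (ω i) x = 0) ∧ ∀ j, walk (fun i => ω i j) z = 0)).card : ℝ) /
      (M : ℝ) ^ (Fintype.card β * Fintype.card α)

section model

variable {ι : Type*} [Fintype ι] [DecidableEq ι]

/-- The symmetric 0/1 matrix of `b` applied to `v`. -/
def smul2 {R : Type*} [AddCommMonoid R] (b : Sym2 ι → Bool) (v : ι → R) : ι → R :=
  fun i => ∑ j, if b s(i, j) then v j else 0

/-- Column vectors of the linear map `b ↦ smul2 b v`. -/
def symc {R : Type*} [AddCommMonoid R] (v : ι → R) (e : Sym2 ι) : ι → R :=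
  fun i => ∑ j, if s(i, j) = e then v j else 0

/-- Probability over the symmetric 0/1 matrix that `S v = w`. -/
noncomputable def Spr {N : ℕ} (v w : ι → ZMod N) : ℝ :=
  ((univ.filter (fun b : Sym2 ι → Bool => smul2 b v = w)).card : ℝ) /
    (2 : ℝ) ^ Fintype.card (Sym2 ι)

lemma bwalk_symc {N : ℕ} [NeZero N] (b : Sym2 ι → Bool) (v : ι → ZMod N) :
    bwalk b (symc v) = smul2 b v := by
  funext i
  unfold bwalk smul2 symc
  rw [Finset.sum_apply]
  have h1 : ∀ e : Sym2 ι, (if b e then (fun i => ∑ j, if s(i, j) = e then v j else 0) else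
      (0 : ι → ZMod N)) i = ∑ j, if s(i, j) = e then (if b s(i, j) then v j else 0) else 0 := by
    intro e
    split_ifs with h
    · refine sum_congr rfl fun j _ => ?_
      split_ifs with h2 h3
      · rfl
      · rw [h2] at h3; exact absurd h h3
      · rfl
    · rw [Pi.zero_apply]
      symm
      apply sum_eq_zero
      intro j _
      split_ifs with h2 h3
      · rw [h2] at h3; exact absurd h3 h
      · rfl
      · rfl
  rw [sum_congr rfl fun e _ => h1 e, sum_comm]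
  refine sum_congr rfl fun j _ => ?_
  rw [sum_ite_eq]
  simp only [mem_univ, ↓reduceIte]

lemma Spr_eq_bpr {N : ℕ} [NeZero N] (v w : ι → ZMod N) : Spr v w = bpr (symc v) w := by
  unfold Spr bpr
  simp only [bwalk_symc]

lemma symc_ne {N : ℕ} (v : ι → ZMod N) {i j : ι} (hij : i ≠ j) :
    symc v s(i, j) = Pi.single i (v j) + Pi.single j (v i) := by
  funext k
  unfold symc
  simp only [Pi.add_apply]
  by_cases hki : k = i
  · subst hki
    rw [Pi.single_eq_same, Pi.single_eq_of_ne hij, add_zero]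
    rw [Finset.sum_eq_single j]
    · simp
    · intro l _ hl
      rw [if_neg]
      intro h
      rw [Sym2.eq_iff] at h
      rcases h with h | h
      · exact hl h.2
      · exact hij h.1
    · simp only [mem_univ, not_true_eq_false, ↓reduceIte, IsEmpty.forall_iff]
  · by_cases hkj : k = j
    · subst hkj
      rw [Pi.single_eq_same, Pi.single_eq_of_ne hki, zero_add]
      rw [Finset.sum_eq_single i]
      · rw [if_pos]
        exact Sym2.eq_swap
      · intro l _ hl
        rw [if_neg]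
        intro h
        rw [Sym2.eq_iff] at h
        rcases h with h | h
        · exact hki h.1
        · exact hl h.2
      · simp only [mem_univ, not_true_eq_false, Sym2.eq, Sym2.rel_iff', Prod.mk.injEq, Prod.swap_prod_mk, or_true, ↓reduceIte, IsEmpty.forall_iff]
    · rw [Pi.single_eq_of_ne hki, Pi.single_eq_of_ne hkj, zero_add]
      apply sum_eq_zero
      intro l _
      rw [if_neg]
      intro h
      rw [Sym2.eq_iff] at h
      rcases h with h | h
      · exact hki h.1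
      · exact hkj h.1

variable (D : Finset ι)

/-- The index pairs outside `D` times `D`. -/
def offp (p : {i // i ∉ D} × {i // i ∈ D}) : Sym2 ι := s(p.1.1, p.2.1)

lemma offp_injective : Function.Injective (offp D) := by
  rintro ⟨⟨i, hi⟩, ⟨j, hj⟩⟩ ⟨⟨k, hk⟩, ⟨l, hl⟩⟩ h
  unfold offp at h
  simp only [Sym2.eq_iff] at h
  rcases h with h | h
  · obtain ⟨h1, h2⟩ := h
    subst h1; subst h2; rfl
  · exact absurd (h.1 ▸ hl) hi

lemma gwalk_offp {N : ℕ} [NeZero N] {M : ℕ} (v : ι → ZMod N)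
    (ω : {i // i ∉ D} × {i // i ∈ D} → Fin M) (k : ι) :
    gwalk ω (fun p => symc v (offp D p)) k =
      if hk : k ∈ D then walk (fun i => ω (i, ⟨k, hk⟩)) (fun i : {i // i ∉ D} => v i)
      else walk (fun j => ω (⟨k, hk⟩, j)) (fun j : {i // i ∈ D} => v j) := by
  unfold gwalk
  rw [Finset.sum_apply]
  have h1 : ∀ p : {i // i ∉ D} × {i // i ∈ D},
      ((st (ω p)) • symc v (offp D p)) k =
        (st (ω p) : ZMod N) * ((Pi.single p.1.1 (v p.2) : ι → ZMod N) k +
          (Pi.single p.2.1 (v p.1) : ι → ZMod N) k) := by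
    intro p
    have hne : p.1.1 ≠ p.2.1 := fun h => p.1.2 (h ▸ p.2.2)
    rw [Pi.smul_apply, zsmul_eq_mul]
    unfold offp
    rw [symc_ne v hne, Pi.add_apply]
  rw [sum_congr rfl fun p _ => h1 p, Fintype.sum_prod_type]
  by_cases hk : k ∈ D
  · rw [dif_pos hk]
    unfold walk
    refine sum_congr rfl fun i _ => ?_
    rw [Finset.sum_eq_single (⟨k, hk⟩ : {i // i ∈ D})]
    · have : k ≠ i.1 := fun h => i.2 (h ▸ hk)
      rw [Pi.single_eq_of_ne this, Pi.single_eq_same, zero_add]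
    · intro j _ hj
      have h2 : k ≠ i.1 := fun h => i.2 (h ▸ hk)
      have h3 : k ≠ j.1 := fun h => hj (Subtype.ext h.symm)
      rw [Pi.single_eq_of_ne h2, Pi.single_eq_of_ne h3, add_zero, mul_zero]
    · simp only [univ_eq_attach, mem_attach, not_true_eq_false, Pi.single_eq_same, IsEmpty.forall_iff]
  · rw [dif_neg hk]
    unfold walk
    rw [Finset.sum_eq_single (⟨k, hk⟩ : {i // i ∉ D})]
    · refine sum_congr rfl fun j _ => ?_
      have : k ≠ j.1 := fun h => hk (h ▸ j.2)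
      rw [Pi.single_eq_same, Pi.single_eq_of_ne this, add_zero]
    · intro i _ hi
      apply sum_eq_zero
      intro j _
      have h2 : k ≠ i.1 := fun h => hi (Subtype.ext h.symm)
      have h3 : k ≠ j.1 := fun h => hk (h ▸ j.2)
      rw [Pi.single_eq_of_ne h2, Pi.single_eq_of_ne h3, add_zero, mul_zero]
    · simp only [mem_univ, not_true_eq_false, univ_eq_attach, Pi.single_eq_same, IsEmpty.forall_iff]

lemma gwalk_offp_eq_zero {N : ℕ} [NeZero N] {M : ℕ} (v : ι → ZMod N)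
    (ω : {i // i ∉ D} × {i // i ∈ D} → Fin M) :
    gwalk ω (fun p => symc v (offp D p)) = 0 ↔
      (∀ i : {i // i ∉ D}, walk (fun j => ω (i, j)) (fun j : {i // i ∈ D} => v j) = 0) ∧
      ∀ j : {i // i ∈ D}, walk (fun i => ω (i, j)) (fun i : {i // i ∉ D} => v i) = 0 := by
  constructor
  · intro h
    constructor
    · intro i
      have := congrFun h i.1
      rw [gwalk_offp, dif_neg i.2] at this
      exact this
    · intro j
      have := congrFun h j.1
      rw [gwalk_offp, dif_pos j.2] at this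
      exact this
  · rintro ⟨h1, h2⟩
    funext k
    rw [gwalk_offp]
    split_ifs with hk
    · exact h2 ⟨k, hk⟩
    · exact h1 ⟨k, hk⟩

lemma gpr_offp {N : ℕ} [NeZero N] {M : ℕ} (v : ι → ZMod N) :
    gpr M (fun p => symc v (offp D p)) 0 =
      Bpr M (fun j : {i // i ∈ D} => v j) (fun i : {i // i ∉ D} => v i) := by
  unfold gpr Bpr
  congr 1
  · congr 1
    apply Finset.card_bij (fun ω _ => fun i j => ω (i, j))
    · intro ω hω
      simp only [mem_filter, mem_univ, true_and] at hω ⊢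
      exact (gwalk_offp_eq_zero D v ω).1 hω
    · intro ω _ ω' _ h
      funext p
      exact congrFun (congrFun h p.1) p.2
    · intro ω hω
      refine ⟨fun p => ω p.1 p.2, ?_, rfl⟩
      simp only [mem_filter, mem_univ, true_and] at hω ⊢
      exact (gwalk_offp_eq_zero D v _).2 hω
  · rw [Fintype.card_prod]

end model

end Vale.Agent.P160
end
end

section

section

set_option linter.unusedSectionVars false

namespace Vale.Agent.P160

open Finset

section cond

variable {G H' : Type*} [AddCommGroup G] [Fintype G] [DecidableEq G]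
  [AddCommGroup H'] [Fintype H'] [DecidableEq H']
variable {E₁ E₂ : Type*} [Fintype E₁] [DecidableEq E₁] [Fintype E₂] [DecidableEq E₂]

lemma gwalk_map {M : ℕ} (l : G →+ H') (ω : E₁ → Fin M) (c : E₁ → G) :
    l (gwalk ω c) = gwalk ω (fun e => l (c e)) := by
  unfold gwalk
  rw [map_sum]
  refine sum_congr rfl fun e _ => ?_
  rw [map_zsmul]

/-- Conditioning on the second family, using a linear form that vanishes on the first one. -/
lemma gpr_sum_le {M : ℕ} (hM : 4 ≤ M) (c₁ : E₁ → G) (c₂ : E₂ → G) (l : G →+ H')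
    (hl : ∀ e, l (c₁ e) = 0) :
    gpr M (Sum.elim c₁ c₂) 0 ≤ gpr M c₁ 0 * gpr M (fun e => l (c₂ e)) 0 := by
  have hMpos : (0 : ℝ) < M := by exact_mod_cast (by omega : 0 < M)
  have key : ∀ a : E₂ → Fin M,
      ((univ.filter (fun ω : E₁ → Fin M => gwalk ω c₁ + gwalk a c₂ = 0)).card : ℝ) ≤
        if gwalk a (fun e => l (c₂ e)) = 0 then
          ((univ.filter (fun ω : E₁ → Fin M => gwalk ω c₁ = 0)).card : ℝ) else 0 := by
    intro a
    split_ifs with h
    · have := gpr_le_gpr hM le_rfl (id : E₁ → E₁) Function.injective_id c₁ (-gwalk a c₂)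
      unfold gpr at this
      rw [div_le_div_iff_of_pos_right (by (clear * - hM; positivity))] at this
      simpa only [add_eq_zero_iff_eq_neg, Nat.cast_le, ge_iff_le, id_eq] using this
    · have : (univ.filter (fun ω : E₁ → Fin M => gwalk ω c₁ + gwalk a c₂ = 0)) = ∅ := by
        apply Finset.filter_eq_empty_iff.2
        intro ω _ hω
        apply h
        have h1 : l (gwalk ω c₁) = 0 := by
          rw [gwalk_map]
          unfold gwalk
          apply sum_eq_zero
          intro e _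
          show st (ω e) • l (c₁ e) = 0
          rw [hl e, smul_zero]
        have h2 := congrArg l hω
        rw [map_add, h1, zero_add, map_zero, gwalk_map] at h2
        exact h2
      rw [this]
      simp
  have hcount : ((univ.filter (fun ω : E₁ ⊕ E₂ → Fin M =>
      gwalk ω (Sum.elim c₁ c₂) = 0)).card : ℝ) =
      ∑ a : E₂ → Fin M,
        ((univ.filter (fun ω : E₁ → Fin M => gwalk ω c₁ + gwalk a c₂ = 0)).card : ℝ) := by
    have h1 : ∀ ω : E₁ ⊕ E₂ → Fin M, gwalk ω (Sum.elim c₁ c₂) =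
        gwalk (fun e => ω (Sum.inl e)) c₁ + gwalk (fun e => ω (Sum.inr e)) c₂ := by
      intro ω
      unfold gwalk
      rw [Fintype.sum_sum_type]
      simp only [Sum.elim_inl, Sum.elim_inr]
    rw [← Nat.cast_sum]
    congr 1
    rw [← Finset.card_sigma]
    refine Finset.card_bij (fun ω _ => ⟨fun e => ω (Sum.inr e), fun e => ω (Sum.inl e)⟩)
      ?_ ?_ ?_
    · intro ω hω
      simp only [mem_filter, mem_univ, true_and, mem_sigma] at hω ⊢
      rw [← h1]; exact hω
    · intro ω _ ω' _ h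
      simp only [Sigma.mk.injEq, heq_eq_eq] at h
      funext e
      cases e with
      | inl e => exact congrFun h.2 e
      | inr e => exact congrFun h.1 e
    · rintro ⟨a, w⟩ h
      refine ⟨Sum.elim w a, ?_, rfl⟩
      simp only [mem_filter, mem_univ, true_and, mem_sigma] at h ⊢
      rw [h1]
      exact h
  unfold gpr
  rw [hcount, Fintype.card_sum, pow_add, div_mul_div_comm,
    div_le_div_iff_of_pos_right (by (clear * - hM; positivity))]
  refine (sum_le_sum fun a _ => key a).trans ?_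
  rw [← sum_filter, sum_const, nsmul_eq_mul, mul_comm]

end cond

section zmod

lemma two_mul_eq_zero_iff {J : ℕ} (x : ZMod (2 ^ (J + 1))) :
    2 * x = 0 ↔ x = 0 ∨ x = ((2 ^ J : ℕ) : ZMod (2 ^ (J + 1))) := by
  have hx : ((x.val : ℕ) : ZMod (2 ^ (J + 1))) = x := ZMod.natCast_zmod_val x
  constructor
  · intro h
    have h1 : ((2 * x.val : ℕ) : ZMod (2 ^ (J + 1))) = 0 := by
      push_cast
      rw [hx]; exact h
    rw [ZMod.natCast_eq_zero_iff] at h1
    have h1' : ∃ k, x.val = 2 ^ J * k := by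
      obtain ⟨k, hk⟩ := h1
      refine ⟨k, ?_⟩
      have h2 : 2 ^ (J + 1) * k = 2 * (2 ^ J * k) := by ring
      rw [h2] at hk
      exact Nat.eq_of_mul_eq_mul_left (by norm_num) hk
    obtain ⟨k, hk⟩ := h1'
    have hlt : x.val < 2 ^ (J + 1) := ZMod.val_lt x
    have hk2 : k < 2 := by
      by_contra hcon
      have : 2 ≤ k := by (clear * - hcon; omega)
      have h3 : 2 ^ J * 2 ≤ 2 ^ J * k := Nat.mul_le_mul_left _ this
      have h4 : 2 ^ (J + 1) = 2 ^ J * 2 := pow_succ 2 J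
      have h5 : x.val < 2 ^ J * 2 := lt_of_lt_of_eq hlt h4
      omega
    interval_cases k
    · left
      rw [← hx, hk]; simp
    · right
      rw [← hx, hk]; simp
  · rintro (h | h)
    · rw [h, mul_zero]
    · rw [h]
      have : (2 : ZMod (2 ^ (J + 1))) * ((2 ^ J : ℕ) : ZMod (2 ^ (J + 1))) =
          ((2 ^ (J + 1) : ℕ) : ZMod (2 ^ (J + 1))) := by
        push_cast; ring
      rw [this]
      exact ZMod.natCast_self _

variable {α : Type*} [Fintype α] [DecidableEq α]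

/-- `P(2 * walk = 0) ≤ 2 P(walk = 0)`. -/
lemma gpr_two_mul_le {J M : ℕ} (hM : 4 ≤ M) (v : α → ZMod (2 ^ (J + 1))) :
    gpr M (fun i => 2 * v i) 0 ≤ 2 * pr M v 0 := by
  have hw : ∀ ω : α → Fin M, gwalk ω (fun i => 2 * v i) = 2 * walk ω v := by
    intro ω
    unfold gwalk walk
    rw [mul_sum]
    refine sum_congr rfl fun i _ => ?_
    rw [zsmul_eq_mul]; ring
  have h1 := pr_le_pr_zero hM v ((2 ^ J : ℕ) : ZMod (2 ^ (J + 1)))
  have hMpos : (0 : ℝ) < M := by exact_mod_cast (by omega : 0 < M)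
  have h2 : (univ.filter (fun ω : α → Fin M => gwalk ω (fun i => 2 * v i) = 0)).card ≤
      (univ.filter (fun ω : α → Fin M => walk ω v = 0)).card +
      (univ.filter (fun ω : α → Fin M =>
        walk ω v = ((2 ^ J : ℕ) : ZMod (2 ^ (J + 1))))).card := by
    refine le_trans (Finset.card_le_card ?_) (Finset.card_union_le _ _)
    intro ω hω
    simp only [mem_filter, mem_univ, true_and, mem_union] at hω ⊢
    rw [hw] at hω
    exact (two_mul_eq_zero_iff _).1 hω
  have h3 : gpr M (fun i => 2 * v i) 0 ≤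
      pr M v 0 + pr M v ((2 ^ J : ℕ) : ZMod (2 ^ (J + 1))) := by
    unfold gpr pr
    rw [← add_div, div_le_div_iff_of_pos_right (by (clear * - hM; positivity))]
    exact_mod_cast h2
  linarith only [h1, h3]

end zmod

section top

variable {ι : Type*} [Fintype ι] [DecidableEq ι] (D : Finset ι)

/-- The linear form `g ↦ ∑_{i ∉ D} v i g i - ∑_{j ∈ D} v j g j`. -/
def formD {N : ℕ} (v : ι → ZMod N) : (ι → ZMod N) →+ ZMod N where
  toFun g := ∑ i, (if i ∈ D then -(v i) else v i) * g i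
  map_zero' := by simp
  map_add' g h := by
    simp only [Pi.add_apply, mul_add, sum_add_distrib]

lemma formD_single {N : ℕ} (v : ι → ZMod N) (i : ι) (a : ZMod N) :
    formD D v (Pi.single i a) = (if i ∈ D then -(v i) else v i) * a := by
  unfold formD
  simp only [AddMonoidHom.coe_mk, ZeroHom.coe_mk]
  rw [Finset.sum_eq_single i]
  · rw [Pi.single_eq_same]
  · intro j _ hj
    rw [Pi.single_eq_of_ne hj, mul_zero]
  · simp only [mem_univ, not_true_eq_false, Pi.single_eq_same, ite_mul, neg_mul, IsEmpty.forall_iff]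

lemma formD_offp {N : ℕ} (v : ι → ZMod N) (p : {i // i ∉ D} × {i // i ∈ D}) :
    formD D v (symc v (offp D p)) = 0 := by
  have hne : p.1.1 ≠ p.2.1 := fun h => p.1.2 (h ▸ p.2.2)
  unfold offp
  rw [symc_ne v hne, map_add, formD_single, formD_single, if_neg p.1.2, if_pos p.2.2]
  ring

/-- The star pairs `(l₀, l)` inside `D`. -/
def starp (l₀ : {i // i ∈ D}) (l : {l : {i // i ∈ D} // l ≠ l₀}) : Sym2 ι := s(l₀.1, l.1.1)

lemma formD_starp {N : ℕ} (v : ι → ZMod N) (l₀ : {i // i ∈ D})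
    (l : {l : {i // i ∈ D} // l ≠ l₀}) :
    formD D v (symc v (starp D l₀ l)) = 2 * (-(v l₀) * v l.1) := by
  have hne : l₀.1 ≠ l.1.1 := fun h => l.2 (Subtype.ext h.symm)
  unfold starp
  rw [symc_ne v hne, map_add, formD_single, formD_single, if_pos l₀.2, if_pos l.1.2]
  ring

lemma topp_injective (l₀ : {i // i ∈ D}) :
    Function.Injective (Sum.elim (offp D) (starp D l₀)) := by
  intro e e' h
  cases e with
  | inl p =>
    cases e' with
    | inl p' =>
      simp only [Sum.elim_inl] at h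
      rw [offp_injective D h]
    | inr l' =>
      exfalso
      simp only [Sum.elim_inl, Sum.elim_inr] at h
      unfold offp starp at h
      simp only [Sym2.eq_iff] at h
      rcases h with h | h
      · exact p.1.2 (h.1 ▸ l₀.2)
      · exact p.1.2 (h.1 ▸ l'.1.2)
  | inr l =>
    cases e' with
    | inl p' =>
      exfalso
      simp only [Sum.elim_inl, Sum.elim_inr] at h
      unfold offp starp at h
      simp only [Sym2.eq_iff] at h
      rcases h with h | h
      · exact p'.1.2 (h.1 ▸ l₀.2)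
      · exact p'.1.2 (h.2 ▸ l.1.2)
    | inr l' =>
      simp only [Sum.elim_inr] at h
      unfold starp at h
      simp only [Sym2.eq_iff] at h
      rcases h with h | h
      · congr 1
        exact Subtype.ext (Subtype.ext h.2)
      · exfalso
        exact l'.2 (Subtype.ext h.1.symm)

end top

end Vale.Agent.P160
end
end

section

section

set_option linter.unusedSectionVars false

namespace Vale.Agent.P160

open Finset

section mixed

variable {G : Type*} [AddCommGroup G] [Fintype G] [DecidableEq G]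
variable {H' : Type*} [AddCommGroup H'] [Fintype H'] [DecidableEq H']
variable {E₁ E₂ : Type*} [Fintype E₁] [DecidableEq E₁] [Fintype E₂] [DecidableEq E₂]

/-- Without second family the mixed walk is the half-lazy walk. -/
lemma prM_empty [IsEmpty E₂] (c₁ : E₁ → G) (c₂ : E₂ → G) (g : G) :
    prM c₁ c₂ g = gpr 4 c₁ g := by
  unfold prM gpr
  have h1 : (univ.filter (fun p : (E₁ → Fin 4) × (E₂ → Fin 8) =>
      gwalk p.1 c₁ + gwalk p.2 c₂ = g)).card =
      (univ.filter (fun ω : E₁ → Fin 4 => gwalk ω c₁ = g)).card := by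
    refine Finset.card_bij (fun p _ => p.1) ?_ ?_ ?_
    · intro p hp
      simp only [mem_filter, mem_univ, true_and] at hp ⊢
      have h2 : gwalk p.2 c₂ = 0 := by
        unfold gwalk; exact Finset.sum_of_isEmpty _
      rwa [h2, add_zero] at hp
    · intro p _ p' _ h
      exact Prod.ext h (Subsingleton.elim _ _)
    · intro ω hω
      refine ⟨(ω, fun e => isEmptyElim e), ?_, rfl⟩
      simp only [mem_filter, mem_univ, true_and] at hω ⊢
      have h2 : gwalk (fun e : E₂ => (isEmptyElim e : Fin 8)) c₂ = 0 := by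
        unfold gwalk; exact Finset.sum_of_isEmpty _
      rw [h2, add_zero, hω]
  rw [h1, Fintype.card_eq_zero (α := E₂), pow_zero, mul_one]
  (clear * -; norm_num)

end mixed

end Vale.Agent.P160
end
end

section

section

set_option linter.unusedSectionVars false

namespace Vale.Agent.P160

open Finset Matrix

section kernel

variable {n : ℕ}

/-- The symmetric sign matrix with sign pattern `b`. -/
def signM (b : Sym2 (Fin n) → Bool) : Matrix (Fin n) (Fin n) ℤ :=
  fun i j => if b s(i, j) then -1 else 1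

lemma smul2_of_signM (b : Sym2 (Fin n) → Bool) (v : Fin n → ℤ) (hv : (signM b).mulVec v = 0)
    (i : Fin n) : 2 * smul2 b v i = ∑ j, v j := by
  have h := congrFun hv i
  have h1 : ∀ j, signM b i j * v j = v j - 2 * (if b s(i, j) then v j else 0) := by
    intro j
    unfold signM
    split_ifs <;> ring
  have h2 : (signM b).mulVec v i = ∑ j, signM b i j * v j := rfl
  rw [h2, sum_congr rfl fun j _ => h1 j, sum_sub_distrib, ← mul_sum] at h
  have h3 : (0 : Fin n → ℤ) i = 0 := rfl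
  rw [h3] at h
  have h4 : smul2 b v i = ∑ j, if b s(i, j) then v j else 0 := rfl
  rw [h4]
  linarith only [h]

/-- A singular symmetric sign matrix has an integer kernel vector with an odd coordinate. -/
lemma exists_kernel (b : Sym2 (Fin n) → Bool) (h : (signM b).det = 0) :
    ∃ (v : Fin n → ℤ) (c : ℤ), (∃ i, Odd (v i)) ∧ smul2 b v = (fun _ => c) ∧
      2 * c = ∑ i, v i := by
  obtain ⟨v, hv0, hv⟩ := Matrix.exists_mulVec_eq_zero_iff.2 h
  obtain ⟨i₀, hi₀⟩ := Function.ne_iff.1 hv0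
  obtain ⟨g, hg, hg1⟩ := Finset.extract_gcd v (s := univ) ⟨i₀, mem_univ _⟩
  have hgcd : univ.gcd v ≠ 0 := by
    intro h0
    apply hi₀
    rw [hg i₀ (mem_univ _), h0, zero_mul]; rfl
  have hgk : (signM b).mulVec g = 0 := by
    have h1 : v = (univ.gcd v) • g := by
      funext i
      rw [hg i (mem_univ _)]; rfl
    rw [h1, Matrix.mulVec_smul] at hv
    exact (smul_eq_zero.1 hv).resolve_left hgcd
  have hodd : ∃ i, Odd (g i) := by
    by_contra hcon
    push Not at hcon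
    have h2 : (2 : ℤ) ∣ univ.gcd g := by
      apply Finset.dvd_gcd
      intro i _
      exact even_iff_two_dvd.1 (Int.not_odd_iff_even.1 (hcon i))
    rw [hg1] at h2
    norm_num at h2
  refine ⟨g, smul2 b g i₀, hodd, ?_, smul2_of_signM b g hgk i₀⟩
  funext i
  have h3 := smul2_of_signM b g hgk i
  have h4 := smul2_of_signM b g hgk i₀
  linarith only [h3, h4]

lemma smul2_cast {N : ℕ} (b : Sym2 (Fin n) → Bool) (v : Fin n → ℤ) (c : ℤ)
    (h : smul2 b v = (fun _ => c)) :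
    smul2 b (fun i => (v i : ZMod N)) = (fun _ => (c : ZMod N)) := by
  funext i
  have h1 := congrFun h i
  rw [← h1]
  unfold smul2
  rw [Int.cast_sum]
  refine sum_congr rfl fun j _ => ?_
  split_ifs <;> simp

end kernel

end Vale.Agent.P160
end
end

section

section

set_option linter.unusedSectionVars false

namespace Vale.Agent.P160

open Finset

section rowE

variable {α β : Type*} [Fintype α] [Fintype β] [DecidableEq α] [DecidableEq β]

lemma Bpr_nonneg (M : ℕ) {N : ℕ} (x : α → ZMod N) (z : β → ZMod N) : 0 ≤ Bpr M x z := by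
  unfold Bpr
  (clear * -; positivity)

end rowE

section union

variable {ι : Type*} [Fintype ι] [DecidableEq ι] (D : Finset ι)

lemma sum_split {R : Type*} [Fintype R] (F : ({i // i ∈ D} → R) → ({i // i ∉ D} → R) → ℝ) :
    ∑ v : ι → R, F (fun j => v j) (fun i => v i) = ∑ x, ∑ z, F x z := by
  classical
  rw [← Fintype.sum_prod_type' (f := F)]
  exact Equiv.sum_comp (Equiv.piEquivPiSubtypeProd (fun i => i ∈ D) (fun _ => R))
    (fun p => F p.1 p.2)

lemma pr_unit_mul {α : Type*} [Fintype α] [DecidableEq α] {M N : ℕ} {t : ZMod N} (ht : IsUnit t)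
    (v : α → ZMod N) : pr M (fun i => t * v i) 0 = pr M v 0 := by
  unfold pr
  congr 2
  congr 1
  ext ω
  simp only [mem_filter, mem_univ, true_and]
  have : walk ω (fun i => t * v i) = t * walk ω v := by
    unfold walk
    rw [mul_sum]
    refine sum_congr rfl fun l _ => ?_
    ring
  rw [this]
  exact ht.mul_right_eq_zero

lemma nu_unit_mul {α : Type*} [Fintype α] {N : ℕ} {t : ZMod N} (ht : IsUnit t)
    (v : α → ZMod N) : nu (fun i => t * v i) = nu v := by
  classical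
  unfold nu
  congr 1
  ext i
  simp only [mem_filter, mem_univ, true_and]
  exact ⟨fun h => isUnit_of_mul_isUnit_right h, fun h => ht.mul h⟩

end union

end Vale.Agent.P160
end
end

section

section

set_option linter.unusedSectionVars false

namespace Vale.Agent.P160

open Finset

/-- The standard lift of a residue mod `N` to a residue mod `N * N`. -/
def lft {N : ℕ} (x : ZMod N) : ZMod (N * N) := ((x.val : ℕ) : ZMod (N * N))

section quad

variable {ι : Type*} [Fintype ι] [DecidableEq ι]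

/-- Steps of the symmetric matrix together with its quadratic form mod `N * N`. -/
def cq {N : ℕ} (v : ι → ZMod N) (e : Sym2 ι) : (ι → ZMod N) × ZMod (N * N) :=
  (symc v e, 2 * ∑ i, lft (v i) * symc (fun i => lft (v i)) e i)

lemma bwalk_cq {N : ℕ} [NeZero N] (b : Sym2 ι → Bool) (v : ι → ZMod N) :
    bwalk b (cq v) = (smul2 b v, 2 * ∑ i, lft (v i) * smul2 b (fun i => lft (v i)) i) := by
  apply Prod.ext
  · rw [← bwalk_symc b v]
    unfold bwalk
    rw [Prod.fst_sum]
    refine sum_congr rfl fun e _ => ?_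
    split_ifs <;> rfl
  · have h : ∀ i, smul2 b (fun i => lft (v i)) i =
        ∑ e, if b e then symc (fun i => lft (v i)) e i else 0 := by
      intro i
      rw [← bwalk_symc b (fun i => lft (v i))]
      unfold bwalk
      rw [Finset.sum_apply]
      refine sum_congr rfl fun e _ => ?_
      split_ifs <;> rfl
    simp only [h]
    unfold bwalk
    rw [Prod.snd_sum]
    simp only [mul_sum]
    rw [sum_comm]
    refine sum_congr rfl fun e _ => ?_
    split_ifs with hb
    · unfold cq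
      simp only [mul_sum]
    · simp only [Prod.snd_zero, mul_zero, sum_const_zero]

variable (D : Finset ι)

lemma offp_eq_iff {i j : ι} (h : ∃ p, offp D p = s(i, j)) :
    (i ∈ D ∧ j ∉ D) ∨ (i ∉ D ∧ j ∈ D) := by
  obtain ⟨p, hp⟩ := h
  unfold offp at hp
  rw [Sym2.eq_iff] at hp
  rcases hp with ⟨h1, h2⟩ | ⟨h1, h2⟩
  · right
    exact ⟨h1 ▸ p.1.2, h2 ▸ p.2.2⟩
  · left
    exact ⟨h2 ▸ p.2.2, h1 ▸ p.1.2⟩

lemma starp_eq_iff {i j : ι} (l₀ : {i // i ∈ D}) (h : ∃ l, starp D l₀ l = s(i, j)) :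
    i ≠ j ∧ (l₀.1 = i ∨ l₀.1 = j) := by
  obtain ⟨l, hl⟩ := h
  have hne : l₀.1 ≠ l.1.1 := fun h => l.2 (Subtype.ext h.symm)
  unfold starp at hl
  rw [Sym2.eq_iff] at hl
  rcases hl with ⟨h1, h2⟩ | ⟨h1, h2⟩
  · exact ⟨fun hh => hne (h1.trans (hh.trans h2.symm)), Or.inl h1⟩
  · exact ⟨fun hh => hne (h1.trans (hh.symm.trans h2.symm)), Or.inr h1⟩

end quad

section family

variable {ι : Type} [Fintype ι] [DecidableEq ι]
variable {T : Type} [Fintype T] [DecidableEq T] [Nonempty T]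

/-- A family of blocks such that every pair is separated by less than half of the blocks. -/
def Sep (D : T → Finset ι) : Prop :=
  ∀ i j : ι, i ≠ j → 2 * (univ.filter (fun t => (i ∈ D t ∧ j ∉ D t) ∨ (i ∉ D t ∧ j ∈ D t))).card
    + 2 ≤ Fintype.card T

/-- The estimate for the family, without the star edges, with weights. -/
lemma bpr_symc_le {N : ℕ} [NeZero N] (D : T → Finset ι) (hD : Sep D) (v : ι → ZMod N)
    (w : T → ℝ) (hw : ∀ t, 0 ≤ w t) (hw1 : 1 ≤ ∏ t, w t) (g : ι → ZMod N) :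
    bpr (symc v) g ≤ (∑ t, w t * Bpr 4 (fun j : {i // i ∈ D t} => v j)
      (fun i : {i // i ∉ D t} => v i)) / Fintype.card T := by
  have hT : 0 < Fintype.card T := Fintype.card_pos
  have h := bpr_le_family (symc v) g w hw hw1
    (fun t => offp (D t)) (fun t => offp_injective (D t))
    (E₂ := fun _ => Empty) (fun _ e => e.elim) (fun _ e => e.elim)
    (fun e => by
      classical
      have h2 : (univ.filter (fun t : T => ∃ e₂ : Empty, (fun e : Empty => (e.elim : Sym2 ι)) e₂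
          = e)).card = 0 := by
        rw [Finset.card_eq_zero]
        apply Finset.filter_eq_empty_iff.2
        rintro t _ ⟨e₂, _⟩
        exact e₂.elim
      induction e using Sym2.ind with
      | _ i j =>
        by_cases hij : i = j
        · subst hij
          have h1 : univ.filter (fun t => ∃ e₁, offp (D t) e₁ = s(i, i)) = ∅ := by
            apply Finset.filter_eq_empty_iff.2
            intro t _ h
            rcases offp_eq_iff (D t) h with h | h
            · exact h.2 h.1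
            · exact h.1 h.2
          have h3 : (univ.filter (fun t => ∃ e₁, offp (D t) e₁ = s(i, i))).card = 0 := by
            rw [h1]; rfl
          have : 2 * (univ.filter (fun t => ∃ e₁, offp (D t) e₁ = s(i, i))).card + 0 ≤
            Fintype.card T := by omega
          convert this using 2
        · have h1 := hD i j hij
          have h3 : (univ.filter (fun t => ∃ e₁, offp (D t) e₁ = s(i, j))).card ≤
              (univ.filter (fun t => (i ∈ D t ∧ j ∉ D t) ∨ (i ∉ D t ∧ j ∈ D t))).card := by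
            apply Finset.card_le_card
            intro t ht
            rw [mem_filter] at ht ⊢
            exact ⟨mem_univ _, offp_eq_iff (D t) ht.2⟩
          have h4 : 2 * (univ.filter (fun t => ∃ e₁, offp (D t) e₁ = s(i, j))).card + 0 ≤
            Fintype.card T := by
            have h5 : (univ.filter (fun t => (i ∈ D t ∧ j ∉ D t) ∨ (i ∉ D t ∧ j ∈ D t))).card =
              (univ.filter (fun t => (i ∈ D t ∧ j ∉ D t) ∨ (i ∉ D t ∧ j ∈ D t))).card := rfl
            refine le_trans ?_ h1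
            exact add_le_add (Nat.mul_le_mul_left _ (h3.trans (le_of_eq (by congr!)))) (Nat.zero_le _)
          convert h4 using 2)
  refine h.trans (le_of_eq ?_)
  congr 1
  refine sum_congr rfl fun t _ => ?_
  rw [prM_empty, gpr_offp]

end family

end Vale.Agent.P160
end
end

section

section
attribute [-instance] ProperSMul.toContinuousSMul IsTopologicalTorsor.toContinuousSMul IdemSemiring.toCanonicallyOrderedAdd IdemSemiring.toMulLeftMono IdemSemiring.toMulRightMono AddQuantale.instAddLeftMono AddQuantale.instAddRightMono Quantale.instMulLeftMono Quantale.instMulRightMono FiniteDimensional.rclike_to_real IsScalarTower.complexToReal FiniteDimensional.complexToReal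

namespace Vale.Agent.P160

open Finset

end Vale.Agent.P160
end
end

section

section

namespace Vale.Agent.P160

open Finset

section
variable {ι : Type*} [Fintype ι] {M q : ℕ}

end

section
variable {ι : Type*} [Fintype ι] [DecidableEq ι] {M q N : ℕ}

end

end Vale.Agent.P160
end
end

section

section

namespace Vale.Agent.P160

open Finset

section defs

variable {α : Type} [Fintype α] [DecidableEq α]

open Classical in
/-- Seed vectors orthogonal to the subgroup `K`. -/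
noncomputable def orth (I : ℕ) (K : AddSubgroup (α → ZMod (2 ^ I))) : Finset (α → Fin 4) :=
  univ.filter (fun a => ∀ k ∈ K, walk a k = 0)

/-- The number of nonzero coordinates. -/
def suppc {I : ℕ} (k : α → ZMod (2 ^ I)) : ℕ := (univ.filter (fun i => k i ≠ 0)).card

/-- The subgroup of `K` generated by its sparse elements. -/
def spars (I w : ℕ) (K : AddSubgroup (α → ZMod (2 ^ I))) : AddSubgroup (α → ZMod (2 ^ I)) :=
  AddSubgroup.closure {k | k ∈ K ∧ suppc k < w}

open Classical in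
/-- The elements of order at most 2. -/
noncomputable def tors (I : ℕ) (L : AddSubgroup (α → ZMod (2 ^ I))) :
    Finset (α → ZMod (2 ^ I)) :=
  univ.filter (fun k => k ∈ L ∧ k + k = 0)

/-- The kernel mod `2 ^ I` as a subgroup. -/
def kerG {β : Type} (I : ℕ) (ω : β → α → Fin 4) : AddSubgroup (α → ZMod (2 ^ I)) where
  carrier := {u | ∀ i, walk (ω i) u = 0}
  add_mem' := by
    intro a b ha hb i
    have h1 := ha i
    have h2 := hb i
    unfold walk at *
    simp only [Pi.add_apply, mul_add, sum_add_distrib, h1, h2, add_zero]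
  zero_mem' := by
    intro i
    simp [walk]
  neg_mem' := by
    intro a ha i
    have h1 := ha i
    unfold walk at *
    simp only [Pi.neg_apply, mul_neg, sum_neg_distrib, h1, neg_zero]

end defs

end Vale.Agent.P160
end
end

section

section

namespace Vale.Agent.P160

open Finset Filter Topology

lemma rk_le_pr {M k : ℕ} {N : ℕ} : rk M k ≤ pr M (fun _ : Fin k => (1 : ZMod N)) 0 := by
  unfold rk pr
  rw [Fintype.card_fin]
  refine div_le_div_of_nonneg_right ?_ (by positivity)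
  refine Nat.cast_le.mpr (card_le_card (monotone_filter_right _ fun ω _ h => ?_))
  unfold walk
  rw [← sum_mul, mul_one]
  have : (∑ i, ((st (ω i) : ℤ) : ZMod N)) = (((∑ i, st (ω i)) : ℤ) : ZMod N) := by
    push_cast; rfl
  rw [this, h]
  simp

lemma cf_lt_one {M N : ℕ} [NeZero N] (hM : 0 < M) {x : ZMod N} (hx : x ≠ 0) :
    cf M (ee x) < 1 := by
  have h1 : (ee x).re < 1 := by
    have hle : (ee x).re ≤ 1 := by
      have := Complex.abs_re_le_norm (ee x)
      rw [norm_ee] at this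
      exact (abs_le.mp this).2
    rcases hle.eq_or_lt with h | h
    · exfalso
      apply ee_ne_one hx
      have hn : Complex.normSq (ee x) = 1 := by
        rw [Complex.normSq_eq_norm_sq, norm_ee]; norm_num
      rw [Complex.normSq_apply, h] at hn
      have him : (ee x).im = 0 := by (clear M hM hx hle h; nlinarith)
      exact Complex.ext (by simpa only [Complex.one_re] using h) (by simpa using him)
    · exact h
  have hM' : (0 : ℝ) < M := by exact_mod_cast hM
  unfold cf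
  have : 0 < 2 / (M : ℝ) := by positivity
  nlinarith

lemma exists_rk_small {M : ℕ} (hM : 4 ≤ M) {τ : ℝ} (hτ : 0 < τ) :
    ∃ k : ℕ, 1 ≤ k ∧ rk M k ≤ τ := by
  obtain ⟨N, hN⟩ := exists_nat_gt (2 / τ)
  have hN0 : 0 < N := by
    rcases Nat.eq_zero_or_pos N with h | h
    · exfalso
      rw [h] at hN
      have : 0 < 2 / τ := by (clear * - hτ; (clear * - hτ; positivity))
      simp only [CharP.cast_eq_zero] at hN
      linarith only [this, hN]
    · exact h
  have : NeZero N := ⟨hN0.ne'⟩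
  have hN' : (0 : ℝ) < N := by exact_mod_cast hN0
  have hlim : Tendsto (fun k : ℕ => ∑ x ∈ univ.erase (0 : ZMod N), cf M (ee (x * 1)) ^ k) atTop
      (𝓝 (∑ _x ∈ univ.erase (0 : ZMod N), (0 : ℝ))) := by
    refine tendsto_finsetSum _ fun x hx => ?_
    rw [mem_erase] at hx
    refine tendsto_pow_atTop_nhds_zero_of_lt_one (cf_nonneg hM (norm_ee _)) ?_
    rw [mul_one]
    exact cf_lt_one (by omega) hx.1
  rw [sum_const_zero] at hlim
  have hev : ∀ᶠ k : ℕ in atTop, ∑ x ∈ univ.erase (0 : ZMod N), cf M (ee (x * 1)) ^ k < 1 :=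
    hlim.eventually_lt_const (by (clear * -; norm_num))
  obtain ⟨k, hk1, hk⟩ := ((eventually_ge_atTop 1).and hev).exists
  refine ⟨k, hk1, rk_le_pr.trans (b := pr M (fun _ : Fin k => (1 : ZMod N)) 0) ?_⟩
  have hZ := Zf_eq (M := M) (by omega) (fun _ : Fin k => (1 : ZMod N))
  unfold Zf at hZ
  have h2 : ∑ t : ZMod N, ∏ _i : Fin k, cf M (ee (t * 1)) < 2 := by
    rw [← add_sum_erase _ _ (mem_univ (0 : ZMod N))]
    simp only [prod_const, card_univ, Fintype.card_fin]
    simp only [zero_mul, ee_zero, cf_one, one_pow]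
    linarith only [hk]
  rw [← hZ] at h2
  have h3 : 2 ≤ τ * N := by
    have := (div_lt_iff₀ hτ).mp hN
    linarith only [this]
  by_contra hcon
  push Not at hcon
  nlinarith only [h2, h3, hcon]

open Classical in
theorem count_main {M N : ℕ} [NeZero N] (hM : 4 ≤ M) {k : ℕ} (a b u : ℕ) {η Λ : ℝ}
    (hη : 0 < η) (hΛ : 0 < Λ)
    (hsmall : ((k : ℝ) + 1) ^ 2 * (1 - 1 / (M * ((k : ℝ) + 1) ^ 2)) ^ u ≤ η / 2) :
    ((univ.filter (fun v : Fin (a + b) → ZMod N => u ≤ nu v ∧ 1 + η < Zf M v)).card : ℝ) ≤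
      ((univ.filter (fun v : Fin a → ZMod N => Λ ≤ Zf M v)).card : ℝ) * (N : ℝ) ^ b +
      (N : ℝ) ^ a * (Λ ^ (k + 1) * (2 / η) ^ (k + 1) * ((N : ℝ) * rk M (k + 1)) ^ b) := by
  have hM' : (4 : ℝ) ≤ M := by exact_mod_cast hM
  set T := T0 N (k + 1) with hT
  set rest : (Fin a → ZMod N) → (Fin b → ZMod N) → ℝ := fun va vb =>
    ∑ t ∈ Tᶜ, PP M va t * PP M vb t with hrest
  -- key implication
  have key : ∀ (va : Fin a → ZMod N) (vb : Fin b → ZMod N),
      (u ≤ nu (Fin.append va vb) ∧ 1 + η < Zf M (Fin.append va vb)) → η / 2 < rest va vb := by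
    intro va vb ⟨hu, hZ⟩
    rw [Zf_eq_sum_PP (by omega)] at hZ
    have hsplit : ∑ t : ZMod N, PP M (Fin.append va vb) t =
        ∑ t ∈ T, PP M (Fin.append va vb) t + ∑ t ∈ Tᶜ, PP M (Fin.append va vb) t :=
      (sum_add_sum_compl T _).symm
    have h0T : (0 : ZMod N) ∈ T := by
      rw [hT, mem_T0]
      exact ⟨1, by simp only [mem_Icc, Std.le_refl, le_add_iff_nonneg_left, zero_le, and_self], by simp only [Nat.cast_one, mul_zero]⟩
    have hTb : ∑ t ∈ T, PP M (Fin.append va vb) t ≤ 1 + η / 2 := by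
      rw [← add_sum_erase _ _ h0T, PP_zero]
      have : ∑ t ∈ T.erase 0, PP M (Fin.append va vb) t ≤ η / 2 := by
        have hc : 0 ≤ 1 - 1 / ((M : ℝ) * ((k : ℝ) + 1) ^ 2) := by
          rw [sub_nonneg, div_le_one (by (clear * - hM; (clear * - hM; positivity)))]
          have : (1 : ℝ) ≤ ((k : ℝ) + 1) ^ 2 := by
            have : (0 : ℝ) ≤ k := by (clear * -; positivity)
            nlinarith
          nlinarith only [this, hM']
        have hc1 : 1 - 1 / ((M : ℝ) * ((k : ℝ) + 1) ^ 2) ≤ 1 := by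
          have : 0 ≤ 1 / ((M : ℝ) * ((k : ℝ) + 1) ^ 2) := by (clear * - hM; (clear * - hM; positivity))
          linarith only [this]
        calc ∑ t ∈ T.erase 0, PP M (Fin.append va vb) t
            ≤ ∑ _t ∈ T.erase 0, (1 - 1 / ((M : ℝ) * ((k : ℝ) + 1) ^ 2)) ^ u := by
              refine sum_le_sum fun t ht => ?_
              rw [mem_erase] at ht
              have h := PP_small_order hM (by (clear * -; omega) : 1 ≤ k + 1) (Fin.append va vb) ht.2 ht.1
              push_cast at h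
              refine h.trans ?_
              exact pow_le_pow_of_le_one hc hc1 hu
          _ = ((T.erase 0).card : ℝ) * (1 - 1 / ((M : ℝ) * ((k : ℝ) + 1) ^ 2)) ^ u := by
              rw [sum_const, nsmul_eq_mul]
          _ ≤ ((k : ℝ) + 1) ^ 2 * (1 - 1 / ((M : ℝ) * ((k : ℝ) + 1) ^ 2)) ^ u := by
              have h1 : ((T.erase 0).card : ℝ) ≤ (T.card : ℝ) := by
                exact_mod_cast card_le_card (erase_subset _ _)
              have h2 := card_T0_le (N := N) (k + 1)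
              push_cast at h2
              have h3 : ((T.erase 0).card : ℝ) ≤ ((k : ℝ) + 1) ^ 2 := h1.trans h2
              exact mul_le_mul_of_nonneg_right h3 (pow_nonneg hc _)
          _ ≤ η / 2 := hsmall
      (clear Λ hη hΛ hT rest hrest hZ hsplit h0T; linarith)
    have hrest' : rest va vb = ∑ t ∈ Tᶜ, PP M (Fin.append va vb) t := by
      rw [hrest]
      exact sum_congr rfl fun t _ => (PP_append va vb t).symm
    rw [hrest']
    linarith
  -- moment bound
  have hmoment : ∀ va : Fin a → ZMod N, Zf M va < Λ →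
      ((univ.filter (fun vb : Fin b → ZMod N => η / 2 < rest va vb)).card : ℝ) ≤
        Λ ^ (k + 1) * (2 / η) ^ (k + 1) * ((N : ℝ) * rk M (k + 1)) ^ b := by
    intro va hva
    have h1 : ((univ.filter (fun vb : Fin b → ZMod N => η / 2 < rest va vb)).card : ℝ) *
        (η / 2) ^ (k + 1) ≤ ∑ vb : Fin b → ZMod N, (rest va vb) ^ (k + 1) := by
      rw [← nsmul_eq_mul, ← sum_const]
      refine (sum_le_sum fun vb hvb => ?_).trans (sum_le_sum_of_subset_of_nonneg
        (filter_subset _ _) fun vb _ _ => ?_)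
      · rw [mem_filter] at hvb
        exact pow_le_pow_left₀ (by (clear * - hη; positivity)) hvb.2.le _
      · exact pow_nonneg (sum_nonneg fun t _ => mul_nonneg (PP_nonneg hM _ _)
          (PP_nonneg hM _ _)) _
    have hZva : ∑ t ∈ Tᶜ, PP M va t ≤ Λ := by
      rw [Zf_eq_sum_PP (by omega)] at hva
      exact (sum_le_sum_of_subset_of_nonneg (subset_univ _)
        fun t _ _ => PP_nonneg hM _ _).trans hva.le
    have h2 : ∑ vb : Fin b → ZMod N, (rest va vb) ^ (k + 1) ≤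
        ∑ vb : Fin b → ZMod N, Λ ^ k * ∑ t ∈ Tᶜ, PP M va t * PP M vb t ^ (k + 1) :=
      sum_le_sum fun vb _ => power_mean Tᶜ _ _ (fun t _ => PP_nonneg hM _ _)
        (fun t _ => PP_nonneg hM _ _) hΛ hZva k
    have h3 : ∑ vb : Fin b → ZMod N, Λ ^ k * ∑ t ∈ Tᶜ, PP M va t * PP M vb t ^ (k + 1) =
        Λ ^ k * ∑ t ∈ Tᶜ, PP M va t * ((N : ℝ) * rk M (k + 1)) ^ b := by
      rw [← mul_sum, sum_comm]
      congr 1
      refine sum_congr rfl fun t ht => ?_
      rw [← mul_sum]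
      congr 1
      refine sum_PP_pow (by omega) b t fun i hi1 hi2 h => ?_
      rw [mem_compl, hT, mem_T0] at ht
      exact ht ⟨i, by rw [mem_Icc]; exact ⟨hi1, hi2⟩, h⟩
    have h4 : Λ ^ k * ∑ t ∈ Tᶜ, PP M va t * ((N : ℝ) * rk M (k + 1)) ^ b ≤
        Λ ^ (k + 1) * ((N : ℝ) * rk M (k + 1)) ^ b := by
      rw [← sum_mul, pow_succ, mul_assoc]
      have := rk_nonneg (M := M) (k + 1)
      (clear u η hη hsmall hM' hT rest hrest key h1 h2 h3; gcongr)
    have h5 : ((univ.filter (fun vb : Fin b → ZMod N => η / 2 < rest va vb)).card : ℝ) *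
        (η / 2) ^ (k + 1) ≤ Λ ^ (k + 1) * ((N : ℝ) * rk M (k + 1)) ^ b :=
      h1.trans (h2.trans (h3.le.trans h4))
    have h6 : (2 / η) ^ (k + 1) * (η / 2) ^ (k + 1) = 1 := by
      rw [← mul_pow]
      have : 2 / η * (η / 2) = 1 := by (clear * - hη; field_simp)
      rw [this, one_pow]
    have h7 : 0 < (2 / η) ^ (k + 1) := by (clear * - hη; positivity)
    calc ((univ.filter (fun vb : Fin b → ZMod N => η / 2 < rest va vb)).card : ℝ)
        = (((univ.filter (fun vb : Fin b → ZMod N => η / 2 < rest va vb)).card : ℝ) *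
          (η / 2) ^ (k + 1)) * (2 / η) ^ (k + 1) := by
          rw [mul_assoc, mul_comm ((η / 2) ^ (k + 1)), h6, mul_one]
      _ ≤ (Λ ^ (k + 1) * ((N : ℝ) * rk M (k + 1)) ^ b) * (2 / η) ^ (k + 1) := by (clear u hsmall hM' hrest key h6 h7; gcongr)
      _ = _ := by ring
  -- assemble
  have hcard : ((univ.filter (fun v : Fin (a + b) → ZMod N =>
      u ≤ nu v ∧ 1 + η < Zf M v)).card : ℝ) =
      ∑ va : Fin a → ZMod N, ((univ.filter (fun vb : Fin b → ZMod N =>
        u ≤ nu (Fin.append va vb) ∧ 1 + η < Zf M (Fin.append va vb))).card : ℝ) := by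
    rw [natCast_card_filter, ← (Fin.appendEquiv a b).sum_comp, Fintype.sum_prod_type]
    refine sum_congr rfl fun va _ => ?_
    rw [natCast_card_filter]
    rfl
  rw [hcard]
  have hterm : ∀ va : Fin a → ZMod N, ((univ.filter (fun vb : Fin b → ZMod N =>
        u ≤ nu (Fin.append va vb) ∧ 1 + η < Zf M (Fin.append va vb))).card : ℝ) ≤
      (if Λ ≤ Zf M va then (N : ℝ) ^ b else 0) +
        Λ ^ (k + 1) * (2 / η) ^ (k + 1) * ((N : ℝ) * rk M (k + 1)) ^ b := by
    intro va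
    have hnn : 0 ≤ Λ ^ (k + 1) * (2 / η) ^ (k + 1) * ((N : ℝ) * rk M (k + 1)) ^ b := by
      have := rk_nonneg (M := M) (k + 1)
      (clear * - hΛ hη this; (clear * - hΛ hη this; positivity))
    by_cases hva : Λ ≤ Zf M va
    · rw [if_pos hva]
      have : ((univ.filter (fun vb : Fin b → ZMod N =>
        u ≤ nu (Fin.append va vb) ∧ 1 + η < Zf M (Fin.append va vb))).card : ℝ) ≤
          ((univ : Finset (Fin b → ZMod N)).card : ℝ) := by
        exact_mod_cast card_le_card (filter_subset _ _)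
      rw [card_univ, Fintype.card_fun, ZMod.card, Fintype.card_fin] at this
      push_cast at this
      (clear hM hsmall hM' T hT rest hrest key hmoment hcard hva; linarith)
    · rw [if_neg hva, zero_add]
      push Not at hva
      refine le_trans ?_ (hmoment va hva)
      exact_mod_cast card_le_card (monotone_filter_right _ fun vb _ => key va vb)
  refine (sum_le_sum fun va _ => hterm va).trans ?_
  rw [sum_add_distrib, ← sum_filter, sum_const, sum_const, nsmul_eq_mul, nsmul_eq_mul, card_univ,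
    Fintype.card_fun, ZMod.card, Fintype.card_fin]
  push_cast
  exact le_refl _

end Vale.Agent.P160
end
end

section

section

namespace Vale.Agent.P160

open Finset Filter Topology

/-- Bound for the number of vectors with very large return probability. -/
lemma card_large_exp {M : ℕ} (hM : 4 ≤ M) {ε X : ℝ} (hε : 0 < ε) (hε1 : ε < 1)
    (hX0 : 0 ≤ X)
    (hX : Real.log (((1 - 2 / (M : ℝ)) ^ (1 - ε / 4) - (1 - 2 / M)) * M / 2) ≤ X) :
    ∃ Λ : ℝ, 1 ≤ Λ ∧ ∀ (a : ℕ) (d : ℝ) (N : ℕ) [NeZero N],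
      Real.log N ≤ (1 - ε) * d * (-Real.log (1 - 2 / (M : ℝ))) → 0 ≤ d →
      ((univ.filter (fun v : Fin a → ZMod N => Λ ≤ Zf M v)).card : ℝ) ≤
        (N : ℝ) ^ a * Real.exp (a * (Real.log 2 - X) + X * (1 - 3 * ε / 4) * d) := by
  have hM' : (4 : ℝ) ≤ M := by exact_mod_cast hM
  have hM0 : (0 : ℝ) < M := by linarith only [hM']
  set s : ℝ := 1 - 2 / (M : ℝ) with hs
  have hs0 : 0 < s := by
    rw [hs, sub_pos, div_lt_one hM0]; linarith only [hM']
  have hs1 : s < 1 := by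
    rw [hs]
    have : 0 < 2 / (M : ℝ) := by (clear * - hM; (clear * - hM; positivity))
    linarith only [this]
  set L0 := -Real.log s with hL0
  have hL0pos : 0 < L0 := by
    rw [hL0]
    have := Real.log_neg hs0 hs1
    linarith only [this]
  set ρ : ℝ := s ^ (1 - ε / 4) with hρ
  have hρ0 : 0 < ρ := Real.rpow_pos_of_pos hs0 _
  set ε' := ρ - s with hε'
  have hε'0 : 0 < ε' := by
    rw [hε', sub_pos, hρ]
    calc s = s ^ (1 : ℝ) := (Real.rpow_one s).symm
      _ < s ^ (1 - ε / 4) := Real.rpow_lt_rpow_of_exponent_gt hs0 hs1 (by linarith only [hε])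
  set Λ' := Real.exp X with hΛ'
  set Λ := 2 / M * Λ' / ε' with hΛ
  have hΛ1 : 1 ≤ Λ := by
    rw [hΛ, le_div_iff₀ hε'0, one_mul]
    have h1 : ε' * M / 2 ≤ Λ' := by
      rw [hΛ']
      calc ε' * M / 2 = Real.exp (Real.log (ε' * M / 2)) :=
            (Real.exp_log (by (clear * - hε'0 hM; (clear * - hε'0 hM; positivity)))).symm
        _ ≤ Real.exp X := Real.exp_le_exp.mpr hX
    have : ε' = 2 / M * (ε' * M / 2) := by (clear * - hM hε'0; field_simp)
    rw [this]
    (clear * - h1 hM; (clear * - h1 hM; gcongr))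
  refine ⟨Λ, hΛ1, ?_⟩
  intro a d N _ hN hd
  have hN0 : (0 : ℝ) < N := by exact_mod_cast Nat.pos_of_ne_zero (NeZero.ne N)
  set κ := X / ((1 - ε / 4) * L0) with hκ
  have hden : 0 < (1 - ε / 4) * L0 := mul_pos (by linarith only [hε1]) hL0pos
  have hκ0 : 0 ≤ κ := div_nonneg hX0 hden.le
  have hρκ : ρ ^ κ = 1 / Λ' := by
    rw [hρ, ← Real.rpow_mul hs0.le, Real.rpow_def_of_pos hs0, hΛ', one_div, ← Real.exp_neg]
    congr 1
    have h1 : κ * ((1 - ε / 4) * L0) = X := by rw [hκ, div_mul_cancel₀ _ hden.ne']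
    rw [hL0] at h1
    linarith only [h1]
  set β := Λ / N with hβ
  have hβ0 : 0 < β := by
    rw [hβ]; (clear * - hM hε'0 hN0; (clear * - hM hε'0 hN0; positivity))
  have hmain := card_large (N := N) hM (ρ := ρ) (ε' := ε') (β := β) (κ := κ)
    (by rw [hε']; linarith only []) hρ0.le hε'0 hβ0 hκ0 a
  have hΛ'0 : 0 < Λ' := Real.exp_pos X
  have hbase : 2 / M / (ε' * β) + N * ρ ^ κ = 2 * N / Λ' := by
    rw [hρκ, hβ, hΛ]
    field_simp
    ring
  rw [hbase] at hmain
  have hset : univ.filter (fun v : Fin a → ZMod N => β ≤ pr M v 0) =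
      univ.filter (fun v : Fin a → ZMod N => Λ ≤ Zf M v) := by
    ext v
    simp only [mem_filter, mem_univ, true_and]
    rw [hβ, div_le_iff₀ hN0, mul_comm]
    rfl
  rw [hset] at hmain
  have hβκ : Real.exp (-(κ * Real.log N)) ≤ β ^ κ := by
    have h1 : (1 / (N : ℝ)) ≤ β := by
      rw [hβ]
      (clear * - hΛ1 hN0; gcongr)
    have h2 : (1 / (N : ℝ)) ^ κ ≤ β ^ κ := Real.rpow_le_rpow (by (clear * - hN0; (clear * - hN0; positivity))) h1 hκ0
    refine le_trans (le_of_eq ?_) h2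
    rw [one_div, Real.inv_rpow hN0.le, Real.rpow_def_of_pos hN0, ← Real.exp_neg]
    ring_nf
  have hcard : ((univ.filter (fun v : Fin a → ZMod N => Λ ≤ Zf M v)).card : ℝ) ≤
      (2 * N / Λ') ^ a * Real.exp (κ * Real.log N) := by
    have h3 : ((univ.filter (fun v : Fin a → ZMod N => Λ ≤ Zf M v)).card : ℝ) *
        Real.exp (-(κ * Real.log N)) ≤ (2 * N / Λ') ^ a := by
      refine le_trans ?_ hmain
      (clear hρ0 d hN hd hκ hρκ hβ0 hmain hΛ'0 hbase hset; gcongr)
    have h4 : Real.exp (-(κ * Real.log N)) * Real.exp (κ * Real.log N) = 1 := by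
      rw [← Real.exp_add]; simp only [neg_add_cancel, Real.exp_zero]
    calc ((univ.filter (fun v : Fin a → ZMod N => Λ ≤ Zf M v)).card : ℝ)
        = (((univ.filter (fun v : Fin a → ZMod N => Λ ≤ Zf M v)).card : ℝ) *
          Real.exp (-(κ * Real.log N))) * Real.exp (κ * Real.log N) := by
          rw [mul_assoc, h4, mul_one]
      _ ≤ _ := by (clear hρ0 d hN hd hκ hρκ hβ0 hΛ'0 hbase hset h4; gcongr)
  refine hcard.trans ?_
  have h5 : (2 * N / Λ') ^ a = (N : ℝ) ^ a * Real.exp (a * (Real.log 2 - X)) := by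
    rw [mul_comm 2 (N : ℝ), mul_div_assoc, mul_pow]
    congr 1
    rw [← Real.exp_log (show (0 : ℝ) < 2 / Λ' by (clear * -; positivity)), ← Real.exp_nat_mul]
    congr 1
    rw [Real.log_div (by (clear * -; norm_num)) hΛ'0.ne', hΛ', Real.log_exp]
  rw [h5, mul_assoc, ← Real.exp_add]
  refine mul_le_mul_of_nonneg_left (Real.exp_le_exp.mpr (add_le_add le_rfl ?_)) (by (clear * - hN0; (clear * - hN0; positivity)))
  have h6 : κ * Real.log N ≤ κ * ((1 - ε) * d * L0) := mul_le_mul_of_nonneg_left hN hκ0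
  refine h6.trans ?_
  have h8 : κ * ((1 - ε / 4) * L0) = X := by rw [hκ, div_mul_cancel₀ _ hden.ne']
  have h9 : (1 - ε) ≤ (1 - 3 * ε / 4) * (1 - ε / 4) := by nlinarith only [hε]
  have h10 : 0 ≤ κ * d * L0 := by (clear * - hX0 hden hd hL0pos; positivity)
  calc κ * ((1 - ε) * d * L0) = (κ * d * L0) * (1 - ε) := by ring
    _ ≤ (κ * d * L0) * ((1 - 3 * ε / 4) * (1 - ε / 4)) := mul_le_mul_of_nonneg_left h9 h10
    _ = (κ * ((1 - ε / 4) * L0)) * (1 - 3 * ε / 4) * d := by ring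
    _ = X * (1 - 3 * ε / 4) * d := by rw [h8]

lemma exp_ineq1 {a D X K1 ε : ℝ} (hε : 0 < ε) (hD0 : 0 ≤ D) (ha : (1 - ε / 4) * D ≤ a)
    (hXa : 2 / ε * (K1 + 1 + Real.log 2) ≤ X) (hXlog : Real.log 2 ≤ X) :
    a * (Real.log 2 - X) + X * (1 - 3 * ε / 4) * D ≤ -(K1 + 1) * D := by
  have hlog2 : 0 < Real.log 2 := Real.log_pos (by (clear * -; norm_num))
  have h2 : a * (Real.log 2 - X) ≤ ((1 - ε / 4) * D) * (Real.log 2 - X) :=
    mul_le_mul_of_nonpos_right ha (by (clear * - hXlog; (clear * - hXlog; linarith)))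
  have h3 : K1 + 1 + Real.log 2 ≤ ε / 2 * X := by
    have := mul_le_mul_of_nonneg_left hXa (show 0 ≤ ε / 2 by (clear * - hε; positivity))
    have h4 : ε / 2 * (2 / ε * (K1 + 1 + Real.log 2)) = K1 + 1 + Real.log 2 := by
      (clear * - hε; field_simp)
    linarith only [this, h4]
  have h5 : 0 ≤ D * (ε / 2 * X - (K1 + 1 + Real.log 2)) := mul_nonneg hD0 (by linarith only [h3])
  have h6 : 0 ≤ ε / 4 * D * Real.log 2 := by (clear * - hε hD0; positivity)
  (clear * - h2 h5 h6; linarith)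

lemma exp_ineq2 {r D K1 ε : ℝ} {b : ℕ} (hε : 0 < ε) (hK10 : 0 ≤ K1) (hr0 : 0 ≤ r)
    (hr : r ≤ Real.exp (-(4 * (K1 + 2) / ε))) (hb : (ε / 4) * D - 1 ≤ b) :
    r ^ b ≤ Real.exp (4 * (K1 + 2) / ε) * Real.exp (-(K1 + 2) * D) := by
  calc r ^ b ≤ (Real.exp (-(4 * (K1 + 2) / ε))) ^ b := pow_le_pow_left₀ hr0 hr _
    _ = Real.exp (-(4 * (K1 + 2) / ε) * b) := by
        rw [← Real.exp_nat_mul, mul_comm]
    _ ≤ Real.exp (4 * (K1 + 2) / ε + -(K1 + 2) * D) := by
        refine Real.exp_le_exp.mpr ?_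
        have h2 : -(4 * (K1 + 2) / ε) * b ≤ -(4 * (K1 + 2) / ε) * ((ε / 4) * D - 1) := by
          have : 0 ≤ 4 * (K1 + 2) / ε := by (clear * - hK10 hε; positivity)
          nlinarith only [hb, this]
        refine h2.trans (le_of_eq ?_)
        field_simp
        ring
    _ = _ := Real.exp_add _ _

end Vale.Agent.P160
end
end

section

section

namespace Vale.Agent.P160

open Finset

section two

variable {ι : Type*} [Fintype ι] [DecidableEq ι] {N : ℕ}

/-- Weights: 6 at residue 0, `2 |Re z|` at residue 1. -/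
noncomputable def wt2 (z : ℂ) (a : ZMod 2) : ℝ := if a = 0 then 6 else 2 * |z.re|

end two

end Vale.Agent.P160
end
end

section

section
attribute [-instance] ProperSMul.toContinuousSMul IsTopologicalTorsor.toContinuousSMul IdemSemiring.toCanonicallyOrderedAdd IdemSemiring.toMulLeftMono IdemSemiring.toMulRightMono AddQuantale.instAddLeftMono AddQuantale.instAddRightMono Quantale.instMulLeftMono Quantale.instMulRightMono FiniteDimensional.rclike_to_real IsScalarTower.complexToReal FiniteDimensional.complexToReal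

namespace Vale.Agent.P160

open Finset

section two

variable {ι : Type*} [Fintype ι] [DecidableEq ι]

/-- Number of nonzero coordinates of a vector mod 2. -/
def wt (y : ι → ZMod 2) : ℕ := (univ.filter (fun i => y i ≠ 0)).card

end two

section final

variable {ι : Type*} [Fintype ι] [DecidableEq ι] {N : ℕ}

lemma walk_castHom {M q : ℕ} (h : q ∣ N) (r : ι → Fin M) (v : ι → ZMod N) :
    walk r (fun i => ZMod.castHom h (ZMod q) (v i)) = ZMod.castHom h (ZMod q) (walk r v) := by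
  unfold walk
  rw [map_sum]
  refine sum_congr rfl fun i _ => ?_
  rw [map_mul, map_intCast]

end final

end Vale.Agent.P160
end
end

section

section

set_option linter.unusedSectionVars false

namespace Vale.Agent.P160

open Finset

/-- Structured vectors at level `j`: some shift by a multiple of `2 ^ (j - I)` is concentrated. -/
def BadL {α : Type*} [Fintype α] [DecidableEq α] (I : ℕ) (τ : ℝ) {j : ℕ}
    (x : α → ZMod (2 ^ j)) : Prop :=
  ∃ k : α → ZMod (2 ^ j), 1 + τ < Zf 6 (fun i => x i + 2 ^ (j - I) * k i)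

/-- A family of blocks such that every pair is separated by less than half of the blocks. -/
def Sep4 {ι T : Type} [Fintype ι] [DecidableEq ι] [Fintype T] [DecidableEq T]
    (D : T → Finset ι) : Prop :=
  ∀ i j : ι, i ≠ j → 2 * (univ.filter (fun t => (i ∈ D t ∧ j ∉ D t) ∨ (i ∉ D t ∧ j ∈ D t))).card
    + 4 ≤ Fintype.card T

lemma Sep4.sep {ι T : Type} [Fintype ι] [DecidableEq ι] [Fintype T] [DecidableEq T] [Nonempty T]
    {D : T → Finset ι} (h : Sep4 D) : Sep D := by
  intro i j hij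
  have := h i j hij
  (clear * - this; omega)

section events

variable {n : ℕ} {T : Type} [Fintype T] [DecidableEq T] [Nonempty T] (D : T → Finset (Fin n))

/-- The structured event at level `j + 1` for the pattern `t₀`. -/
def EvA6 (I u : ℕ) (τ : ℝ) (j : ℕ) (t₀ : T) (b : Sym2 (Fin n) → Bool) : Prop :=
  ∃ (v : Fin n → ZMod (2 ^ (j + 1))) (c : ZMod (2 ^ (j + 1))),
    ((∀ t, u ≤ nu (fun i : {i // i ∈ D t} => v i)) ∧
    BadL I τ (fun i : {i // i ∈ D t₀} => v i) ∧
    ∀ t, GoodX I τ (fun i : {i // i ∈ D t} => ((v i).cast : ZMod (2 ^ j)))) ∧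
    smul2 b v = fun _ => c

/-- The unstructured event at the top level. -/
def EvB6 (I u : ℕ) (τ : ℝ) (J : ℕ) (b : Sym2 (Fin n) → Bool) : Prop :=
  ∃ (g : Fin n → ℤ) (c : ℤ), smul2 b g = (fun _ => c) ∧ 2 * c = ∑ i, g i ∧
    ∀ t, u ≤ nu (fun i : {i // i ∈ D t} => (g i : ZMod (2 ^ (J + 1)))) ∧
      GoodX I τ (fun i : {i // i ∈ D t} => (g i : ZMod (2 ^ (J + 1))))

end events

end Vale.Agent.P160
end
end

section

section

namespace Vale.Agent.P160

open Finset

lemma sm6_Zf_comp {α β : Type*} [Fintype α] [Fintype β] [DecidableEq α] [DecidableEq β]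
    {M N : ℕ} [NeZero N] (hM : 2 ≤ M) (e : α ≃ β) (v : β → ZMod N) :
    Zf M (fun i => v (e i)) = Zf M v := by
  rw [Zf_eq hM, Zf_eq hM]
  refine sum_congr rfl fun t _ => ?_
  exact Equiv.prod_comp e (fun i => cf M (ee (t * v i)))

lemma sm6_nu_comp {α β : Type*} [Fintype α] [Fintype β] [DecidableEq α] [DecidableEq β]
    {N : ℕ} (e : α ≃ β) (v : β → ZMod N) : nu (fun i => v (e i)) = nu v := by
  classical
  unfold nu
  refine card_equiv e fun i => ?_
  simp only [mem_filter, mem_univ, true_and]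

/-- elementary constants of the second term -/
lemma sm6_pow_eta {c D : ℝ} {k : ℕ} (hc : c ≤ 1 / ((k : ℝ) + 1)) (hD : 0 ≤ D) :
    (2 / Real.exp (-c * D)) ^ (k + 1) ≤ 2 ^ (k + 1) * Real.exp D := by
  have h1 : 2 / Real.exp (-c * D) = 2 * Real.exp (c * D) := by
    rw [neg_mul, Real.exp_neg]
    (clear * -; field_simp)
  rw [h1, mul_pow, ← Real.exp_nat_mul]
  have hk : (0 : ℝ) < (k : ℝ) + 1 := by (clear * -; positivity)
  have h2 : c * ((k : ℝ) + 1) ≤ 1 := by
    rw [le_div_iff₀ hk] at hc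
    exact hc
  have h3 : ((k + 1 : ℕ) : ℝ) * (c * D) ≤ D := by
    push_cast
    nlinarith only [h2, hD]
  exact mul_le_mul_of_nonneg_left (Real.exp_le_exp.mpr h3) (by positivity)

/-- elementary bound for the frequencies of small order -/
lemma sm6_small {c0 L δ D A c : ℝ} {u : ℕ} (hc0 : 0 < c0) (hL : L = -Real.log c0) (hL0 : 0 < L)
    (hδ : 0 < δ) (hA : 0 < A) (hu : δ * D ≤ u) (hc : c ≤ δ * L / 2) (hD : 0 ≤ D)
    (hD2 : 2 / (δ * L) * Real.log (2 * A) ≤ D) :
    A * c0 ^ u ≤ Real.exp (-c * D) / 2 := by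
  have h1 : c0 ^ u = Real.exp (-(L * u)) := by
    rw [hL]
    nth_rewrite 1 [← Real.exp_log hc0]
    rw [← Real.exp_nat_mul]
    congr 1
    ring
  have hδL : 0 < δ * L := mul_pos hδ hL0
  have h2 : Real.log (2 * A) ≤ δ * L / 2 * D := by
    have h3 := mul_le_mul_of_nonneg_left hD2 (show 0 ≤ δ * L / 2 by (clear * - hδ hL0; positivity))
    have h4 : δ * L / 2 * (2 / (δ * L) * Real.log (2 * A)) = Real.log (2 * A) := by
      field_simp
    linarith only [h3, h4]
  have h5 : 2 * A ≤ Real.exp (δ * L / 2 * D) := by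
    rw [← Real.exp_log (show 0 < 2 * A by (clear * - hA; positivity))]
    exact Real.exp_le_exp.mpr h2
  rw [h1]
  have h6 : Real.exp (-(L * u)) ≤ Real.exp (-(δ * L / 2 * D)) * Real.exp (-c * D) := by
    rw [← Real.exp_add]
    refine Real.exp_le_exp.mpr ?_
    nlinarith only [mul_le_mul_of_nonneg_left hu hL0.le, mul_le_mul_of_nonneg_right hc hD]
  have h7 : A * Real.exp (-(δ * L / 2 * D)) ≤ 1 / 2 := by
    rw [Real.exp_neg, ← div_eq_mul_inv, div_le_iff₀ (Real.exp_pos _)]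
    linarith only [h5]
  calc A * Real.exp (-(L * u)) ≤ A * (Real.exp (-(δ * L / 2 * D)) * Real.exp (-c * D)) :=
        mul_le_mul_of_nonneg_left h6 hA.le
    _ = A * Real.exp (-(δ * L / 2 * D)) * Real.exp (-c * D) := by ring
    _ ≤ 1 / 2 * Real.exp (-c * D) := mul_le_mul_of_nonneg_right h7 (Real.exp_pos _).le
    _ = Real.exp (-c * D) / 2 := by ring

open Classical in
/-- Counting lemma with exponentially small threshold, vectors indexed by `Fin d`. -/
theorem sm6_count_fin {M : ℕ} (hM : 4 ≤ M) {ε δ : ℝ} (K : ℝ) (hε : 0 < ε) (hε1 : ε < 1)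
    (hδ : 0 < δ) : ∃ c : ℝ, 0 < c ∧ ∃ d0 : ℕ, ∀ d ≥ d0, ∀ (N : ℕ) [NeZero N],
      Real.log N ≤ (1 - ε) * d * (-Real.log (1 - 2 / (M : ℝ))) →
      ((univ.filter (fun v : Fin d → ZMod N => δ * d ≤ nu v ∧
        1 + Real.exp (-c * d) < Zf M v)).card : ℝ) ≤
        Real.exp (-K * d) * (N : ℝ) ^ d := by
  have hM' : (4 : ℝ) ≤ M := by exact_mod_cast hM
  set K1 := max K 0 with hK1
  have hK10 : 0 ≤ K1 := le_max_right _ _
  have hKK1 : K ≤ K1 := le_max_left _ _
  have hlog2 : 0 < Real.log 2 := Real.log_pos (by (clear * -; norm_num))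
  have hlog2' : Real.log 2 ≤ 1 := by
    have := Real.log_two_lt_d9
    linarith only [this]
  set w := Real.log (((1 - 2 / (M : ℝ)) ^ (1 - ε / 4) - (1 - 2 / M)) * M / 2) with hw
  set X := 2 / ε * (K1 + 1 + Real.log 2) + |w| with hX
  have hXa : 2 / ε * (K1 + 1 + Real.log 2) ≤ X := by
    rw [hX]; linarith only [abs_nonneg w]
  have hXw : w ≤ X := by
    have h1 : 0 ≤ 2 / ε * (K1 + 1 + Real.log 2) := by (clear * - hε; (clear * - hε; positivity))
    have h2 := le_abs_self w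
    rw [hX]; linarith only [h1, h2]
  have hX0 : 0 ≤ X := by
    have h1 : 0 ≤ 2 / ε * (K1 + 1 + Real.log 2) := by (clear * - hε; positivity)
    linarith only [hXa, h1]
  have hXlog : Real.log 2 ≤ X := by
    refine le_trans ?_ hXa
    have h1 : (1 : ℝ) ≤ 2 / ε := by
      rw [le_div_iff₀ hε]; linarith only [hε1]
    nlinarith only [hK10, h1, hlog2]
  obtain ⟨Λ, hΛ1, hΛ⟩ := card_large_exp hM hε hε1 hX0 hXw
  have hΛ0 : 0 < Λ := by linarith only [hΛ1]
  obtain ⟨K3, hK3⟩ : ∃ K3, K3 = K1 + 1 := ⟨_, rfl⟩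
  have hK30 : 0 ≤ K3 := by rw [hK3]; linarith only [hK10]
  set τ := Real.exp (-(4 * (K3 + 2) / ε)) with hτ
  obtain ⟨k', hk', hrk⟩ := exists_rk_small hM (τ := τ) (Real.exp_pos _)
  obtain ⟨k, rfl⟩ : ∃ k, k' = k + 1 := ⟨k' - 1, by omega⟩
  set C := Λ ^ (k + 1) * 2 ^ (k + 1) * Real.exp (4 * (K3 + 2) / ε) with hC
  have hC0 : 0 < C := by rw [hC]; (clear * - hΛ1; positivity)
  -- small order frequencies
  set c0 : ℝ := 1 - 1 / ((M : ℝ) * ((k : ℝ) + 1) ^ 2) with hc
  have hc00 : 0 < c0 := by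
    rw [hc, sub_pos, div_lt_one (by (clear * - hM; (clear * - hM; positivity)))]
    have : (1 : ℝ) ≤ ((k : ℝ) + 1) ^ 2 := by
      have : (0 : ℝ) ≤ k := by (clear * -; positivity)
      nlinarith
    nlinarith only [this, hM']
  have hc1 : c0 < 1 := by
    rw [hc]
    have : 0 < 1 / ((M : ℝ) * ((k : ℝ) + 1) ^ 2) := by (clear * - hM; (clear * - hM; positivity))
    linarith only [this]
  set L := -Real.log c0 with hL
  have hL0 : 0 < L := by
    have := Real.log_neg hc00 hc1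
    rw [hL]; linarith only [this]
  set c : ℝ := min (1 / ((k : ℝ) + 1)) (δ * L / 2) with hcd
  have hcpos : 0 < c := lt_min (by (clear * -; positivity)) (by (clear * - hδ hL0; positivity))
  have hck : c ≤ 1 / ((k : ℝ) + 1) := min_le_left _ _
  have hcL : c ≤ δ * L / 2 := min_le_right _ _
  set A : ℝ := ((k : ℝ) + 1) ^ 2 with hA
  have hA0 : 0 < A := by rw [hA]; (clear * -; positivity)
  refine ⟨c, hcpos, max (max ⌈2 / (δ * L) * Real.log (2 * A)⌉₊ ⌈Real.log C⌉₊) 1, ?_⟩
  intro d hd N _ hN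
  have hd1 : (1 : ℝ) ≤ d := by
    exact_mod_cast (le_max_right _ _).trans hd
  have hdL : 2 / (δ * L) * Real.log (2 * A) ≤ d := by
    refine (Nat.le_ceil _).trans ?_
    exact_mod_cast ((le_max_left _ _).trans (le_max_left _ _)).trans hd
  have hdC : Real.log C ≤ d := by
    refine (Nat.le_ceil _).trans ?_
    exact_mod_cast ((le_max_right _ _).trans (le_max_left _ _)).trans hd
  -- split d = a + b
  obtain ⟨a, b, hab, ha, hb⟩ : ∃ a b : ℕ, a + b = d ∧ (1 - ε / 4) * d ≤ a ∧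
      (ε / 4) * d - 1 ≤ b := by
    have hb1 : ((⌊ε / 4 * d⌋₊ : ℕ) : ℝ) ≤ ε / 4 * d := Nat.floor_le (by (clear * - hε hd1; (clear * - hε hd1; positivity)))
    have hb2 : ε / 4 * d < (⌊ε / 4 * d⌋₊ : ℕ) + 1 := Nat.lt_floor_add_one _
    have hb3 : ⌊ε / 4 * d⌋₊ ≤ d := by
      have : ((⌊ε / 4 * d⌋₊ : ℕ) : ℝ) ≤ d := by nlinarith only [hε1, hb1]
      exact_mod_cast this
    refine ⟨d - ⌊ε / 4 * d⌋₊, ⌊ε / 4 * d⌋₊, by (clear * - hb3; omega), ?_, by linarith only [hb2]⟩
    rw [Nat.cast_sub hb3]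
    linarith only [hb1]
  subst hab
  set u := ⌈δ * ((a + b : ℕ) : ℝ)⌉₊ with hu
  set D : ℝ := ((a + b : ℕ) : ℝ) with hD
  have hD0 : 0 ≤ D := by linarith only [hd1]
  have hsmall : ((k : ℝ) + 1) ^ 2 * (1 - 1 / (M * ((k : ℝ) + 1) ^ 2)) ^ u ≤
      Real.exp (-c * D) / 2 :=
    sm6_small hc00 hL hL0 hδ hA0 (Nat.le_ceil _) hcL hD0 hdL
  have hN0 : (0 : ℝ) < N := by exact_mod_cast Nat.pos_of_ne_zero (NeZero.ne N)
  have hmain := count_main (N := N) hM a b u (Real.exp_pos (-c * D)) hΛ0 hsmall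
  have hsub : ((univ.filter (fun v : Fin (a + b) → ZMod N =>
      δ * D ≤ nu v ∧ 1 + Real.exp (-c * D) < Zf M v)).card : ℝ) ≤
      ((univ.filter (fun v : Fin (a + b) → ZMod N => u ≤ nu v ∧
        1 + Real.exp (-c * D) < Zf M v)).card : ℝ) := by
    refine Nat.cast_le.mpr (card_le_card (monotone_filter_right _ fun v _ h => ?_))
    exact ⟨Nat.ceil_le.mpr h.1, h.2⟩
  refine hsub.trans (hmain.trans ?_)
  clear_value D u X K1 τ C c A L
  -- first term
  have hfirst : ((univ.filter (fun v : Fin a → ZMod N => Λ ≤ Zf M v)).card : ℝ) * (N : ℝ) ^ b ≤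
      (N : ℝ) ^ (a + b) * Real.exp (-(K1 + 1) * D) := by
    have h1 := hΛ a D N hN hD0
    have h2 := exp_ineq1 hε hD0 ha hXa hXlog
    calc ((univ.filter (fun v : Fin a → ZMod N => Λ ≤ Zf M v)).card : ℝ) * (N : ℝ) ^ b
        ≤ ((N : ℝ) ^ a * Real.exp (a * (Real.log 2 - X) + X * (1 - 3 * ε / 4) * D)) *
          (N : ℝ) ^ b := mul_le_mul_of_nonneg_right h1 (by (clear * - hN0; (clear * - hN0; positivity)))
      _ = (N : ℝ) ^ (a + b) * Real.exp (a * (Real.log 2 - X) + X * (1 - 3 * ε / 4) * D) := by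
          rw [pow_add]; ring
      _ ≤ _ := mul_le_mul_of_nonneg_left (Real.exp_le_exp.mpr h2) (by (clear * - hN0; positivity))
  -- second term
  have hsecond : (N : ℝ) ^ a * (Λ ^ (k + 1) * (2 / Real.exp (-c * D)) ^ (k + 1) *
      ((N : ℝ) * rk M (k + 1)) ^ b) ≤ (N : ℝ) ^ (a + b) * Real.exp (-(K1 + 1) * D) := by
    have h1 := exp_ineq2 hε hK30 (rk_nonneg (M := M) (k + 1)) (hτ ▸ hrk) hb
    have h2 : C ≤ Real.exp D := by
      rw [← Real.exp_log hC0]
      exact Real.exp_le_exp.mpr hdC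
    have h3 := sm6_pow_eta hck hD0
    have hr0 := rk_nonneg (M := M) (k + 1)
    calc (N : ℝ) ^ a * (Λ ^ (k + 1) * (2 / Real.exp (-c * D)) ^ (k + 1) *
          ((N : ℝ) * rk M (k + 1)) ^ b)
        = (N : ℝ) ^ (a + b) * (Λ ^ (k + 1) * ((2 / Real.exp (-c * D)) ^ (k + 1) *
          rk M (k + 1) ^ b)) := by
          rw [mul_pow, pow_add]; ring
      _ ≤ (N : ℝ) ^ (a + b) * (Λ ^ (k + 1) * ((2 ^ (k + 1) * Real.exp D) *
          (Real.exp (4 * (K3 + 2) / ε) * Real.exp (-(K3 + 2) * D)))) := by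
          (clear * - h1 h3 hΛ1 hN0 hr0; gcongr)
      _ = (N : ℝ) ^ (a + b) * (C * (Real.exp D * Real.exp (-(K3 + 2) * D))) := by rw [hC]; ring
      _ ≤ (N : ℝ) ^ (a + b) * (Real.exp D * (Real.exp D * Real.exp (-(K3 + 2) * D))) :=
          mul_le_mul_of_nonneg_left (mul_le_mul_of_nonneg_right h2
            (mul_pos (Real.exp_pos _) (Real.exp_pos _)).le)
            (by (clear * - hN0; (clear * - hN0; positivity)))
      _ = (N : ℝ) ^ (a + b) * Real.exp (-(K1 + 1) * D) := by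
          rw [← Real.exp_add, ← Real.exp_add, hK3]
          congr 2
          ring
  have hthird : 2 * Real.exp (-(K1 + 1) * D) ≤ Real.exp (-K * D) := by
    have h2 : (2 : ℝ) ≤ Real.exp D := by
      calc (2 : ℝ) = Real.exp (Real.log 2) := (Real.exp_log (by norm_num)).symm
        _ ≤ Real.exp D := Real.exp_le_exp.mpr (by linarith only [hlog2', hd1])
    calc 2 * Real.exp (-(K1 + 1) * D) ≤ Real.exp D * Real.exp (-(K1 + 1) * D) := by (clear * - h2; gcongr)
      _ = Real.exp (-K1 * D) := by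
          rw [← Real.exp_add]
          congr 1
          ring
      _ ≤ Real.exp (-K * D) :=
          Real.exp_le_exp.mpr (mul_le_mul_of_nonneg_right (neg_le_neg hKK1) hD0)
  have hfin : (N : ℝ) ^ (a + b) * Real.exp (-(K1 + 1) * D) +
        (N : ℝ) ^ (a + b) * Real.exp (-(K1 + 1) * D) ≤ Real.exp (-K * D) * (N : ℝ) ^ (a + b) := by
    calc _ = (2 * Real.exp (-(K1 + 1) * D)) * (N : ℝ) ^ (a + b) := by ring
      _ ≤ Real.exp (-K * D) * (N : ℝ) ^ (a + b) :=
        mul_le_mul_of_nonneg_right hthird (by (clear * - hN0; (clear * - hN0; positivity)))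
  have hadd := add_le_add hfirst hsecond
  refine hadd.trans hfin

open Classical in
/-- Task M6: counting lemma with exponentially small threshold. -/
theorem count_exp {M : ℕ} (hM : 4 ≤ M) {ε δ : ℝ} (K : ℝ) (hε : 0 < ε) (hε1 : ε < 1)
    (hδ : 0 < δ) : ∃ c : ℝ, 0 < c ∧ ∃ d0 : ℕ, ∀ (α : Type) [Fintype α] [DecidableEq α],
      Fintype.card α ≥ d0 → ∀ (N : ℕ) [NeZero N],
      Real.log N ≤ (1 - ε) * Fintype.card α * (-Real.log (1 - 2 / (M : ℝ))) →
      ((univ.filter (fun v : α → ZMod N => δ * Fintype.card α ≤ nu v ∧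
        1 + Real.exp (-c * Fintype.card α) < Zf M v)).card : ℝ) ≤
        Real.exp (-K * Fintype.card α) * (N : ℝ) ^ Fintype.card α := by
  obtain ⟨c, hc, d0, h⟩ := sm6_count_fin hM K hε hε1 hδ
  refine ⟨c, hc, d0, fun α _ _ hα N _ hN => ?_⟩
  refine le_trans (le_of_eq ?_) (h (Fintype.card α) hα N hN)
  congr 1
  set e := Fintype.equivFin α
  refine card_equiv (Equiv.arrowCongr e (Equiv.refl _)) fun v => ?_
  rw [mem_filter, mem_filter]
  have e1 : nu ((Equiv.arrowCongr e (Equiv.refl (ZMod N))) v) = nu v :=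
    sm6_nu_comp e.symm v
  have e2 : Zf M ((Equiv.arrowCongr e (Equiv.refl (ZMod N))) v) = Zf M v :=
    sm6_Zf_comp (by omega) e.symm v
  rw [e1, e2]
  simp only [mem_univ, neg_mul, true_and]

end Vale.Agent.P160
end
end

section

section

set_option linter.unusedSectionVars false

namespace Vale.Agent.P160

open Finset

section sparse

variable {ι : Type*} [Fintype ι] [DecidableEq ι]

lemma card_sym2_split (i₁ : ι) :
    Fintype.card {e : Sym2 ι // i₁ ∉ e} + Fintype.card ι ≤ Fintype.card (Sym2 ι) := by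
  have h1 : Fintype.card ι ≤ Fintype.card {e : Sym2 ι // ¬ (i₁ ∉ e)} := by
    refine Fintype.card_le_of_injective
      (fun i => (⟨s(i₁, i), by simp only [Sym2.mem_iff, true_or, not_true_eq_false, not_false_eq_true]⟩ : {e : Sym2 ι // ¬ (i₁ ∉ e)})) ?_
    intro i j h
    simp only [Subtype.mk.injEq, Sym2.eq_iff] at h
    rcases h with h | h
    · exact h.2
    · rw [h.2, ← h.1]
  have h2 := Fintype.card_subtype_compl (fun e : Sym2 ι => i₁ ∉ e)
  have h3 := Fintype.card_subtype_le (fun e : Sym2 ι => i₁ ∉ e)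
  (clear * - h1 h2 h3; omega)

/-- A solution of `S v = w` is determined by the entries away from a row where `v` is cancellable. -/
lemma smul2_injOn {R : Type*} [AddCommGroup R] (v : ι → R) (i₁ : ι) (h1 : v i₁ ≠ 0)
    (b b' : Sym2 ι → Bool) (h : smul2 b v = smul2 b' v)
    (hr : ∀ e : Sym2 ι, i₁ ∉ e → b e = b' e) : b = b' := by
  have key : ∀ i, i ≠ i₁ → b s(i, i₁) = b' s(i, i₁) := by
    intro i hi
    have h2 := congrFun h i
    unfold smul2 at h2
    rw [← Finset.add_sum_erase _ _ (mem_univ i₁), ← Finset.add_sum_erase univ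
      (fun j => if b' s(i, j) = true then v j else 0) (mem_univ i₁)] at h2
    have h3 : ∑ j ∈ univ.erase i₁, (if b s(i, j) then v j else 0) =
        ∑ j ∈ univ.erase i₁, (if b' s(i, j) then v j else 0) := by
      refine sum_congr rfl fun j hj => ?_
      rw [hr]
      simp only [Sym2.mem_iff, not_or]
      exact ⟨fun h => hi h.symm, fun h => (ne_of_mem_erase hj) h.symm⟩
    rw [h3] at h2
    have h4 := add_right_cancel h2
    by_cases hb : b s(i, i₁) <;> by_cases hb' : b' s(i, i₁) <;> simp_all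
  have key2 : b s(i₁, i₁) = b' s(i₁, i₁) := by
    have h2 := congrFun h i₁
    unfold smul2 at h2
    rw [← Finset.add_sum_erase _ _ (mem_univ i₁), ← Finset.add_sum_erase univ
      (fun j => if b' s(i₁, j) = true then v j else 0) (mem_univ i₁)] at h2
    have h3 : ∑ j ∈ univ.erase i₁, (if b s(i₁, j) then v j else 0) =
        ∑ j ∈ univ.erase i₁, (if b' s(i₁, j) then v j else 0) := by
      refine sum_congr rfl fun j hj => ?_
      have h5 := key j (ne_of_mem_erase hj)
      rw [Sym2.eq_swap, h5]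
    rw [h3] at h2
    have h4 := add_right_cancel h2
    by_cases hb : b s(i₁, i₁) <;> by_cases hb' : b' s(i₁, i₁) <;> simp_all
  funext e
  by_cases he : i₁ ∈ e
  · obtain ⟨j, rfl⟩ := he
    by_cases hj : j = i₁
    · subst hj; exact key2
    · have := key j hj
      rw [show s(i₁, j) = s(j, i₁) from Sym2.eq_swap]
      exact this
  · exact hr e he

/-- For any fixed nonzero `v` the equation `S v = w` has probability at most `2 ^ (-n)`. -/
lemma Spr_le_two_pow {N : ℕ} (v w : ι → ZMod N) (hv : v ≠ 0) :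
    Spr v w ≤ 1 / (2 : ℝ) ^ Fintype.card ι := by
  obtain ⟨i₁, h1⟩ := Function.ne_iff.1 hv
  have hcard : (univ.filter (fun b : Sym2 ι → Bool => smul2 b v = w)).card ≤
      2 ^ Fintype.card {e : Sym2 ι // i₁ ∉ e} := by
    have h2 : Fintype.card ({e : Sym2 ι // i₁ ∉ e} → Bool) =
        2 ^ Fintype.card {e : Sym2 ι // i₁ ∉ e} := by simp only [Fintype.card_pi, Fintype.card_bool, prod_const, card_univ, Fintype.card_subtype_compl]
    rw [← h2, ← Finset.card_univ]
    refine Finset.card_le_card_of_injOn (fun b e => b e.1) (fun _ _ => mem_univ _) ?_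
    intro b hb b' hb' hbb
    simp only [coe_filter, mem_univ, true_and, Set.mem_ofPred_eq] at hb hb'
    refine smul2_injOn v i₁ h1 b b' (hb.trans hb'.symm) ?_
    intro e he
    exact congrFun hbb ⟨e, he⟩
  unfold Spr
  rw [div_le_div_iff₀ (by positivity) (by positivity), one_mul]
  have h3 := card_sym2_split i₁
  calc ((univ.filter (fun b : Sym2 ι → Bool => smul2 b v = w)).card : ℝ) *
        2 ^ Fintype.card ι ≤ 2 ^ Fintype.card {e : Sym2 ι // i₁ ∉ e} * 2 ^ Fintype.card ι := by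
        gcongr
        exact_mod_cast hcard
    _ = 2 ^ (Fintype.card {e : Sym2 ι // i₁ ∉ e} + Fintype.card ι) := by rw [pow_add]
    _ ≤ 2 ^ Fintype.card (Sym2 ι) := pow_le_pow_right₀ (by norm_num) h3

end sparse

end Vale.Agent.P160
end
end

section

section

namespace Vale.Agent.P160

open Finset

/-- Tangent bound for powers: `a ^ p ≥ a + (p - 1) a log a`. -/
private theorem sm1a_rpow_ge {a p : ℝ} (ha : 0 ≤ a) (hp : 1 ≤ p) :
    a + (p - 1) * (a * Real.log a) ≤ a ^ p := by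
  rcases ha.eq_or_lt with h | h
  · rw [← h, Real.zero_rpow (by linarith only [hp])]
    simp
  · have h1 : a ^ p = a * Real.exp ((p - 1) * Real.log a) := by
      rw [Real.rpow_def_of_pos h]
      have h2 : Real.log a * p = Real.log a + (p - 1) * Real.log a := by ring
      rw [h2, Real.exp_add, Real.exp_log h]
    rw [h1]
    have h3 := Real.add_one_le_exp ((p - 1) * Real.log a)
    have h4 := mul_le_mul_of_nonneg_left h3 h.le
    linarith only [h4]

/-- `a log a ≥ 2 a - 2 sqrt a`. -/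
private theorem sm1a_mul_log_ge {a : ℝ} (ha : 0 ≤ a) :
    2 * a - 2 * Real.sqrt a ≤ a * Real.log a := by
  rcases ha.eq_or_lt with h | h
  · rw [← h]
    simp
  · have h1 : 0 < Real.sqrt a := Real.sqrt_pos.2 h
    have h2 := Real.one_sub_inv_le_log_of_pos h1
    rw [Real.log_sqrt h.le] at h2
    have h3 : a * (2 * (1 - (Real.sqrt a)⁻¹)) ≤ a * Real.log a :=
      mul_le_mul_of_nonneg_left (by linarith) h.le
    have h4 : a * (Real.sqrt a)⁻¹ = Real.sqrt a := by
      have h5 := Real.mul_self_sqrt h.le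
      field_simp
      linarith only [h5]
    have h6 : a * (2 * (1 - (Real.sqrt a)⁻¹)) = 2 * a - 2 * (a * (Real.sqrt a)⁻¹) := by ring
    rw [h6, h4] at h3
    exact h3

/-- `b log b ≥ b - 1`. -/
private theorem sm1a_mul_log_ge' {b : ℝ} (hb : 0 ≤ b) : b - 1 ≤ b * Real.log b := by
  rcases hb.eq_or_lt with h | h
  · rw [← h]
    simp only [zero_sub, Real.log_zero, mul_zero, Left.neg_nonpos_iff, zero_le_one]
  · have h2 := Real.one_sub_inv_le_log_of_pos h
    have h3 := mul_le_mul_of_nonneg_left h2 h.le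
    have h4 : b * (1 - b⁻¹) = b - 1 := by
      field_simp
    linarith

/-- lower bound for the power sum near the boundary -/
private theorem sm1a_low {a b p : ℝ} (ha : 0 ≤ a) (hb : 0 ≤ b) (hab : a + b = 1) (hp : 1 ≤ p) :
    1 - (p - 1) * (2 * Real.sqrt a) ≤ a ^ p + b ^ p := by
  have h1 := sm1a_rpow_ge ha hp
  have h2 := sm1a_rpow_ge hb hp
  have h3 := sm1a_mul_log_ge ha
  have h4 := sm1a_mul_log_ge' hb
  have h5 : -(2 * Real.sqrt a) ≤ a * Real.log a + b * Real.log b := by linarith only [ha, hab, h3, h4]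
  have h6 := mul_le_mul_of_nonneg_left h5 (by linarith only [hp] : (0 : ℝ) ≤ p - 1)
  linarith

/-- lower bound for the power sum by convexity -/
private theorem sm1a_conv {a b p : ℝ} (ha : 0 ≤ a) (hb : 0 ≤ b) (hab : a + b = 1) (hp : 1 ≤ p) :
    1 ≤ (2 : ℝ) ^ (p - 1) * (a ^ p + b ^ p) := by
  have h1 := one_add_mul_self_le_rpow_one_add (s := 2 * a - 1) (by linarith only [ha]) hp
  have h2 := one_add_mul_self_le_rpow_one_add (s := 2 * b - 1) (by linarith only [hb]) hp
  have e1 : (1 + (2 * a - 1)) = 2 * a := by ring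
  have e2 : (1 + (2 * b - 1)) = 2 * b := by ring
  rw [e1, Real.mul_rpow (by norm_num) ha] at h1
  rw [e2, Real.mul_rpow (by norm_num) hb] at h2
  have e3 : (2 : ℝ) ^ p = 2 ^ (p - 1) * 2 := by
    rw [Real.rpow_sub (by norm_num), Real.rpow_one]
    field_simp
  rw [e3] at h1 h2
  have e4 : p * (2 * a - 1) + p * (2 * b - 1) = 0 := by
    have : b = 1 - a := by linarith only [hab]
    rw [this]; ring
  linarith

/-- `1 - cos (2 π θ / m) ≥ 8 / m²`. -/
private theorem sm1a_cos {m θ : ℝ} (h1 : 1 ≤ θ) (h2 : θ ≤ m - 1) :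
    8 / m ^ 2 ≤ 1 - Real.cos (2 * Real.pi * θ / m) := by
  have hm : 0 < m := by linarith
  have hpi := Real.pi_pos
  set x := Real.pi * θ / m with hx
  have e1 : 2 * Real.pi * θ / m = 2 * x := by rw [hx]; ring
  have hx0 : 0 ≤ x := by (clear * - h1 hm; positivity)
  have hs : 2 / m ≤ Real.sin x := by
    by_cases hc : x ≤ Real.pi / 2
    · have h3 := Real.mul_le_sin hx0 hc
      have h4 : 2 / Real.pi * x = 2 * θ / m := by
        rw [hx]; field_simp
      rw [h4] at h3
      refine le_trans ?_ h3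
      rw [div_le_div_iff_of_pos_right hm]
      (clear * - h1; linarith)
    · push Not at hc
      have h5 : x ≤ Real.pi := by
        rw [hx, div_le_iff₀ hm]
        exact mul_le_mul_of_nonneg_left (by linarith only [h2]) hpi.le
      have h3 := Real.mul_le_sin (x := Real.pi - x) (by linarith only [h5]) (by linarith only [hc])
      rw [Real.sin_pi_sub] at h3
      have h4 : 2 / Real.pi * (Real.pi - x) = 2 * (m - θ) / m := by
        rw [hx]; (clear * - hm; field_simp)
      rw [h4] at h3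
      refine le_trans ?_ h3
      rw [div_le_div_iff_of_pos_right hm]
      linarith only [h2]
  rw [e1, Real.cos_two_mul, ← Real.sin_sq_add_cos_sq x]
  have h6 : (2 / m) ^ 2 ≤ Real.sin x ^ 2 := by
    have : 0 ≤ 2 / m := by positivity
    exact pow_le_pow_left₀ this hs 2
  have h7 : 8 / m ^ 2 = 2 * (2 / m) ^ 2 := by ring
  have h8 := Real.sin_sq_add_cos_sq x
  rw [h7]
  nlinarith only [h6]

/-- Task M1a: the one dimensional real inequality. -/
theorem avg_pow_le (κ : ℕ) : ∃ t0 : ℕ, κ < t0 ∧ ∀ t ≥ t0, ∀ κ' ≤ κ, ∀ a b : ℝ, 0 ≤ a → 0 ≤ b →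
    a + b = 1 →
    ∑ θ ∈ range (2 ^ κ'), (1 - 2 * (a * b) * (1 - Real.cos (2 * Real.pi * θ / 2 ^ κ'))) ^ (2 * t) ≤
      2 ^ κ' * (2 * (a ^ (((4 * t : ℕ) : ℝ) / ((4 * t - κ' : ℕ) : ℝ)) +
        b ^ (((4 * t : ℕ) : ℝ) / ((4 * t - κ' : ℕ) : ℝ))) ^ (4 * t - κ')) := by
  refine ⟨100 * (κ + 1) ^ 3 * 4 ^ κ, ?_, ?_⟩
  · have h1 : 1 ≤ 4 ^ κ := Nat.one_le_pow _ _ (by norm_num)
    have h2 : κ + 1 ≤ (κ + 1) ^ 3 := Nat.le_self_pow (by norm_num) _
    nlinarith only [h1, h2]
  intro t ht k hk a b ha hb hab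
  have hkt : k < t := by
    have h1 : 1 ≤ 4 ^ κ := Nat.one_le_pow _ _ (by norm_num)
    have h2 : κ + 1 ≤ (κ + 1) ^ 3 := Nat.le_self_pow (by norm_num) _
    nlinarith only [ht, hk, h1, h2]
  obtain ⟨N, hN⟩ : ∃ N, 4 * t = N + k := ⟨4 * t - k, by (clear * - hkt; omega)⟩
  have hN' : 4 * t - k = N := by omega
  have hN0 : 0 < N := by omega
  rw [hN']
  have hNr : (0 : ℝ) < N := by exact_mod_cast hN0
  set p : ℝ := ((4 * t : ℕ) : ℝ) / ((N : ℕ) : ℝ) with hp
  have hpN : (p - 1) * N = k := by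
    rw [hp, hN]
    push_cast
    field_simp
    ring
  have hp1 : 1 ≤ p := by
    rw [hp, one_le_div hNr]
    exact_mod_cast (by omega : N ≤ 4 * t)
  set m : ℝ := 2 ^ k with hm
  have hm1 : 1 ≤ m := one_le_pow₀ (by norm_num)
  have hm0 : 0 < m := by linarith only [hm1]
  have hs0 : 0 ≤ a * b := mul_nonneg ha hb
  have hs1 : a * b ≤ 1 / 4 := by nlinarith only [hab, sq_nonneg (a - b)]
  have hS0 : 0 ≤ a ^ p + b ^ p := add_nonneg (Real.rpow_nonneg ha p) (Real.rpow_nonneg hb p)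
  -- all bases are in `[0, 1]`
  have hbase0 : ∀ θ : ℕ, 0 ≤ 1 - 2 * (a * b) * (1 - Real.cos (2 * Real.pi * θ / m)) := by
    intro θ
    have h1 := Real.neg_one_le_cos (2 * Real.pi * θ / m)
    nlinarith only [hs1, hs0, h1]
  have hbase1 : ∀ θ : ℕ, 1 - 2 * (a * b) * (1 - Real.cos (2 * Real.pi * θ / m)) ≤ 1 := by
    intro θ
    have h1 := Real.cos_le_one (2 * Real.pi * θ / m)
    nlinarith only [hs0, h1]
  by_cases hcase : m ^ 2 * k ≤ (a * b) * (4 * t)
  · -- first case
    have hR : 2 ≤ m * (2 * (a ^ p + b ^ p) ^ N) := by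
      have h1 := sm1a_conv ha hb hab hp1
      have h2 := pow_le_pow_left₀ (by norm_num : (0 : ℝ) ≤ 1) h1 N
      rw [one_pow, mul_pow, ← Real.rpow_natCast ((2 : ℝ) ^ (p - 1)) N,
        ← Real.rpow_mul (by norm_num), hpN, Real.rpow_natCast, ← hm] at h2
      linarith only [h2]
    refine le_trans ?_ hR
    have hT : ∀ θ ∈ range (2 ^ k), θ ≠ 0 →
        (1 - 2 * (a * b) * (1 - Real.cos (2 * Real.pi * θ / m))) ^ (2 * t) ≤ 1 / m := by
      intro θ hθ hne
      have h1 : (1 : ℝ) ≤ θ := by exact_mod_cast Nat.one_le_iff_ne_zero.2 hne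
      have h2 : (θ : ℝ) ≤ m - 1 := by
        have h3 : θ + 1 ≤ 2 ^ k := Finset.mem_range.1 hθ
        have h4 : (θ : ℝ) + 1 ≤ 2 ^ k := by exact_mod_cast h3
        rw [hm]
        linarith only [h4]
      have h3 := sm1a_cos h1 h2
      have h4 : 1 - 2 * (a * b) * (1 - Real.cos (2 * Real.pi * θ / m)) ≤
          Real.exp (-(16 * (a * b) / m ^ 2)) := by
        have h5 := Real.add_one_le_exp (-(16 * (a * b) / m ^ 2))
        have h6 : 2 * (a * b) * (8 / m ^ 2) ≤
            2 * (a * b) * (1 - Real.cos (2 * Real.pi * θ / m)) :=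
          mul_le_mul_of_nonneg_left h3 (by (clear * - ha hb; positivity))
        have h7 : 2 * (a * b) * (8 / m ^ 2) = 16 * (a * b) / m ^ 2 := by ring
        linarith only [h5, h6, h7]
      refine (pow_le_pow_left₀ (hbase0 θ) h4 (2 * t)).trans ?_
      rw [← Real.exp_nat_mul]
      have h8 : ((2 * t : ℕ) : ℝ) * -(16 * (a * b) / m ^ 2) ≤ -((k : ℝ) * 8) := by
        push_cast
        have h9 : (k : ℝ) ≤ (a * b) * (4 * t) / m ^ 2 := by
          rw [le_div_iff₀ (by positivity)]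
          linarith only [hcase]
        have h10 : 2 * (t : ℝ) * -(16 * (a * b) / m ^ 2) = -((a * b) * (4 * t) / m ^ 2 * 8) := by
          ring
        rw [h10]
        linarith only [h9]
      refine (Real.exp_le_exp.2 h8).trans ?_
      rw [Real.exp_neg, one_div]
      apply inv_anti₀ hm0
      rw [Real.exp_nat_mul, hm]
      refine pow_le_pow_left₀ (by norm_num) ?_ k
      have := Real.add_one_le_exp (8 : ℝ)
      linarith only [this]
    have hpos : 0 < 2 ^ k := by positivity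
    have h0 : (0 : ℕ) ∈ range (2 ^ k) := Finset.mem_range.2 hpos
    rw [← Finset.add_sum_erase _ _ h0]
    have hA : (1 - 2 * (a * b) * (1 - Real.cos (2 * Real.pi * ((0 : ℕ) : ℝ) / m))) ^ (2 * t) ≤
        1 := pow_le_one₀ (hbase0 0) (hbase1 0)
    have hB : ∑ θ ∈ (range (2 ^ k)).erase 0,
        (1 - 2 * (a * b) * (1 - Real.cos (2 * Real.pi * θ / m))) ^ (2 * t) ≤ 1 := by
      have h1 : ∑ θ ∈ (range (2 ^ k)).erase 0,
          (1 - 2 * (a * b) * (1 - Real.cos (2 * Real.pi * θ / m))) ^ (2 * t) ≤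
          ∑ θ ∈ (range (2 ^ k)).erase 0, 1 / m :=
        Finset.sum_le_sum fun θ hθ => hT θ (Finset.mem_of_mem_erase hθ)
          (Finset.ne_of_mem_erase hθ)
      refine h1.trans ?_
      rw [Finset.sum_const, nsmul_eq_mul]
      have h2 : (((range (2 ^ k)).erase 0).card : ℝ) ≤ m := by
        have h3 : ((range (2 ^ k)).erase 0).card ≤ 2 ^ k := by
          refine (Finset.card_erase_le).trans ?_
          rw [Finset.card_range]
        rw [hm]
        exact_mod_cast h3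
      rw [mul_one_div]
      exact (div_le_one hm0).2 h2
    linarith only [hA, hB]
  · -- second case
    push Not at hcase
    have hL : ∑ θ ∈ range (2 ^ k),
        (1 - 2 * (a * b) * (1 - Real.cos (2 * Real.pi * θ / m))) ^ (2 * t) ≤ m := by
      have h1 : ∑ θ ∈ range (2 ^ k),
          (1 - 2 * (a * b) * (1 - Real.cos (2 * Real.pi * θ / m))) ^ (2 * t) ≤
          ∑ θ ∈ range (2 ^ k), (1 : ℝ) :=
        Finset.sum_le_sum fun θ _ => pow_le_one₀ (hbase0 θ) (hbase1 θ)
      refine h1.trans ?_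
      rw [Finset.sum_const, nsmul_eq_mul, Finset.card_range, mul_one, hm]
      push_cast
      exact le_rfl
    refine hL.trans ?_
    -- the smaller of the two numbers
    have key : ∀ a b : ℝ, 0 ≤ a → 0 ≤ b → a + b = 1 → a ≤ b → (a * b) * (4 * t) < m ^ 2 * k →
        1 / 2 ≤ (a ^ p + b ^ p) ^ N := by
      intro a b ha hb hab hle hc
      have ha2 : a ≤ 2 * (a * b) := by nlinarith only [ha, hab, hle]
      have hkk : (k : ℝ) ≤ κ := by exact_mod_cast hk
      have hk0 : (0 : ℝ) ≤ k := Nat.cast_nonneg k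
      have hκ0 : (0 : ℝ) ≤ κ := Nat.cast_nonneg κ
      have ht' : (100 * (κ + 1) ^ 3 * 4 ^ κ : ℝ) ≤ t := by exact_mod_cast ht
      have hm4 : m ^ 2 ≤ 4 ^ κ := by
        rw [hm, ← pow_mul, mul_comm, pow_mul]
        norm_num
        exact pow_le_pow_right₀ (by norm_num) hk
      have h4 : (0 : ℝ) < 4 ^ κ := by positivity
      have hb1 : a * t ≤ 4 ^ κ * κ := by
        have h1 : a * (4 * t) ≤ 2 * ((a * b) * (4 * t)) := by
          have := mul_le_mul_of_nonneg_right ha2 (by (clear * -; positivity) : (0 : ℝ) ≤ 4 * t)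
          linarith only [this]
        have h2 : m ^ 2 * k ≤ 4 ^ κ * κ := mul_le_mul hm4 hkk hk0 h4.le
        have h3 : (0 : ℝ) ≤ 4 ^ κ * κ := by (clear * -; positivity)
        (clear * - hc h1 h2 h3; linarith)
      have hb2 : a * (100 * (κ + 1) ^ 3) ≤ κ := by
        have h1 : a * (100 * (κ + 1) ^ 3 * 4 ^ κ) ≤ a * t := mul_le_mul_of_nonneg_left ht' ha
        have h2 : a * (100 * (κ + 1) ^ 3) * 4 ^ κ ≤ κ * 4 ^ κ := by linarith only [hb1, h1]
        exact le_of_mul_le_mul_right h2 h4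
      have hb3 : a ≤ (1 / (4 * (κ + 1))) ^ 2 := by
        have h1 : (0 : ℝ) < κ + 1 := by linarith only []
        rw [div_pow, one_pow, le_div_iff₀ (by (clear * -; positivity))]
        have h2 : a * (100 * (κ + 1) ^ 3) = a * (4 * (κ + 1)) ^ 2 * (25 / 4 * (κ + 1)) := by ring
        rw [h2] at hb2
        have h3 : (0 : ℝ) ≤ a * (4 * (κ + 1)) ^ 2 := by (clear * - ha; positivity)
        by_contra hcon
        push Not at hcon
        nlinarith only [hb2, hcon]
      have hb4 : Real.sqrt a ≤ 1 / (4 * (κ + 1)) := by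
        rw [Real.sqrt_le_iff]
        exact ⟨by (clear * -; positivity), hb3⟩
      have hb5 : (k : ℝ) * (2 * Real.sqrt a) ≤ 1 / 2 := by
        have h1 : (0 : ℝ) < κ + 1 := by linarith only []
        have h2 : (k : ℝ) * (2 * Real.sqrt a) ≤ κ * (2 * (1 / (4 * (κ + 1)))) :=
          mul_le_mul hkk (by linarith only [hb4]) (by (clear * -; positivity)) hκ0
        refine h2.trans ?_
        have h3 : (κ : ℝ) * (2 * (1 / (4 * (κ + 1)))) = κ / (κ + 1) * (1 / 2) := by
          field_simp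
          ring
        rw [h3]
        have h5 : (κ : ℝ) / (κ + 1) ≤ 1 := (div_le_one h1).2 (by linarith only [])
        linarith only [h5]
      have h1 := sm1a_low ha hb hab hp1
      have hS : 0 ≤ a ^ p + b ^ p := add_nonneg (Real.rpow_nonneg ha p) (Real.rpow_nonneg hb p)
      have h2 := one_add_mul_le_pow (a := a ^ p + b ^ p - 1) (by linarith only [hS]) N
      have e1 : 1 + (a ^ p + b ^ p - 1) = a ^ p + b ^ p := by ring
      rw [e1] at h2
      refine le_trans ?_ h2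
      have h3 : (N : ℝ) * (-((p - 1) * (2 * Real.sqrt a))) ≤ N * (a ^ p + b ^ p - 1) :=
        mul_le_mul_of_nonneg_left (by linarith only [h1]) hNr.le
      have h4' : (N : ℝ) * (-((p - 1) * (2 * Real.sqrt a))) = -(((p - 1) * N) * (2 * Real.sqrt a)) := by
        ring
      rw [h4', hpN] at h3
      linarith only [hb5, h3]
    have hhalf : 1 / 2 ≤ (a ^ p + b ^ p) ^ N := by
      rcases le_total a b with h | h
      · exact key a b ha hb hab h hcase
      · have h1 := key b a hb ha (by linarith only [hab]) h (by rw [mul_comm b a]; exact hcase)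
        rwa [add_comm] at h1
    have h2 := mul_le_mul_of_nonneg_left hhalf (by linarith only [] : (0 : ℝ) ≤ 2)
    have h3 := mul_le_mul_of_nonneg_left h2 hm0.le
    linarith only [h3]

end Vale.Agent.P160
end
end

section

section

namespace Vale.Agent.P160

open Finset

lemma sm1b_norm_sq (w : ℂ) (hw : ‖w‖ = 1) (s : ℤ) (hs : s = 1 ∨ s = -1) (φ : Fin 4 → ℝ)
    (hφ : ∀ a, 0 ≤ φ a) :
    ‖∑ a : Fin 4, (φ a : ℂ) * w ^ (s * st a)‖ ^ 2 ≤
      ((φ 0 + φ 1) + (φ 2 + φ 3)) ^ 2 - 2 * ((φ 0 + φ 1) * (φ 2 + φ 3)) * (1 - w.re) := by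
  have hw0 : w ≠ 0 := by
    intro h
    rw [h, norm_zero] at hw
    exact zero_ne_one hw
  have hinv : w⁻¹ = (starRingEnd ℂ) w := by
    rw [Complex.inv_def, Complex.normSq_eq_norm_sq, hw]
    simp
  have hxy : w.re * w.re + w.im * w.im = 1 := by
    have h := Complex.normSq_eq_norm_sq w
    rw [hw, Complex.normSq_apply] at h
    linarith only [h]
  have e0 : st (0 : Fin 4) = 1 := by decide
  have e1 : st (1 : Fin 4) = -1 := by decide
  have e2 : st (2 : Fin 4) = 0 := by decide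
  have e3 : st (3 : Fin 4) = 0 := by decide
  rw [← Complex.normSq_eq_norm_sq, Complex.normSq_apply, Fin.sum_univ_four, e0, e1, e2, e3]
  have h0 := hφ 0
  have h1 := hφ 1
  have h2 := hφ 2
  have h3 := hφ 3
  have hb : (φ 0 - φ 1) ^ 2 ≤ (φ 0 + φ 1) ^ 2 := by nlinarith only [mul_nonneg h0 h1]
  have hy : 0 ≤ w.im ^ 2 := sq_nonneg _
  have key : (φ 0 - φ 1) ^ 2 * w.im ^ 2 ≤ (φ 0 + φ 1) ^ 2 * w.im ^ 2 :=
    mul_le_mul_of_nonneg_right hb hy
  rcases hs with rfl | rfl
  · simp only [mul_one, zpow_one, mul_neg, zpow_neg, hinv, mul_zero, zpow_zero,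
      Complex.add_re, Complex.add_im, Complex.mul_re, Complex.mul_im, Complex.ofReal_re,
      Complex.ofReal_im, Complex.conj_re, Complex.conj_im, zero_mul, sub_zero, add_zero]
    nlinarith only [key, hxy]
  · simp only [mul_one, zpow_neg, zpow_one, hinv, mul_neg, neg_neg, mul_zero, zpow_zero, Complex.add_re, Complex.mul_re, Complex.ofReal_re, Complex.conj_re, Complex.ofReal_im, Complex.conj_im, zero_mul, neg_zero, sub_zero, Complex.add_im, Complex.mul_im, add_zero]
    nlinarith only [key, hxy]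

lemma sm1b_ee_re {N : ℕ} [NeZero N] (θ : ZMod N) :
    (ee θ).re = Real.cos (2 * Real.pi * (θ.val : ℝ) / (N : ℝ)) := by
  have h : (ee θ : ℂ) = Complex.exp (2 * Real.pi * Complex.I * (θ.val : ℤ) / N) := by
    unfold ee
    rw [← ZMod.stdAddChar_coe]
    congr 1
    simp only [ZMod.natCast_val, ZMod.intCast_cast, ZMod.cast_id', id_eq]
  rw [h]
  have h2 : (2 * Real.pi * Complex.I * ((θ.val : ℤ) : ℂ) / N : ℂ) =
      ((2 * Real.pi * (θ.val : ℝ) / (N : ℝ) : ℝ) : ℂ) * Complex.I := by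
    push_cast
    ring
  rw [h2, Complex.exp_ofReal_mul_I_re]

lemma sm1b_sum_zmod {N : ℕ} [NeZero N] (f : ℕ → ℝ) :
    ∑ θ : ZMod N, f θ.val = ∑ θ ∈ range N, f θ := by
  refine Finset.sum_bij (fun θ _ => θ.val) (fun θ _ => ?_) (fun a _ b _ h => ?_)
    (fun b hb => ?_) (fun a _ => rfl)
  · exact Finset.mem_range.2 (ZMod.val_lt θ)
  · exact ZMod.val_injective N h
  · exact ⟨(b : ZMod N), Finset.mem_univ _, ZMod.val_cast_of_lt (Finset.mem_range.1 hb)⟩

lemma sm1b_convex (x y p : ℝ) (hx : 0 ≤ x) (hy : 0 ≤ y) (hp : 1 ≤ p) :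
    (x + y) ^ p ≤ 2 ^ (p - 1) * (x ^ p + y ^ p) := by
  have h := NNReal.rpow_add_le_mul_rpow_add_rpow ⟨x, hx⟩ ⟨y, hy⟩ hp
  have h2 := NNReal.coe_le_coe.2 h
  push_cast at h2
  exact h2

lemma sm1b_pow_sum (κ' t : ℕ) (hκt : κ' < t)
    (havg : ∀ a b : ℝ, 0 ≤ a → 0 ≤ b → a + b = 1 →
      ∑ θ ∈ range (2 ^ κ'), (1 - 2 * (a * b) * (1 - Real.cos (2 * Real.pi * θ / 2 ^ κ'))) ^ (2 * t) ≤
      2 ^ κ' * (2 * (a ^ (((4 * t : ℕ) : ℝ) / ((4 * t - κ' : ℕ) : ℝ)) +
        b ^ (((4 * t : ℕ) : ℝ) / ((4 * t - κ' : ℕ) : ℝ))) ^ (4 * t - κ')))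
    (s : ℤ) (hs : s = 1 ∨ s = -1) (φ : Fin 4 → ℝ) (hφ : ∀ a, 0 ≤ φ a) :
    ∑ θ : ZMod (2 ^ κ'), ‖∑ a : Fin 4, (φ a : ℂ) * (ee θ) ^ (s * st a)‖ ^ (4 * t) ≤
      2 ^ κ' * (2 ^ (κ' + 1) *
        (∑ a, φ a ^ (((4 * t : ℕ) : ℝ) / ((4 * t - κ' : ℕ) : ℝ))) ^ (4 * t - κ')) := by
  set p : ℝ := ((4 * t : ℕ) : ℝ) / ((4 * t - κ' : ℕ) : ℝ) with hp
  set D : ℕ := 4 * t - κ' with hD
  have hDpos : 0 < D := by omega
  have hDR : (0 : ℝ) < (D : ℝ) := by exact_mod_cast hDpos
  have hTD : ((4 * t : ℕ) : ℝ) = (D : ℝ) + κ' := by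
    have : 4 * t = D + κ' := by omega
    rw [this]; push_cast; ring
  have hpD : p * D = ((4 * t : ℕ) : ℝ) := by
    rw [hp]; field_simp
  have hp1 : 1 ≤ p := by
    rw [hp, le_div_iff₀ hDR, hTD]
    have : (0 : ℝ) ≤ κ' := Nat.cast_nonneg _
    linarith only []
  have hp0 : 0 ≤ p := by linarith only [hp1]
  have hpne : p ≠ 0 := by intro h; linarith only [h, hp1]
  have hσ : 0 ≤ ∑ a, φ a ^ p := Finset.sum_nonneg (fun a _ => Real.rpow_nonneg (hφ a) _)
  set b : ℝ := φ 0 + φ 1 with hb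
  set c : ℝ := φ 2 + φ 3 with hc
  have hb0 : 0 ≤ b := add_nonneg (hφ 0) (hφ 1)
  have hc0 : 0 ≤ c := add_nonneg (hφ 2) (hφ 3)
  set S : ℝ := b + c with hS
  have hS0 : 0 ≤ S := add_nonneg hb0 hc0
  have hsq : ∀ θ : ZMod (2 ^ κ'), ‖∑ a : Fin 4, (φ a : ℂ) * (ee θ) ^ (s * st a)‖ ^ (4 * t) ≤
      (S ^ 2 - 2 * (b * c) * (1 - Real.cos (2 * Real.pi * (θ.val : ℝ) / 2 ^ κ'))) ^ (2 * t) := by
    intro θ
    have h := sm1b_norm_sq (ee θ) (norm_ee θ) s hs φ hφ
    have hre : (ee θ).re = Real.cos (2 * Real.pi * (θ.val : ℝ) / 2 ^ κ') := by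
      rw [sm1b_ee_re θ]; push_cast; rfl
    rw [hre] at h
    have e : 4 * t = 2 * (2 * t) := by ring
    rw [e, pow_mul]
    exact pow_le_pow_left₀ (sq_nonneg _) h _
  have hbc : b ^ p + c ^ p ≤ 2 ^ (p - 1) * ∑ a, φ a ^ p := by
    have h1 := sm1b_convex (φ 0) (φ 1) p (hφ 0) (hφ 1) hp1
    have h2 := sm1b_convex (φ 2) (φ 3) p (hφ 2) (hφ 3) hp1
    rw [Fin.sum_univ_four]
    calc b ^ p + c ^ p ≤ 2 ^ (p - 1) * (φ 0 ^ p + φ 1 ^ p) + 2 ^ (p - 1) * (φ 2 ^ p + φ 3 ^ p) :=
          add_le_add h1 h2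
      _ = _ := by ring
  have hbcD : (b ^ p + c ^ p) ^ D ≤ 2 ^ κ' * (∑ a, φ a ^ p) ^ D := by
    have h1 : (b ^ p + c ^ p) ^ D ≤ (2 ^ (p - 1) * ∑ a, φ a ^ p) ^ D :=
      pow_le_pow_left₀ (add_nonneg (Real.rpow_nonneg hb0 _) (Real.rpow_nonneg hc0 _)) hbc _
    have h2 : ((2 : ℝ) ^ (p - 1)) ^ D = 2 ^ κ' := by
      rw [← Real.rpow_natCast, ← Real.rpow_mul (by norm_num : (0:ℝ) ≤ 2), sub_mul, hpD, hTD,
        one_mul, add_sub_cancel_left, Real.rpow_natCast]
    rw [mul_pow, h2] at h1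
    exact h1
  rcases hS0.eq_or_lt with h0 | hSpos
  · have hb00 : b = 0 := by linarith only [h0, hb0, hc0]
    have hc00 : c = 0 := by linarith only [h0, hb0, hc0, hS]
    have hz : ∑ θ : ZMod (2 ^ κ'), ‖∑ a : Fin 4, (φ a : ℂ) * (ee θ) ^ (s * st a)‖ ^ (4 * t) ≤ 0 := by
      refine Finset.sum_nonpos (fun θ _ => ?_)
      refine (hsq θ).trans ?_
      rw [← h0, hb00]
      have : 2 * t ≠ 0 := by omega
      simp only [ne_eq, OfNat.ofNat_ne_zero, not_false_eq_true, zero_pow, zero_mul, mul_zero, ZMod.natCast_val, sub_self, this, Std.le_refl]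
    refine hz.trans ?_
    (clear * - hσ; positivity)
  · have hSne : S ≠ 0 := hSpos.ne'
    have ha : b / S + c / S = 1 := by rw [← add_div, ← hS, div_self hSne]
    have h := havg (b / S) (c / S) (div_nonneg hb0 hS0) (div_nonneg hc0 hS0) ha
    have hsum : ∑ θ : ZMod (2 ^ κ'), ‖∑ a : Fin 4, (φ a : ℂ) * (ee θ) ^ (s * st a)‖ ^ (4 * t) ≤
        S ^ (4 * t) * ∑ θ ∈ range (2 ^ κ'), (1 - 2 * (b / S * (c / S)) *
          (1 - Real.cos (2 * Real.pi * θ / 2 ^ κ'))) ^ (2 * t) := by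
      rw [← sm1b_sum_zmod (N := 2 ^ κ') (fun θ => (1 - 2 * (b / S * (c / S)) *
          (1 - Real.cos (2 * Real.pi * (θ : ℝ) / 2 ^ κ'))) ^ (2 * t)), Finset.mul_sum]
      refine Finset.sum_le_sum (fun θ _ => (hsq θ).trans (le_of_eq ?_))
      have e : 4 * t = 2 * (2 * t) := by ring
      rw [e, pow_mul S, ← mul_pow]
      congr 1
      (clear * - hSne; field_simp)
    have hSp : S ^ (4 * t) * ((b / S) ^ p + (c / S) ^ p) ^ D = (b ^ p + c ^ p) ^ D := by
      rw [Real.div_rpow hb0 hS0, Real.div_rpow hc0 hS0, ← add_div, div_pow]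
      have h1 : (S ^ p) ^ D = S ^ (4 * t) := by
        rw [← Real.rpow_natCast (S ^ p), ← Real.rpow_mul hS0, hpD, Real.rpow_natCast]
      rw [h1]
      (clear * - hSpos; field_simp)
    calc _ ≤ S ^ (4 * t) * ∑ θ ∈ range (2 ^ κ'), (1 - 2 * (b / S * (c / S)) *
          (1 - Real.cos (2 * Real.pi * θ / 2 ^ κ'))) ^ (2 * t) := hsum
      _ ≤ S ^ (4 * t) * (2 ^ κ' * (2 * ((b / S) ^ p + (c / S) ^ p) ^ D)) :=
          mul_le_mul_of_nonneg_left h (pow_nonneg hS0 _)
      _ = 2 ^ κ' * (2 * (S ^ (4 * t) * ((b / S) ^ p + (c / S) ^ p) ^ D)) := by ring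
      _ = 2 ^ κ' * (2 * (b ^ p + c ^ p) ^ D) := by rw [hSp]
      _ ≤ 2 ^ κ' * (2 * (2 ^ κ' * (∑ a, φ a ^ p) ^ D)) := by
          have h2 : (0 : ℝ) ≤ 2 ^ κ' := by positivity
          exact mul_le_mul_of_nonneg_left (mul_le_mul_of_nonneg_left hbcD (by norm_num)) h2
      _ = _ := by ring

lemma sm1b_fourier {N T : ℕ} [NeZero N] (σ : Fin T → ℤ) (φ : Fin T → Fin 4 → ℝ) :
    (N : ℂ) * ((∑ a : Fin T → Fin 4,
      if ∑ i, ((σ i * st (a i) : ℤ) : ZMod N) = 0 then ∏ i, φ i (a i) else 0 : ℝ) : ℂ) =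
    ∑ θ : ZMod N, ∏ i, ∑ a : Fin 4, (φ i a : ℂ) * (ee θ) ^ (σ i * st a) := by
  have h1 : ∀ θ : ZMod N, ∏ i, ∑ a : Fin 4, (φ i a : ℂ) * (ee θ) ^ (σ i * st a) =
      ∑ a : Fin T → Fin 4, (∏ i, (φ i (a i) : ℂ)) *
        ee (θ * ∑ i, ((σ i * st (a i) : ℤ) : ZMod N)) := by
    intro θ
    rw [Finset.prod_univ_sum, Fintype.piFinset_univ]
    refine Finset.sum_congr rfl (fun a _ => ?_)
    rw [Finset.prod_mul_distrib, Finset.mul_sum, ee_sum]
    congr 1
    refine Finset.prod_congr rfl (fun i _ => ?_)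
    rw [mul_comm θ, ee_intCast_mul]
  rw [Finset.sum_congr rfl (fun θ _ => h1 θ), Finset.sum_comm, Complex.ofReal_sum,
    Finset.mul_sum]
  refine Finset.sum_congr rfl (fun a _ => ?_)
  rw [← Finset.mul_sum]
  have h2 := sum_ee_mul (N := N) (∑ i, ((σ i * st (a i) : ℤ) : ZMod N))
  rw [h2]
  split_ifs with h
  · push_cast
    ring
  · simp only [Complex.ofReal_zero, mul_zero]

lemma sm1b_core {T D κ' : ℕ} (hTpos : 0 < T) (hDpos : 0 < D) (σ : Fin T → ℤ)
    (φ : Fin T → Fin 4 → ℝ) (hφ : ∀ i a, 0 ≤ φ i a)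
    (hpow : ∀ i, ∑ θ : ZMod (2 ^ κ'), ‖∑ a : Fin 4, (φ i a : ℂ) * (ee θ) ^ (σ i * st a)‖ ^ T ≤
      2 ^ κ' * (2 ^ (κ' + 1) * (∑ a, φ i a ^ ((T : ℝ) / (D : ℝ))) ^ D)) :
    (∑ a : Fin T → Fin 4,
      if ∑ i, ((σ i * st (a i) : ℤ) : ZMod (2 ^ κ')) = 0 then ∏ i, φ i (a i) else 0) ≤
      2 ^ (κ' + 1) * ∏ i, (∑ a, φ i a ^ ((T : ℝ) / (D : ℝ))) ^ ((D : ℝ) / (T : ℝ)) := by
  have hfour := sm1b_fourier (N := 2 ^ κ') σ φ
  set p : ℝ := (T : ℝ) / (D : ℝ) with hp
  set L : ℝ := (∑ a : Fin T → Fin 4,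
      if ∑ i, ((σ i * st (a i) : ℤ) : ZMod (2 ^ κ')) = 0 then ∏ i, φ i (a i) else 0) with hL
  have hDR : (0 : ℝ) < (D : ℝ) := by exact_mod_cast hDpos
  have hTR : (0 : ℝ) < (T : ℝ) := by exact_mod_cast hTpos
  have hσn : ∀ i, 0 ≤ ∑ a, φ i a ^ p :=
    fun i => Finset.sum_nonneg (fun a _ => Real.rpow_nonneg (hφ i a) _)
  set n : Fin T → ℝ := fun i => (∑ a, φ i a ^ p) ^ ((D : ℝ) / (T : ℝ)) with hn
  have hn0 : ∀ i, 0 ≤ n i := fun i => Real.rpow_nonneg (hσn i) _
  have hnT : ∀ i, n i ^ T = (∑ a, φ i a ^ p) ^ D := by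
    intro i
    rw [hn]
    simp only
    rw [← Real.rpow_natCast, ← Real.rpow_mul (hσn i), div_mul_cancel₀ _ hTR.ne',
      Real.rpow_natCast]
  have hp0 : p ≠ 0 := (div_pos hTR hDR).ne'
  by_cases hz : ∃ i, n i = 0
  · obtain ⟨i, hi⟩ := hz
    have hsum0 : ∑ a, φ i a ^ p = 0 := by
      have h1 := hnT i
      rw [hi, zero_pow hTpos.ne'] at h1
      exact (pow_eq_zero_iff hDpos.ne').1 h1.symm
    have hφ0 : ∀ a, φ i a = 0 := by
      intro a
      have h1 := (Finset.sum_eq_zero_iff_of_nonneg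
        (fun a _ => Real.rpow_nonneg (hφ i a) p)).1 hsum0 a (Finset.mem_univ a)
      exact (Real.rpow_eq_zero (hφ i a) hp0).1 h1
    have hL0 : L = 0 := by
      rw [hL]
      refine Finset.sum_eq_zero (fun a _ => ?_)
      split_ifs
      · exact Finset.prod_eq_zero (Finset.mem_univ i) (hφ0 _)
      · rfl
    rw [hL0]
    exact mul_nonneg (by positivity) (Finset.prod_nonneg (fun i _ => hn0 i))
  · push Not at hz
    have hnpos : ∀ i, 0 < n i := fun i => lt_of_le_of_ne (hn0 i) (Ne.symm (hz i))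
    have hL0 : 0 ≤ L := by
      rw [hL]
      refine Finset.sum_nonneg (fun a _ => ?_)
      split_ifs
      · exact Finset.prod_nonneg (fun i _ => hφ i _)
      · exact le_rfl
    set F : Fin T → ZMod (2 ^ κ') → ℝ := fun i θ =>
      ‖∑ a : Fin 4, (φ i a : ℂ) * (ee θ) ^ (σ i * st a)‖ with hF
    have hF0 : ∀ i θ, 0 ≤ F i θ := fun i θ => norm_nonneg _
    have h1 : (2 : ℝ) ^ κ' * L ≤ ∑ θ : ZMod (2 ^ κ'), ∏ i, F i θ := by
      have h2 := congrArg norm hfour
      rw [norm_mul, Complex.norm_natCast, Complex.norm_real, Real.norm_of_nonneg hL0] at h2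
      push_cast at h2
      rw [h2]
      refine (norm_sum_le _ _).trans (le_of_eq ?_)
      refine Finset.sum_congr rfl (fun θ _ => ?_)
      rw [norm_prod]
    have hamgm : ∀ θ : ZMod (2 ^ κ'), ∏ i, (F i θ / n i) ≤ ∑ i, (1 / (T : ℝ)) * (F i θ / n i) ^ T := by
      intro θ
      have hw : ∑ i : Fin T, (1 / (T : ℝ)) = 1 := by
        rw [Finset.sum_const, Finset.card_univ, Fintype.card_fin, nsmul_eq_mul,
          mul_one_div_cancel hTR.ne']
      have h2 := Real.geom_mean_le_arith_mean_weighted Finset.univ (fun _ : Fin T => 1 / (T : ℝ))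
        (fun i => (F i θ / n i) ^ T) (fun i _ => (by (clear * - hTpos; positivity))) hw
        (fun i _ => pow_nonneg (div_nonneg (hF0 i θ) (hn0 i)) _)
      refine le_trans (le_of_eq ?_) h2
      refine Finset.prod_congr rfl (fun i _ => ?_)
      rw [← Real.rpow_natCast, ← Real.rpow_mul (div_nonneg (hF0 i θ) (hn0 i)),
        mul_one_div_cancel hTR.ne', Real.rpow_one]
    have h3 : ∑ θ : ZMod (2 ^ κ'), ∏ i, (F i θ / n i) ≤ 2 ^ κ' * 2 ^ (κ' + 1) := by
      refine (Finset.sum_le_sum (fun θ _ => hamgm θ)).trans ?_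
      rw [Finset.sum_comm]
      have h4 : ∀ i : Fin T, ∑ θ : ZMod (2 ^ κ'), (1 / (T : ℝ)) * (F i θ / n i) ^ T ≤
          (1 / (T : ℝ)) * (2 ^ κ' * 2 ^ (κ' + 1)) := by
        intro i
        rw [← Finset.mul_sum]
        refine mul_le_mul_of_nonneg_left ?_ (by positivity)
        have h5 : ∑ θ : ZMod (2 ^ κ'), (F i θ / n i) ^ T = (∑ θ : ZMod (2 ^ κ'), F i θ ^ T) / n i ^ T := by
          rw [Finset.sum_div]
          exact Finset.sum_congr rfl (fun θ _ => div_pow _ _ _)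
        rw [h5, div_le_iff₀ (pow_pos (hnpos i) _), hnT i, mul_assoc]
        exact hpow i
      refine (Finset.sum_le_sum (fun i _ => h4 i)).trans (le_of_eq ?_)
      rw [Finset.sum_const, Finset.card_univ, Fintype.card_fin, nsmul_eq_mul, ← mul_assoc,
        mul_one_div_cancel hTR.ne', one_mul]
    have hP : 0 < ∏ i, n i := Finset.prod_pos (fun i _ => hnpos i)
    have h6 : ∑ θ : ZMod (2 ^ κ'), ∏ i, F i θ = (∏ i, n i) * ∑ θ : ZMod (2 ^ κ'), ∏ i, (F i θ / n i) := by
      rw [Finset.mul_sum]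
      refine Finset.sum_congr rfl (fun θ _ => ?_)
      rw [← Finset.prod_mul_distrib]
      refine Finset.prod_congr rfl (fun i _ => ?_)
      rw [mul_div_cancel₀ _ (hnpos i).ne']
    have h7 : (2 : ℝ) ^ κ' * L ≤ 2 ^ κ' * (2 ^ (κ' + 1) * ∏ i, n i) := by
      calc (2 : ℝ) ^ κ' * L ≤ (∏ i, n i) * ∑ θ : ZMod (2 ^ κ'), ∏ i, (F i θ / n i) := by
            rw [← h6]; exact h1
        _ ≤ (∏ i, n i) * (2 ^ κ' * 2 ^ (κ' + 1)) := mul_le_mul_of_nonneg_left h3 hP.le
        _ = _ := by ring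
    exact le_of_mul_le_mul_left h7 (by positivity)

/-- Task M1b: the multilinear one dimensional inequality. -/
theorem one_dim (κ : ℕ) : ∃ t0 : ℕ, κ < t0 ∧ ∀ t ≥ t0, ∀ κ' ≤ κ, ∀ σ : Fin (4 * t) → ℤ,
    (∀ i, σ i = 1 ∨ σ i = -1) → ∀ φ : Fin (4 * t) → Fin 4 → ℝ, (∀ i a, 0 ≤ φ i a) →
    (∑ a : Fin (4 * t) → Fin 4,
      if ∑ i, ((σ i * st (a i) : ℤ) : ZMod (2 ^ κ')) = 0 then ∏ i, φ i (a i) else 0) ≤
      2 ^ (κ' + 1) * ∏ i, (∑ a, φ i a ^ (((4 * t : ℕ) : ℝ) / ((4 * t - κ' : ℕ) : ℝ))) ^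
        (((4 * t - κ' : ℕ) : ℝ) / ((4 * t : ℕ) : ℝ)) := by
  obtain ⟨t0, ht0, hmain⟩ := avg_pow_le κ
  refine ⟨t0, ht0, fun t ht κ' hκ' σ hσ φ hφ => ?_⟩
  have hκt : κ' < t := by omega
  exact sm1b_core (by omega) (by (clear * - ht0 ht hκt; omega)) σ φ hφ
    (fun i => sm1b_pow_sum κ' t hκt (hmain t ht κ' hκ') (σ i) (hσ i) (φ i) (hφ i))

end Vale.Agent.P160
end
end

section

section

namespace Vale.Agent.P160

open Finset

/-- splitting off the first coordinate -/
def sm1c_e (T r : ℕ) : (Fin T → (Fin (r + 1) → Fin 4)) ≃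
    (Fin T → Fin 4) × (Fin T → (Fin r → Fin 4)) where
  toFun ω := (fun i => ω i 0, fun i j => ω i j.succ)
  invFun p := fun i => Fin.cons (p.1 i) (p.2 i)
  left_inv ω := by
    funext i j
    refine Fin.cases ?_ (fun j' => ?_) j
    · simp
    · simp
  right_inv p := by
    ext i
    · simp
    · simp

/-- the general inequality by induction on the number of coordinates -/
theorem sm1c_tens (T κ' : ℕ) (hT : κ' < T) (σ : Fin T → ℤ)
    (h1 : ∀ φ : Fin T → Fin 4 → ℝ, (∀ i a, 0 ≤ φ i a) →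
      (∑ a : Fin T → Fin 4,
        if ∑ i, ((σ i * st (a i) : ℤ) : ZMod (2 ^ κ')) = 0 then ∏ i, φ i (a i) else 0) ≤
        2 ^ (κ' + 1) * ∏ i, (∑ a, φ i a ^ ((T : ℝ) / ((T - κ' : ℕ) : ℝ))) ^
          (((T - κ' : ℕ) : ℝ) / (T : ℝ))) (r : ℕ) :
    ∀ f : Fin T → (Fin r → Fin 4) → ℝ, (∀ i x, 0 ≤ f i x) →
      (∑ ω : Fin T → (Fin r → Fin 4),
        if ∀ j, ∑ i, ((σ i * st (ω i j) : ℤ) : ZMod (2 ^ κ')) = 0 then ∏ i, f i (ω i) else 0) ≤
        (2 ^ (κ' + 1)) ^ r * ∏ i, (∑ x, f i x ^ ((T : ℝ) / ((T - κ' : ℕ) : ℝ))) ^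
          (((T - κ' : ℕ) : ℝ) / (T : ℝ)) := by
  have hT0 : (0 : ℝ) < T := by exact_mod_cast Nat.lt_of_le_of_lt (Nat.zero_le _) hT
  have hTk : (0 : ℝ) < ((T - κ' : ℕ) : ℝ) := by exact_mod_cast Nat.sub_pos_of_lt hT
  have hpq : (T : ℝ) / ((T - κ' : ℕ) : ℝ) * (((T - κ' : ℕ) : ℝ) / (T : ℝ)) = 1 := by
    (clear * - hT0 hTk; field_simp)
  have hqp : ((T - κ' : ℕ) : ℝ) / (T : ℝ) * ((T : ℝ) / ((T - κ' : ℕ) : ℝ)) = 1 := by
    field_simp
  set p : ℝ := (T : ℝ) / ((T - κ' : ℕ) : ℝ) with hp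
  set q : ℝ := ((T - κ' : ℕ) : ℝ) / (T : ℝ) with hq
  induction r with
  | zero =>
    intro f hf
    rw [Fintype.sum_unique]
    rw [if_pos (fun j => j.elim0), pow_zero, one_mul]
    apply le_of_eq
    apply Finset.prod_congr rfl
    intro i _
    rw [Fintype.sum_unique, ← Real.rpow_mul (hf i _), hpq, Real.rpow_one]
    congr 1
  | succ r ih =>
    intro f hf
    let g : Fin T → (Fin r → Fin 4) → ℝ := fun i y => (∑ a : Fin 4, f i (Fin.cons a y) ^ p) ^ q
    have hs0 : ∀ i y, 0 ≤ ∑ a : Fin 4, f i (Fin.cons a y) ^ p := fun i y =>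
      Finset.sum_nonneg fun a _ => Real.rpow_nonneg (hf i _) _
    have hg : ∀ i y, 0 ≤ g i y := fun i y => Real.rpow_nonneg (hs0 i y) _
    have hgp : ∀ i y, g i y ^ p = ∑ a : Fin 4, f i (Fin.cons a y) ^ p := by
      intro i y
      simp only [g]
      rw [← Real.rpow_mul (hs0 i y), hqp, Real.rpow_one]
    have hsum : ∀ i, ∑ y, g i y ^ p = ∑ x, f i x ^ p := by
      intro i
      rw [← (Fin.consEquiv (fun _ : Fin (r + 1) => Fin 4)).sum_comp, Fintype.sum_prod_type_right]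
      exact Finset.sum_congr rfl fun y _ => hgp i y
    rw [← (sm1c_e T r).symm.sum_comp, Fintype.sum_prod_type_right]
    have key : ∀ y : Fin T → (Fin r → Fin 4),
        (∑ a : Fin T → Fin 4,
          if ∀ j, ∑ i, ((σ i * st ((sm1c_e T r).symm (a, y) i j) : ℤ) : ZMod (2 ^ κ')) = 0
            then ∏ i, f i ((sm1c_e T r).symm (a, y) i) else 0) ≤
        2 ^ (κ' + 1) * (if ∀ j, ∑ i, ((σ i * st (y i j) : ℤ) : ZMod (2 ^ κ')) = 0
          then ∏ i, g i (y i) else 0) := by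
      intro y
      by_cases hy : ∀ j, ∑ i, ((σ i * st (y i j) : ℤ) : ZMod (2 ^ κ')) = 0
      · rw [if_pos hy]
        refine le_trans (le_of_eq ?_) (h1 (fun i a => f i (Fin.cons a (y i))) fun i a => hf i _)
        apply Finset.sum_congr rfl
        intro a _
        have e1 : (∀ j, ∑ i, ((σ i * st ((sm1c_e T r).symm (a, y) i j) : ℤ) :
            ZMod (2 ^ κ')) = 0) ↔ ∑ i, ((σ i * st (a i) : ℤ) : ZMod (2 ^ κ')) = 0 := by
          rw [Fin.forall_fin_succ]
          constructor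
          · intro h
            exact h.1
          · intro h
            exact ⟨h, fun j => hy j⟩
        by_cases ha : ∑ i, ((σ i * st (a i) : ℤ) : ZMod (2 ^ κ')) = 0
        · rw [if_pos ha, if_pos (e1.2 ha)]
          rfl
        · rw [if_neg ha, if_neg (fun h => ha (e1.1 h))]
      · rw [if_neg hy, mul_zero]
        apply le_of_eq
        apply Finset.sum_eq_zero
        intro a _
        rw [if_neg]
        intro h
        apply hy
        intro j
        exact h j.succ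
    calc _ ≤ ∑ y : Fin T → (Fin r → Fin 4), 2 ^ (κ' + 1) *
          (if ∀ j, ∑ i, ((σ i * st (y i j) : ℤ) : ZMod (2 ^ κ')) = 0
            then ∏ i, g i (y i) else 0) := Finset.sum_le_sum fun y _ => key y
      _ = 2 ^ (κ' + 1) * ∑ y : Fin T → (Fin r → Fin 4),
          (if ∀ j, ∑ i, ((σ i * st (y i j) : ℤ) : ZMod (2 ^ κ')) = 0
            then ∏ i, g i (y i) else 0) := by rw [Finset.mul_sum]
      _ ≤ 2 ^ (κ' + 1) * ((2 ^ (κ' + 1)) ^ r * ∏ i, (∑ x, g i x ^ p) ^ q) := by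
          apply mul_le_mul_of_nonneg_left (ih g hg) (by positivity)
      _ = _ := by
          rw [← mul_assoc, ← pow_succ']
          congr 1
          apply Finset.prod_congr rfl
          intro i _
          rw [hsum i]

/-- Task M1c: tensorization. -/
theorem mult_count (κ : ℕ) : ∃ T0 : ℕ, κ < T0 ∧ ∀ t ≥ T0, ∀ κ' ≤ κ, ∀ (r : ℕ)
    (σ : Fin (4 * t) → ℤ), (∀ i, σ i = 1 ∨ σ i = -1) → ∀ X : Finset (Fin r → Fin 4),
    ((univ.filter (fun ω : Fin (4 * t) → (Fin r → Fin 4) => (∀ i, ω i ∈ X) ∧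
      ∀ j, ∑ i, ((σ i * st (ω i j) : ℤ) : ZMod (2 ^ κ')) = 0)).card : ℝ) ≤
      2 ^ ((κ' + 1) * r) * (X.card : ℝ) ^ (4 * t - κ') := by
  obtain ⟨t0, ht0, H⟩ := one_dim κ
  refine ⟨t0, ht0, ?_⟩
  intro t ht κ' hκ' r σ hσ X
  have hT : κ' < 4 * t := by omega
  have hT0 : (0 : ℝ) < ((4 * t : ℕ) : ℝ) := by
    exact_mod_cast Nat.lt_of_le_of_lt (Nat.zero_le _) hT
  have hTk : (0 : ℝ) < ((4 * t - κ' : ℕ) : ℝ) := by exact_mod_cast Nat.sub_pos_of_lt hT
  have h := sm1c_tens (4 * t) κ' hT σ (fun φ hφ => H t ht κ' hκ' σ hσ φ hφ) r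
    (fun _ x => if x ∈ X then 1 else 0) (fun _ x => by split_ifs <;> norm_num)
  have e1 : ((univ.filter (fun ω : Fin (4 * t) → (Fin r → Fin 4) => (∀ i, ω i ∈ X) ∧
      ∀ j, ∑ i, ((σ i * st (ω i j) : ℤ) : ZMod (2 ^ κ')) = 0)).card : ℝ) =
      ∑ ω : Fin (4 * t) → (Fin r → Fin 4),
        if ∀ j, ∑ i, ((σ i * st (ω i j) : ℤ) : ZMod (2 ^ κ')) = 0 then
          ∏ i, (if ω i ∈ X then (1 : ℝ) else 0) else 0 := by
    rw [Finset.card_filter, Nat.cast_sum]
    apply Finset.sum_congr rfl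
    intro ω _
    rw [Finset.prod_boole]
    by_cases h2 : ∀ j, ∑ i, ((σ i * st (ω i j) : ℤ) : ZMod (2 ^ κ')) = 0
    · by_cases h3 : ∀ i, ω i ∈ X
      · rw [if_pos ⟨h3, h2⟩, if_pos h2, if_pos (fun i _ => h3 i)]
        simp
      · rw [if_neg (fun h4 => h3 h4.1), if_pos h2, if_neg (fun h4 => h3 fun i => h4 i (mem_univ i))]
        simp
    · rw [if_neg (fun h4 => h2 h4.2), if_neg h2]
      simp
  have e2 : ∑ x : Fin r → Fin 4, (if x ∈ X then (1 : ℝ) else 0) ^
      (((4 * t : ℕ) : ℝ) / ((4 * t - κ' : ℕ) : ℝ)) = X.card := by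
    have e3 : ∀ x : Fin r → Fin 4, (if x ∈ X then (1 : ℝ) else 0) ^
      (((4 * t : ℕ) : ℝ) / ((4 * t - κ' : ℕ) : ℝ)) = if x ∈ X then (1 : ℝ) else 0 := by
      intro x
      split_ifs
      · exact Real.one_rpow _
      · exact Real.zero_rpow (by (clear * - hT0 hTk; positivity))
    simp only [e3]
    simp only [sum_ite_mem, univ_inter, sum_const, nsmul_eq_mul, mul_one]
  rw [e1]
  refine h.trans (le_of_eq ?_)
  rw [e2, Finset.prod_const, Finset.card_univ, Fintype.card_fin, ← pow_mul]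
  congr 1
  rw [← Real.rpow_natCast, ← Real.rpow_mul (Nat.cast_nonneg _), ← Real.rpow_natCast]
  congr 1
  (clear * - hT0 hTk; field_simp)

end Vale.Agent.P160
end
end

section

section

set_option linter.unusedSectionVars false

namespace Vale.Agent.P160

open Finset

section sumB

variable {α β : Type*} [Fintype α] [Fintype β] [DecidableEq α] [DecidableEq β] {M q j : ℕ}

end sumB

end Vale.Agent.P160
end
end

section

section

set_option linter.unusedSectionVars false

namespace Vale.Agent.P160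

open Finset

section bq

variable {α β : Type*} [Fintype α] [Fintype β] [DecidableEq α] [DecidableEq β]

/-- Probability, over an iid half-lazy matrix `H`, that `H x = 0`, `Hᵀ z = 0` mod `N` and
`4 zᵀ H x = 0` mod `N * N`. -/
noncomputable def Bq {N : ℕ} (x : α → ZMod N) (z : β → ZMod N) : ℝ :=
  ((univ.filter (fun ω : β → α → Fin 4 =>
    ((∀ i, walk (ω i) x = 0) ∧ ∀ j, walk (fun i => ω i j) z = 0) ∧
    4 * ∑ i, lft (z i) * walk (ω i) (fun j => lft (x j)) = 0)).card : ℝ) /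
      (4 : ℝ) ^ (Fintype.card β * Fintype.card α)

end bq

section model

variable {ι : Type*} [Fintype ι] [DecidableEq ι] (D : Finset ι)

lemma cq_offp_snd {N : ℕ} (v : ι → ZMod N) (p : {i // i ∉ D} × {i // i ∈ D}) :
    (cq v (offp D p)).2 = 4 * (lft (v p.1) * lft (v p.2)) := by
  have hne : p.1.1 ≠ p.2.1 := fun h => p.1.2 (h ▸ p.2.2)
  unfold cq offp
  simp only
  rw [symc_ne _ hne]
  simp only [Pi.add_apply, mul_add, sum_add_distrib]
  have h1 : ∑ i, lft (v i) * (Pi.single p.1.1 (lft (v p.2.1)) : ι → ZMod (N * N)) i =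
      lft (v p.1.1) * lft (v p.2.1) := by
    rw [Finset.sum_eq_single p.1.1]
    · rw [Pi.single_eq_same]
    · intro j _ hj
      rw [Pi.single_eq_of_ne hj, mul_zero]
    · simp only [mem_univ, not_true_eq_false, Pi.single_eq_same, IsEmpty.forall_iff]
  have h2 : ∑ i, lft (v i) * (Pi.single p.2.1 (lft (v p.1.1)) : ι → ZMod (N * N)) i =
      lft (v p.2.1) * lft (v p.1.1) := by
    rw [Finset.sum_eq_single p.2.1]
    · rw [Pi.single_eq_same]
    · intro j _ hj
      rw [Pi.single_eq_of_ne hj, mul_zero]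
    · simp only [mem_univ, not_true_eq_false, Pi.single_eq_same, IsEmpty.forall_iff]
  rw [h1, h2]
  ring

lemma gwalk_cq_offp_eq_zero {N : ℕ} [NeZero N] (v : ι → ZMod N)
    (ω : {i // i ∉ D} × {i // i ∈ D} → Fin 4) :
    gwalk ω (fun p => cq v (offp D p)) = 0 ↔
      ((∀ i : {i // i ∉ D}, walk (fun j => ω (i, j)) (fun j : {i // i ∈ D} => v j) = 0) ∧
      ∀ j : {i // i ∈ D}, walk (fun i => ω (i, j)) (fun i : {i // i ∉ D} => v i) = 0) ∧
      4 * ∑ i : {i // i ∉ D}, lft (v i) *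
        walk (fun j => ω (i, j)) (fun j : {i // i ∈ D} => lft (v j)) = 0 := by
  rw [← gwalk_offp_eq_zero D v ω, Prod.ext_iff]
  have h1 : (gwalk ω (fun p => cq v (offp D p))).1 = gwalk ω (fun p => symc v (offp D p)) :=
    gwalk_map (AddMonoidHom.fst (ι → ZMod N) (ZMod (N * N))) ω (fun p => cq v (offp D p))
  have h2 : (gwalk ω (fun p => cq v (offp D p))).2 =
      4 * ∑ i : {i // i ∉ D}, lft (v i) *
        walk (fun j => ω (i, j)) (fun j : {i // i ∈ D} => lft (v j)) := by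
    have h3 : (gwalk ω (fun p => cq v (offp D p))).2 =
        gwalk ω (fun p => (cq v (offp D p)).2) := by
      unfold gwalk
      rw [Prod.snd_sum]
      rfl
    rw [h3]
    unfold gwalk walk
    simp only [cq_offp_snd, zsmul_eq_mul]
    rw [Fintype.sum_prod_type, mul_sum]
    refine sum_congr rfl fun i _ => ?_
    rw [mul_sum, mul_sum]
    refine sum_congr rfl fun j _ => ?_
    ring
  rw [h1, h2]
  rfl

lemma gpr_cq_offp {N : ℕ} [NeZero N] (v : ι → ZMod N) :
    gpr 4 (fun p => cq v (offp D p)) 0 =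
      Bq (fun j : {i // i ∈ D} => v j) (fun i : {i // i ∉ D} => v i) := by
  unfold gpr Bq
  congr 1
  · congr 1
    apply Finset.card_bij (fun ω _ => fun i j => ω (i, j))
    · intro ω hω
      simp only [mem_filter, mem_univ, true_and] at hω ⊢
      exact (gwalk_cq_offp_eq_zero D v ω).1 hω
    · intro ω _ ω' _ h
      funext p
      exact congrFun (congrFun h p.1) p.2
    · intro ω hω
      refine ⟨fun p => ω p.1 p.2, ?_, rfl⟩
      simp only [mem_filter, mem_univ, true_and] at hω ⊢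
      exact (gwalk_cq_offp_eq_zero D v _).2 hω
  · rw [Fintype.card_prod]
    norm_num

end model

section aug

variable {α β : Type*} [Fintype α] [Fintype β] [DecidableEq α] [DecidableEq β]

/-- The integer `(h · x) / N` for the standard lift of `x`. -/
def augI {N : ℕ} (x : α → ZMod N) (h : α → Fin 4) : ℤ :=
  (∑ j, st (h j) * ((x j).val : ℤ)) / (N : ℤ)

lemma cast_walk {N : ℕ} [NeZero N] (x : α → ZMod N) (h : α → Fin 4) :
    ((∑ j, st (h j) * ((x j).val : ℤ) : ℤ) : ZMod N) = walk h x := by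
  unfold walk
  push_cast
  refine sum_congr rfl fun j _ => ?_
  rw [ZMod.natCast_zmod_val]

lemma augI_mul {N : ℕ} [NeZero N] (x : α → ZMod N) (h : α → Fin 4) (hx : walk h x = 0) :
    (N : ℤ) * augI x h = ∑ j, st (h j) * ((x j).val : ℤ) := by
  unfold augI
  apply Int.mul_ediv_cancel'
  rw [← cast_walk] at hx
  exact (ZMod.intCast_zmod_eq_zero_iff_dvd _ N).1 hx

lemma walk_lft {N : ℕ} [NeZero N] (x : α → ZMod N) (h : α → Fin 4) (hx : walk h x = 0) :
    walk h (fun j => lft (x j)) = (((N : ℤ) * augI x h : ℤ) : ZMod (N * N)) := by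
  rw [augI_mul x h hx]
  unfold walk lft
  push_cast
  rfl

/-- The matrix `[a | H]`. -/
def augM {N : ℕ} (x : α → ZMod N) (ω : β → α → Fin 4) (i : β) (o : Option α) : ℤ :=
  o.elim (augI x (ω i)) (fun l => st (ω i l))

lemma card_four_le {N : ℕ} [NeZero N] :
    (univ.filter (fun t : ZMod N => 4 * t = 0)).card ≤ 4 := by
  have h1 := IsAddCyclic.card_nsmul_eq_zero_le (α := ZMod N) (n := 4) (by omega)
  refine le_trans (le_of_eq ?_) h1
  congr 1
  ext t
  simp only [mem_filter, mem_univ, true_and]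
  rw [nsmul_eq_mul]
  norm_num

/-- Counting `z` for a fixed matrix. -/
lemma card_z_le {N : ℕ} [NeZero N] (x : α → ZMod N) (ω : β → α → Fin 4)
    (hx : ∀ i, walk (ω i) x = 0) :
    (univ.filter (fun z : β → ZMod N => (∀ j, walk (fun i => ω i j) z = 0) ∧
      4 * ∑ i, lft (z i) * walk (ω i) (fun j => lft (x j)) = 0)).card ≤
      4 * (kerT N (augM x ω)).card := by
  classical
  set S : ZMod N → Finset (β → ZMod N) := fun t => univ.filter (fun z : β → ZMod N =>
    ∀ l : Option α, ∑ i, (augM x ω i l : ZMod N) * z i = l.elim t (fun _ => 0)) with hS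
  have hsub : univ.filter (fun z : β → ZMod N => (∀ j, walk (fun i => ω i j) z = 0) ∧
      4 * ∑ i, lft (z i) * walk (ω i) (fun j => lft (x j)) = 0) ⊆
      (univ.filter (fun t : ZMod N => 4 * t = 0)).biUnion S := by
    intro z hz
    simp only [mem_filter, mem_univ, true_and] at hz
    obtain ⟨hz1, hz2⟩ := hz
    rw [mem_biUnion]
    refine ⟨∑ i, (augI x (ω i) : ZMod N) * z i, ?_, ?_⟩
    · simp only [mem_filter, mem_univ, true_and]
      have h1 : ((4 * ∑ i, ((z i).val : ℤ) * ((N : ℤ) * augI x (ω i)) : ℤ) : ZMod (N * N)) = 0 := by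
        rw [← hz2]
        push_cast
        congr 1
        refine sum_congr rfl fun i _ => ?_
        rw [walk_lft x (ω i) (hx i)]
        unfold lft
        push_cast
        rfl
      rw [ZMod.intCast_zmod_eq_zero_iff_dvd] at h1
      have h2 : (4 * ∑ i, ((z i).val : ℤ) * ((N : ℤ) * augI x (ω i)) : ℤ) =
          (N : ℤ) * (4 * ∑ i, ((z i).val : ℤ) * augI x (ω i)) := by
        rw [mul_left_comm, mul_sum, mul_sum]
        congr 1
        rw [mul_sum]
        refine sum_congr rfl fun i _ => ?_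
        ring
      rw [h2] at h1
      push_cast at h1
      have hN : (N : ℤ) ≠ 0 := by exact_mod_cast NeZero.ne N
      have h3 : (N : ℤ) ∣ 4 * ∑ i, ((z i).val : ℤ) * augI x (ω i) :=
        Int.dvd_of_mul_dvd_mul_left hN h1
      have h4 := (ZMod.intCast_zmod_eq_zero_iff_dvd _ N).2 h3
      rw [← h4]
      push_cast
      congr 1
      refine sum_congr rfl fun i _ => ?_
      rw [ZMod.natCast_zmod_val, mul_comm]
    · rw [hS]
      simp only [mem_filter, mem_univ, true_and]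
      intro l
      cases l with
      | none => rfl
      | some l => exact hz1 l
  refine (Finset.card_le_card hsub).trans (Finset.card_biUnion_le.trans ?_)
  have h2 : ∀ t ∈ univ.filter (fun t : ZMod N => 4 * t = 0), (S t).card ≤
      (kerT N (augM x ω)).card := fun t _ => card_affine_le (augM x ω) _
  refine (sum_le_sum h2).trans ?_
  rw [sum_const, smul_eq_mul]
  exact Nat.mul_le_mul_right _ card_four_le

end aug

end Vale.Agent.P160
end
end

section

section

set_option linter.unusedSectionVars false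

namespace Vale.Agent.P160

open Finset

section reindex

variable {α β : Type*} [Fintype α] [Fintype β] [DecidableEq α] [DecidableEq β] {M N : ℕ}

lemma isUnit_iff_castHom {j : ℕ} (hj : j ≠ 0) (a : ZMod (2 ^ j)) :
    IsUnit a ↔ ZMod.castHom (dvd_pow_self 2 hj) (ZMod 2) a ≠ 0 := by
  have : NeZero (2 ^ j) := ⟨by (clear * -; positivity)⟩
  have ha : ((a.val : ℕ) : ZMod (2 ^ j)) = a := ZMod.natCast_zmod_val a
  rw [← ha, map_natCast, ZMod.isUnit_iff_coprime, Nat.coprime_pow_right_iff (by omega),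
    Ne, ZMod.natCast_eq_zero_iff, Nat.coprime_comm, Nat.Prime.coprime_iff_not_dvd Nat.prime_two]

lemma nu_eq (v : α → ZMod N) [DecidablePred fun i => IsUnit (v i)] :
    nu v = (univ.filter fun i => IsUnit (v i)).card := by
  unfold nu
  congr

lemma wt_eq_nu {j : ℕ} (hj : j ≠ 0) (v : α → ZMod (2 ^ j)) :
    wt (fun i => ZMod.castHom (dvd_pow_self 2 hj) (ZMod 2) (v i)) = nu v := by
  classical
  have hNZ : NeZero (2 ^ j) := ⟨by positivity⟩
  rw [nu_eq]
  unfold wt
  refine card_equiv (Equiv.refl α) fun i => ?_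
  rw [mem_filter, mem_filter, Equiv.refl_apply, isUnit_iff_castHom hj]

end reindex

section block

variable {α β : Type} [Fintype α] [Fintype β] [DecidableEq α] [DecidableEq β]

end block

end Vale.Agent.P160
end
end

section

section

set_option linter.unusedSectionVars false

namespace Vale.Agent.P160

open Finset

section aux

lemma st1_third_le_cf {z : ℂ} (hz : ‖z‖ = 1) : 1 / 3 ≤ cf 6 z := by
  have h1 : -1 ≤ z.re := by
    have := Complex.abs_re_le_norm z
    rw [hz] at this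
    exact (abs_le.mp this).1
  unfold cf
  push_cast
  linarith only [h1]

variable {α : Type*} [Fintype α] [DecidableEq α]

lemma st1_pr_mono {N M M' : ℕ} [NeZero N] (hM : 4 ≤ M) (hMM : M ≤ M') (v : α → ZMod N) :
    pr M v 0 ≤ pr M' v 0 := by
  have hN : (0 : ℝ) < N := by exact_mod_cast Nat.pos_of_ne_zero (NeZero.ne N)
  have h1 := Zf_eq (by omega : 2 ≤ M) v
  have h2 := Zf_eq (by omega : 2 ≤ M') v
  have h3 : Zf M v ≤ Zf M' v := by
    rw [h1, h2]
    exact sum_le_sum fun t _ => prod_le_prod (fun i _ => cf_nonneg hM (norm_ee _))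
      fun i _ => cf_mono hM hMM (norm_ee _)
  unfold Zf at h3
  exact le_of_mul_le_mul_left h3 hN

/-- Removing one coordinate costs at most a factor `3` for `M = 6`. -/
lemma st1_pr_remove_le {N : ℕ} [NeZero N] (v : α → ZMod N) (a : α) :
    pr 6 (fun i : {i // i ≠ a} => v i) 0 ≤ 3 * pr 6 v 0 := by
  have hN : (0 : ℝ) < N := by exact_mod_cast Nat.pos_of_ne_zero (NeZero.ne N)
  have h1 := Zf_eq (by norm_num : 2 ≤ 6) v
  have h2 := Zf_eq (by norm_num : 2 ≤ 6) (fun i : {i // i ≠ a} => v i)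
  have h3 : Zf 6 (fun i : {i // i ≠ a} => v i) ≤ 3 * Zf 6 v := by
    rw [h1, h2, mul_sum]
    refine sum_le_sum fun t _ => ?_
    rw [Fintype.prod_eq_mul_prod_subtype_ne _ a]
    have h4 := st1_third_le_cf (norm_ee (t * v a))
    have h5 : 0 ≤ ∏ i : {i // i ≠ a}, cf 6 (ee (t * v i)) :=
      prod_nonneg fun i _ => cf_nonneg (by norm_num) (norm_ee _)
    (clear hN h1 h2; nlinarith)
  unfold Zf at h3
  have : N * pr 6 (fun i : {i // i ≠ a} => v i) 0 ≤ N * (3 * pr 6 v 0) := by linarith only [h3]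
  exact le_of_mul_le_mul_left this hN

end aux

section quad

variable {ι : Type*} [Fintype ι] [DecidableEq ι] (D : Finset ι)

lemma st1_gpr_star_le {J : ℕ} (v : ι → ZMod (2 ^ (J + 1)))
    (l₀ : {i // i ∈ D}) (hl : IsUnit (v l₀)) :
    gpr 4 (fun l : {l : {i // i ∈ D} // l ≠ l₀} => 2 * (-(v l₀) * v l.1)) 0 ≤
      6 * pr 6 (fun j : {i // i ∈ D} => v j) 0 := by
  have h4 := gpr_two_mul_le (le_refl 4)
    (fun l : {l : {i // i ∈ D} // l ≠ l₀} => -(v l₀) * v l.1)
  have h5 : pr 4 (fun l : {l : {i // i ∈ D} // l ≠ l₀} => -(v l₀) * v l.1) 0 =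
      pr 4 (fun l : {l : {i // i ∈ D} // l ≠ l₀} => v l.1) 0 := by
    unfold pr
    congr 2
    congr 1
    ext ω
    simp only [mem_filter, mem_univ, true_and]
    have : walk ω (fun l : {l : {i // i ∈ D} // l ≠ l₀} => -(v l₀) * v l.1) =
        -(v l₀) * walk ω (fun l : {l : {i // i ∈ D} // l ≠ l₀} => v l.1) := by
      unfold walk
      rw [mul_sum]
      refine sum_congr rfl fun l _ => ?_
      ring
    rw [this]
    exact hl.neg.mul_right_eq_zero
  have h6 := st1_pr_mono (le_refl 4) (by norm_num : 4 ≤ 6)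
    (fun l : {l : {i // i ∈ D} // l ≠ l₀} => v l.1)
  have h7 := st1_pr_remove_le (fun j : {i // i ∈ D} => v j) l₀
  rw [h5] at h4
  linarith only [h4, h6, h7]

end quad

section
variable {ι : Type} [Fintype ι] [DecidableEq ι]
variable {T : Type} [Fintype T] [DecidableEq T] [Nonempty T]

open Classical in
lemma st1_count (D : T → Finset ι) (hD : Sep4 D)
    (l₀ : ∀ t, {i // i ∈ D t}) (hl₀ : Function.Injective (fun t => (l₀ t).1)) (e : Sym2 ι) :
    2 * (univ.filter (fun t => ∃ e₁, Sum.elim (offp (D t)) (starp (D t) (l₀ t)) e₁ = e)).card ≤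
      Fintype.card T := by
  have h0 : univ.filter (fun t => ∃ e₁, Sum.elim (offp (D t)) (starp (D t) (l₀ t)) e₁ = e) ⊆
      univ.filter (fun t => ∃ e₁, offp (D t) e₁ = e) ∪
        univ.filter (fun t => ∃ e₂, starp (D t) (l₀ t) e₂ = e) := by
    intro t ht
    rw [mem_filter] at ht
    rw [mem_union, mem_filter, mem_filter]
    obtain ⟨_, e₁ | e₂, he⟩ := ht
    · exact Or.inl ⟨mem_univ _, e₁, he⟩
    · exact Or.inr ⟨mem_univ _, e₂, he⟩
  have h00 := (Finset.card_le_card h0).trans (Finset.card_union_le _ _)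
  induction e using Sym2.ind with
  | _ i j =>
    by_cases hij : i = j
    · subst hij
      have h1 : univ.filter (fun t => ∃ e₁, offp (D t) e₁ = s(i, i)) = ∅ := by
        apply Finset.filter_eq_empty_iff.2
        intro t _ h
        rcases offp_eq_iff (D t) h with h | h
        · exact h.2 h.1
        · exact h.1 h.2
      have h2 : univ.filter (fun t => ∃ e₂, starp (D t) (l₀ t) e₂ = s(i, i)) = ∅ := by
        apply Finset.filter_eq_empty_iff.2
        intro t _ h
        exact (starp_eq_iff (D t) (l₀ t) h).1 rfl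
      rw [h1, h2, card_empty] at h00
      omega
    · have h1 := hD i j hij
      have h2 : (univ.filter (fun t => ∃ e₁, offp (D t) e₁ = s(i, j))).card ≤
          (univ.filter (fun t => (i ∈ D t ∧ j ∉ D t) ∨ (i ∉ D t ∧ j ∈ D t))).card := by
        apply Finset.card_le_card
        intro t ht
        rw [mem_filter] at ht ⊢
        exact ⟨mem_univ _, offp_eq_iff (D t) ht.2⟩
      have h3 : (univ.filter (fun t => ∃ e₂, starp (D t) (l₀ t) e₂ = s(i, j))).card ≤ 2 := by
        have : (univ.filter (fun t => ∃ e₂, starp (D t) (l₀ t) e₂ = s(i, j))).image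
            (fun t => (l₀ t).1) ⊆ {i, j} := by
          intro a ha
          rw [mem_image] at ha
          obtain ⟨t, ht, rfl⟩ := ha
          rw [mem_filter] at ht
          rcases (starp_eq_iff (D t) (l₀ t) ht.2).2 with h | h
          · rw [h]; simp
          · rw [h]; simp
        have h4 := (Finset.card_le_card this).trans Finset.card_le_two
        rwa [Finset.card_image_of_injective _ hl₀] at h4
      have h5 : 2 * (univ.filter (fun t => (i ∈ D t ∧ j ∉ D t) ∨ (i ∉ D t ∧ j ∈ D t))).card + 4 ≤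
          Fintype.card T := by
        convert h1
      (clear * - h00 h1 h2 h3; omega)

/-- Task T1: the top level estimate for the family, half-lazy star edges. -/
theorem bpr_cq_le6 {J : ℕ} (D : T → Finset ι) (hD : Sep4 D) (v : ι → ZMod (2 ^ (J + 1)))
    (l₀ : ∀ t, {i // i ∈ D t}) (hl₀ : Function.Injective (fun t => (l₀ t).1))
    (hu : ∀ t, IsUnit (v (l₀ t)))
    (g : (ι → ZMod (2 ^ (J + 1))) × ZMod (2 ^ (J + 1) * 2 ^ (J + 1))) :
    bpr (cq v) g ≤ (∑ t, gpr 4 (fun p => cq v (offp (D t) p)) 0 *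
      (6 * pr 6 (fun j : {i // i ∈ D t} => v j) 0)) / Fintype.card T := by
  have hT : 0 < Fintype.card T := Fintype.card_pos
  have h := bpr_le_family (cq v) g (fun _ : T => (1 : ℝ)) (fun _ => zero_le_one) (by simp)
    (fun t => Sum.elim (offp (D t)) (starp (D t) (l₀ t)))
    (fun t => topp_injective (D t) (l₀ t))
    (E₂ := fun _ => Empty) (fun _ e => e.elim) (fun _ e => e.elim)
    (fun e => by
      classical
      have h2 : (univ.filter (fun t : T => ∃ e₂ : Empty, (fun e : Empty => (e.elim : Sym2 ι)) e₂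
          = e)).card = 0 := by
        rw [Finset.card_eq_zero]
        apply Finset.filter_eq_empty_iff.2
        rintro t _ ⟨e₂, _⟩
        exact e₂.elim
      have h3 := st1_count D hD l₀ hl₀ e
      have h4 : 2 * (univ.filter (fun t => ∃ e₁,
          Sum.elim (offp (D t)) (starp (D t) (l₀ t)) e₁ = e)).card + 0 ≤ Fintype.card T := by
        rw [add_zero]
        convert h3
      convert h4 using 2)
  refine h.trans ?_
  have hT' : (0 : ℝ) < Fintype.card T := by exact_mod_cast hT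
  rw [div_le_div_iff_of_pos_right hT']
  refine sum_le_sum fun t _ => ?_
  rw [one_mul, prM_empty]
  have h1 : (fun e => cq v (Sum.elim (offp (D t)) (starp (D t) (l₀ t)) e)) =
      Sum.elim (fun p => cq v (offp (D t) p)) (fun l => cq v (starp (D t) (l₀ t) l)) := by
    funext e
    cases e <;> rfl
  rw [h1]
  have h2 := gpr_sum_le (le_refl 4) (fun e => cq v (offp (D t) e))
    (fun e => cq v (starp (D t) (l₀ t) e))
    ((formD (D t) v).comp (AddMonoidHom.fst _ _)) (fun e => formD_offp (D t) v e)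
  refine h2.trans ?_
  apply mul_le_mul_of_nonneg_left _ (gpr_nonneg _ _)
  have h3 : (fun e => ((formD (D t) v).comp (AddMonoidHom.fst (ι → ZMod (2 ^ (J + 1)))
      (ZMod (2 ^ (J + 1) * 2 ^ (J + 1))))) (cq v (starp (D t) (l₀ t) e))) =
      fun l => 2 * (-(v (l₀ t)) * v l.1) := by
    funext e
    exact formD_starp (D t) v (l₀ t) e
  rw [h3]
  exact st1_gpr_star_le (D t) v (l₀ t) (hu t)

end

end Vale.Agent.P160
end
end

section

section

set_option linter.unusedSectionVars false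

namespace Vale.Agent.P160

open Finset

lemma st7_log : (2 : ℝ) / 5 ≤ Real.log (3 / 2) := by
  have h1 : Real.exp 2 < 243 / 32 := by
    have h2 : Real.exp 2 = Real.exp 1 * Real.exp 1 := by
      rw [← Real.exp_add]
      norm_num
    have h3 := Real.exp_one_lt_d9
    have h4 := Real.exp_pos 1
    rw [h2]
    nlinarith only [h3, h4]
  have h5 : (2 : ℝ) < Real.log (243 / 32) := by
    rw [Real.lt_log_iff_exp_lt (by norm_num)]
    exact h1
  have h6 : (243 / 32 : ℝ) = (3 / 2) ^ 5 := by norm_num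
  rw [h6, Real.log_pow] at h5
  push_cast at h5
  linarith only [h5]

lemma st7_num {I : ℕ} {d j : ℕ} (hd : 52 * (I + 2) ≤ d) (hj : 2 * j ≤ d + 2 * I + 4) :
    Real.log ((2 ^ j : ℕ) : ℝ) ≤
      (1 - 1 / 10) * (d : ℝ) * (-Real.log (1 - 2 / ((6 : ℕ) : ℝ))) := by
  have h1 : (1 - 2 / ((6 : ℕ) : ℝ)) = (3 / 2)⁻¹ := by norm_num
  rw [h1, Real.log_inv, neg_neg]
  push_cast
  rw [Real.log_pow]
  have h2 := Real.log_two_lt_d9
  have h3 := st7_log
  have hd' : (52 : ℝ) * ((I : ℝ) + 2) ≤ d := by exact_mod_cast hd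
  have hj' : (2 : ℝ) * (j : ℝ) ≤ d + 2 * I + 4 := by exact_mod_cast hj
  have hlog0 : 0 < Real.log 2 := Real.log_pos (by norm_num)
  have hd0 : (0 : ℝ) ≤ d := Nat.cast_nonneg d
  have hI0 : (0 : ℝ) ≤ I := Nat.cast_nonneg I
  have h4 : (j : ℝ) * Real.log 2 ≤ ((d : ℝ) / 2 + I + 2) * Real.log 2 :=
    mul_le_mul_of_nonneg_right (by linarith only [hj']) hlog0.le
  have h5 : ((d : ℝ) / 2 + I + 2) * Real.log 2 ≤ ((d : ℝ) / 2 + I + 2) * 0.6931471808 :=
    mul_le_mul_of_nonneg_left h2.le (by linarith only [hd0])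
  have h6 : (1 - 1 / 10) * (d : ℝ) * (2 / 5) ≤ (1 - 1 / 10) * (d : ℝ) * Real.log (3 / 2) :=
    mul_le_mul_of_nonneg_left h3 (by linarith only [hd0])
  linarith only [h4, h5, h6, hd', hd0, hI0]

lemma st7_card_mult (I j : ℕ) (hIj : I ≤ j) [NeZero (2 ^ j)] :
    ((univ : Finset (ZMod (2 ^ j))).image (fun a => 2 ^ (j - I) * a)).card ≤ 2 ^ I := by
  classical
  have hsub : (univ : Finset (ZMod (2 ^ j))).image (fun a => 2 ^ (j - I) * a) ⊆
      (range (2 ^ I)).image (fun n : ℕ => (2 ^ (j - I) * (n : ZMod (2 ^ j)) : ZMod (2 ^ j))) := by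
    intro y hy
    rw [mem_image] at hy ⊢
    obtain ⟨a, _, rfl⟩ := hy
    refine ⟨a.val % 2 ^ I, mem_range.2 (Nat.mod_lt _ (by positivity)), ?_⟩
    have h0 : ((2 : ZMod (2 ^ j)) ^ (j - I)) * 2 ^ I = 0 := by
      rw [← pow_add, Nat.sub_add_cancel hIj]
      have := ZMod.natCast_self (2 ^ j)
      push_cast at this
      exact this
    have h1 : ((a.val : ℕ) : ZMod (2 ^ j)) = a := ZMod.natCast_zmod_val a
    have h2 : a = 2 ^ I * ((a.val / 2 ^ I : ℕ) : ZMod (2 ^ j)) + ((a.val % 2 ^ I : ℕ) :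
        ZMod (2 ^ j)) := by
      conv_lhs => rw [← h1, ← Nat.div_add_mod a.val (2 ^ I)]
      push_cast
      ring
    conv_rhs => rw [h2]
    rw [mul_add, ← mul_assoc, h0, zero_mul, zero_add]
  refine (card_le_card hsub).trans (card_image_le.trans ?_)
  rw [card_range]

lemma st7_nu {α : Type*} [Fintype α] [DecidableEq α] {I j : ℕ} (hIj : I < j)
    (x k : α → ZMod (2 ^ j)) : nu (fun i => x i + 2 ^ (j - I) * k i) = nu x := by
  have hj : j ≠ 0 := by omega
  rw [← wt_eq_nu hj, ← wt_eq_nu hj]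
  congr 1
  funext i
  have h2 : (2 : ZMod 2) = 0 := rfl
  rw [map_add, map_mul, map_pow, map_ofNat, h2, zero_pow (by omega), zero_mul, add_zero]

open Classical in
/-- Task T7: the number of structured vectors. -/
theorem card_badL (I : ℕ) {δ : ℝ} (K : ℝ) (hδ : 0 < δ) : ∃ c : ℝ, 0 < c ∧ ∃ d0 : ℕ,
    ∀ (α : Type) [Fintype α] [DecidableEq α], d0 ≤ Fintype.card α → ∀ j : ℕ, I < j →
      2 * j ≤ Fintype.card α + 2 * I + 4 →
      ((univ.filter (fun x : α → ZMod (2 ^ j) => δ * Fintype.card α ≤ nu x ∧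
        BadL I (Real.exp (-c * Fintype.card α)) x)).card : ℝ) ≤
        Real.exp (-K * Fintype.card α) * ((2 : ℝ) ^ j) ^ Fintype.card α := by
  obtain ⟨c, hc, d0, h⟩ := count_exp (M := 6) (by norm_num) (ε := 1 / 10)
    (K + I * Real.log 2) (by norm_num) (by norm_num) hδ
  refine ⟨c, hc, max d0 (52 * (I + 2)), fun α _ _ hα j hIj hj => ?_⟩
  have : NeZero (2 ^ j) := ⟨by positivity⟩
  have h1 := h α ((le_max_left _ _).trans hα) (2 ^ j)
    (st7_num ((le_max_right _ _).trans hα) hj)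
  set d := Fintype.card α with hd
  set V := univ.filter (fun v : α → ZMod (2 ^ j) => δ * d ≤ nu v ∧
    1 + Real.exp (-c * d) < Zf 6 v) with hV
  set W : Finset (α → ZMod (2 ^ j)) := Fintype.piFinset (fun _ : α =>
    (univ : Finset (ZMod (2 ^ j))).image (fun a => 2 ^ (j - I) * a)) with hW
  set S := univ.filter (fun x : α → ZMod (2 ^ j) => δ * d ≤ nu x ∧
    BadL I (Real.exp (-c * d)) x) with hS
  have hsub : S ⊆ (V ×ˢ W).image (fun p => p.1 - p.2) := by
    intro x hx
    rw [hS, mem_filter] at hx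
    obtain ⟨_, hx1, k, hk⟩ := hx
    rw [mem_image]
    refine ⟨(fun i => x i + 2 ^ (j - I) * k i, fun i => 2 ^ (j - I) * k i), ?_, ?_⟩
    · rw [mem_product]
      constructor
      · rw [hV, mem_filter]
        refine ⟨mem_univ _, ?_, hk⟩
        rw [st7_nu hIj]
        exact hx1
      · rw [hW, Fintype.mem_piFinset]
        intro i
        exact mem_image_of_mem _ (mem_univ _)
    · funext i
      simp only [Pi.sub_apply]
      ring
  have hWc : W.card ≤ (2 ^ I) ^ d := by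
    rw [hW, Fintype.card_piFinset, prod_const, hd]
    exact Nat.pow_le_pow_left (st7_card_mult I j hIj.le) _
  have hSc : S.card ≤ V.card * (2 ^ I) ^ d := by
    refine (card_le_card hsub).trans (card_image_le.trans ?_)
    rw [card_product]
    exact Nat.mul_le_mul_left _ hWc
  have hSc' : (S.card : ℝ) ≤ V.card * ((2 : ℝ) ^ I) ^ d := by
    exact_mod_cast hSc
  have hexp : ((2 : ℝ) ^ I) ^ d = Real.exp (I * Real.log 2 * d) := by
    rw [mul_comm ((I : ℝ) * Real.log 2) (d : ℝ), Real.exp_nat_mul, Real.exp_nat_mul,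
      Real.exp_log (by norm_num)]
  have h2 : ((2 ^ j : ℕ) : ℝ) = (2 : ℝ) ^ j := by push_cast; rfl
  rw [h2] at h1
  have h3 : 0 ≤ ((2 : ℝ) ^ I) ^ d := by positivity
  calc (S.card : ℝ) ≤ V.card * ((2 : ℝ) ^ I) ^ d := hSc'
    _ ≤ (Real.exp (-(K + I * Real.log 2) * d) * ((2 : ℝ) ^ j) ^ d) * ((2 : ℝ) ^ I) ^ d :=
        mul_le_mul_of_nonneg_right h1 h3
    _ = Real.exp (-(K + I * Real.log 2) * d) * Real.exp (I * Real.log 2 * d) *
        ((2 : ℝ) ^ j) ^ d := by
        rw [hexp]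
        ring
    _ = Real.exp (-K * d) * ((2 : ℝ) ^ j) ^ d := by
        rw [← Real.exp_add]
        congr 2
        ring

end Vale.Agent.P160
end
end

section

section

namespace Vale.Agent.P160

open Finset

lemma sn5_sum_supp {α : Type} [Fintype α] [DecidableEq α] (I : ℕ) (lam : ℝ) :
    ∑ k : α → ZMod (2 ^ I), lam ^ suppc k =
      (∑ z : ZMod (2 ^ I), if z = 0 then (1 : ℝ) else lam) ^ Fintype.card α := by
  have h := Finset.prod_univ_sum (fun _ : α => (univ : Finset (ZMod (2 ^ I))))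
    (fun _ z => if z = 0 then (1 : ℝ) else lam)
  rw [Fintype.piFinset_univ] at h
  rw [Finset.prod_const, Finset.card_univ] at h
  rw [h]
  refine Finset.sum_congr rfl (fun k _ => ?_)
  rw [Finset.prod_ite, Finset.prod_const_one, one_mul, Finset.prod_const]
  rfl

lemma sn5_sum_le (I : ℕ) {lam : ℝ} (h0 : 0 ≤ lam) :
    (∑ z : ZMod (2 ^ I), if z = 0 then (1 : ℝ) else lam) ≤ 1 + 2 ^ I * lam := by
  have h1 : (∑ z : ZMod (2 ^ I), if z = 0 then (1 : ℝ) else lam) ≤
      ∑ z : ZMod (2 ^ I), ((if z = 0 then (1 : ℝ) else 0) + lam) := by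
    refine Finset.sum_le_sum (fun z _ => ?_)
    split_ifs <;> linarith
  refine h1.trans (le_of_eq ?_)
  rw [Finset.sum_add_distrib, Finset.sum_ite_eq' univ (0 : ZMod (2 ^ I)) (fun _ => (1 : ℝ))]
  simp only [mem_univ, ↓reduceIte, sum_const, card_univ, ZMod.card, nsmul_eq_mul, Nat.cast_pow, Nat.cast_ofNat]

/-- Task N5: the number of sparse vectors. -/
theorem card_sparse (I : ℕ) {h : ℝ} (hh : 0 < h) : ∃ ω₀ : ℝ, 0 < ω₀ ∧ ∀ (α : Type) [Fintype α]
    [DecidableEq α] (w : ℕ), (w : ℝ) ≤ ω₀ * Fintype.card α →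
    ((univ.filter (fun k : α → ZMod (2 ^ I) => suppc k < w)).card : ℝ) ≤
      (2 : ℝ) ^ (h * Fintype.card α) := by
  have hl2 : 0 < Real.log 2 := Real.log_pos (by norm_num)
  have h2I : (0 : ℝ) < 2 ^ I := by positivity
  obtain ⟨lam, hlam0, hlam1, hlam2⟩ : ∃ lam : ℝ, 0 < lam ∧ lam < 1 ∧
      2 ^ I * lam ≤ h * Real.log 2 / 2 := by
    refine ⟨min (1 / 2) (h * Real.log 2 / 2 / 2 ^ I), lt_min (by norm_num) (by positivity),
      lt_of_le_of_lt (min_le_left _ _) (by norm_num), ?_⟩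
    calc 2 ^ I * min (1 / 2) (h * Real.log 2 / 2 / 2 ^ I)
        ≤ 2 ^ I * (h * Real.log 2 / 2 / 2 ^ I) :=
          mul_le_mul_of_nonneg_left (min_le_right _ _) h2I.le
      _ = h * Real.log 2 / 2 := by (clear * - hh; field_simp)
  have hlog : 0 < - Real.log lam := by
    have := Real.log_neg hlam0 hlam1
    (clear * - this; linarith)
  refine ⟨h * Real.log 2 / 2 / (- Real.log lam), by (clear * - hh hlog; positivity), ?_⟩
  intro α _ _ w hw
  set S := univ.filter (fun k : α → ZMod (2 ^ I) => suppc k < w) with hS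
  set d : ℝ := (Fintype.card α : ℝ) with hd
  have hd0 : 0 ≤ d := by positivity
  have h1 : (S.card : ℝ) * lam ^ w ≤ ∑ k : α → ZMod (2 ^ I), lam ^ suppc k := by
    calc (S.card : ℝ) * lam ^ w = ∑ _k ∈ S, lam ^ w := by
          rw [Finset.sum_const, nsmul_eq_mul]
      _ ≤ ∑ k ∈ S, lam ^ suppc k := by
          refine Finset.sum_le_sum (fun k hk => ?_)
          have hk' : suppc k < w := (Finset.mem_filter.mp hk).2
          exact pow_le_pow_of_le_one hlam0.le hlam1.le hk'.le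
      _ ≤ ∑ k : α → ZMod (2 ^ I), lam ^ suppc k := by
          refine Finset.sum_le_sum_of_subset_of_nonneg (Finset.subset_univ _)
            (fun k _ _ => by positivity)
  have h2 : ∑ k : α → ZMod (2 ^ I), lam ^ suppc k ≤ Real.exp (h * Real.log 2 / 2 * d) := by
    rw [sn5_sum_supp]
    have h3 : (∑ z : ZMod (2 ^ I), if z = 0 then (1 : ℝ) else lam) ≤
        Real.exp (h * Real.log 2 / 2) := by
      refine (sn5_sum_le I hlam0.le).trans ?_
      have := Real.add_one_le_exp (h * Real.log 2 / 2)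
      linarith only [hlam2, this]
    have h4 : 0 ≤ (∑ z : ZMod (2 ^ I), if z = 0 then (1 : ℝ) else lam) := by
      refine Finset.sum_nonneg (fun z _ => ?_)
      split_ifs <;> linarith only [hlam0]
    calc _ ≤ (Real.exp (h * Real.log 2 / 2)) ^ Fintype.card α := pow_le_pow_left₀ h4 h3 _
      _ = Real.exp (h * Real.log 2 / 2 * d) := by
          rw [← Real.exp_nat_mul, hd, mul_comm]
  have h5 : Real.exp (-(h * Real.log 2 / 2 * d)) ≤ lam ^ w := by
    rw [← Real.exp_log hlam0, ← Real.exp_nat_mul]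
    apply Real.exp_le_exp.mpr
    have h6 : (w : ℝ) * (- Real.log lam) ≤ h * Real.log 2 / 2 * d := by
      have h7 := mul_le_mul_of_nonneg_right hw hlog.le
      calc (w : ℝ) * (- Real.log lam)
          ≤ h * Real.log 2 / 2 / (- Real.log lam) * Fintype.card α * (- Real.log lam) := h7
        _ = h * Real.log 2 / 2 * d := by
            rw [← hd, mul_right_comm, div_mul_cancel₀ _ hlog.ne']
    linarith only [h6]
  have h8 : (S.card : ℝ) * Real.exp (-(h * Real.log 2 / 2 * d)) ≤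
      Real.exp (h * Real.log 2 / 2 * d) :=
    (mul_le_mul_of_nonneg_left h5 (by (clear * -; positivity))).trans (h1.trans h2)
  have h9 : (S.card : ℝ) ≤ Real.exp (h * Real.log 2 / 2 * d) * Real.exp (h * Real.log 2 / 2 * d) := by
    have h10 := mul_le_mul_of_nonneg_right h8 (Real.exp_pos (h * Real.log 2 / 2 * d)).le
    rwa [mul_assoc, ← Real.exp_add, neg_add_cancel, Real.exp_zero, mul_one] at h10
  refine h9.trans (le_of_eq ?_)
  rw [← Real.exp_add, Real.rpow_def_of_pos (by norm_num)]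
  congr 1
  ring

lemma sn5_comb {A : ℕ} {E c e1 e2 e3 f1 f2 : ℝ} (hE0 : 0 ≤ E) (hE : E ≤ (2 : ℝ) ^ c)
    (h : c * A + e1 + e2 + e3 ≤ f1 + f2) :
    E ^ A * (2 : ℝ) ^ e1 * (2 : ℝ) ^ e2 * (2 : ℝ) ^ e3 ≤ (2 : ℝ) ^ f1 * (2 : ℝ) ^ f2 := by
  have h2 : (0 : ℝ) < 2 := by norm_num
  have h1 : E ^ A ≤ (2 : ℝ) ^ (c * A) := by
    calc E ^ A ≤ ((2 : ℝ) ^ c) ^ A := pow_le_pow_left₀ hE0 hE A
      _ = (2 : ℝ) ^ (c * A) := by rw [Real.rpow_mul h2.le, Real.rpow_natCast]
  calc E ^ A * (2 : ℝ) ^ e1 * (2 : ℝ) ^ e2 * (2 : ℝ) ^ e3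
      ≤ (2 : ℝ) ^ (c * A) * (2 : ℝ) ^ e1 * (2 : ℝ) ^ e2 * (2 : ℝ) ^ e3 := by (clear * - h1; gcongr)
    _ = (2 : ℝ) ^ (c * A + e1 + e2 + e3) := by
        rw [Real.rpow_add h2, Real.rpow_add h2, Real.rpow_add h2]
    _ ≤ (2 : ℝ) ^ (f1 + f2) := Real.rpow_le_rpow_of_exponent_le (by norm_num) h
    _ = (2 : ℝ) ^ f1 * (2 : ℝ) ^ f2 := Real.rpow_add h2 _ _

lemma sn5_key {d J I A ρ B : ℝ} (hI : 1 ≤ I) (hd : 72 * I ≤ d) (hJ : 3 * J ≤ 2 * d)
    (hBI : B * I ≤ J + 3 * I) (hA : A ≤ I * ρ) (hρ0 : 0 ≤ ρ) (hB0 : 0 ≤ B) :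
    A * (d / (24 * I) + B) ≤ 3 / 4 * (ρ * d) := by
  have hI0 : 0 < I := by linarith only [hI]
  have hd0 : 0 ≤ d := by linarith only [hI, hd]
  have h1 : A * (d / (24 * I) + B) ≤ I * ρ * (d / (24 * I) + B) :=
    mul_le_mul_of_nonneg_right hA (by (clear * - hd0 hI hB0; positivity))
  have h2 : I * ρ * (d / (24 * I) + B) = ρ * (d / 24 + B * I) := by
    field_simp
  have h3 : ρ * (d / 24 + B * I) ≤ ρ * (3 / 4 * d) :=
    mul_le_mul_of_nonneg_left (by linarith) hρ0
  linarith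

/-- Task N5: exponents. -/
theorem term_bound1 {d b B J I A ρ Λ : ℕ} (hI : 1 ≤ I) (hd : 72 * I ≤ d) (hdb : d ≤ b)
    (hJ : 3 * J ≤ 2 * d) (hB : 2 * B + d ≤ b) (hBI : B * I ≤ J + 3 * I) (hA : A ≤ I * ρ)
    (hρ : ρ ≤ A) (hAΛ : A ≤ Λ) {E : ℝ} (hE0 : 0 ≤ E)
    (hE : E ≤ (2 : ℝ) ^ ((1 / (24 * (I : ℝ))) * d)) :
    E ^ A * (2 : ℝ) ^ ((d : ℝ) * ((Λ : ℝ) - A)) * (2 : ℝ) ^ (((A : ℝ) - Λ - ρ) * b) *
      (2 : ℝ) ^ (((I : ℝ) + Λ) * B) ≤
      (2 : ℝ) ^ ((I : ℝ) * B) *
        (2 : ℝ) ^ (-((Λ - A : ℕ) : ℝ) * ((b : ℝ) - d) / 2 - (ρ : ℝ) * d / 8) := by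
  have hI' : (1 : ℝ) ≤ I := by exact_mod_cast hI
  have hd' : (72 : ℝ) * I ≤ d := by exact_mod_cast hd
  have hdb' : (d : ℝ) ≤ b := by exact_mod_cast hdb
  have hJ' : (3 : ℝ) * J ≤ 2 * d := by exact_mod_cast hJ
  have hB' : (2 : ℝ) * B + d ≤ b := by exact_mod_cast hB
  have hBI' : (B : ℝ) * I ≤ J + 3 * I := by exact_mod_cast hBI
  have hA' : (A : ℝ) ≤ I * ρ := by exact_mod_cast hA
  have hAΛ' : (A : ℝ) ≤ Λ := by exact_mod_cast hAΛ
  have hkey := sn5_key hI' hd' hJ' hBI' hA' (Nat.cast_nonneg ρ) (Nat.cast_nonneg B)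
  refine sn5_comb hE0 hE ?_
  rw [Nat.cast_sub hAΛ]
  have h0 : 1 / (24 * (I : ℝ)) * d * A = A * (d / (24 * I)) := by ring
  rw [h0]
  have h1 : ((Λ : ℝ) - A) * (B - (b - d) / 2) ≤ 0 :=
    mul_nonpos_of_nonneg_of_nonpos (by linarith only [hAΛ']) (by linarith only [hB'])
  have h2 : (ρ : ℝ) * d ≤ ρ * b := mul_le_mul_of_nonneg_left hdb' (Nat.cast_nonneg _)
  have h3 : (0 : ℝ) ≤ ρ * d := by (clear * -; positivity)
  linarith

/-- Task N5: exponents. -/
theorem term_bound2 {d b B J I A ρ Λ : ℕ} (hI : 1 ≤ I) (hd : 72 * I ≤ d) (hdb : d ≤ b)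
    (hb : b ≤ 4 * d)
    (hJ : 3 * J ≤ 2 * d) (hB : 2 * B + d ≤ b) (hBI : B * I ≤ J + 3 * I) (hA : A ≤ I * ρ)
    (hρ : ρ ≤ A) (hAΛ : A ≤ Λ + I) (hρI : 60 * I ≤ ρ) {E : ℝ} (hE0 : 0 ≤ E)
    (hE : E ≤ (2 : ℝ) ^ ((1 / (24 * (I : ℝ))) * d)) :
    E ^ A * (2 : ℝ) ^ ((d : ℝ) * ((Λ : ℝ) + I - A)) * (2 : ℝ) ^ (((A : ℝ) - Λ - ρ) * b) *
      (2 : ℝ) ^ (((I : ℝ) + Λ) * B) ≤
      (2 : ℝ) ^ ((I : ℝ) * B) *
        (2 : ℝ) ^ (-((Λ - A : ℕ) : ℝ) * ((b : ℝ) - d) / 2 - (ρ : ℝ) * d / 8) := by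
  have hI' : (1 : ℝ) ≤ I := by exact_mod_cast hI
  have hd' : (72 : ℝ) * I ≤ d := by exact_mod_cast hd
  have hdb' : (d : ℝ) ≤ b := by exact_mod_cast hdb
  have hb' : (b : ℝ) ≤ 4 * d := by exact_mod_cast hb
  have hJ' : (3 : ℝ) * J ≤ 2 * d := by exact_mod_cast hJ
  have hB' : (2 : ℝ) * B + d ≤ b := by exact_mod_cast hB
  have hBI' : (B : ℝ) * I ≤ J + 3 * I := by exact_mod_cast hBI
  have hA' : (A : ℝ) ≤ I * ρ := by exact_mod_cast hA
  have hAΛ' : (A : ℝ) ≤ Λ + I := by exact_mod_cast hAΛ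
  have hρI' : (60 : ℝ) * I ≤ ρ := by exact_mod_cast hρI
  have hkey := sn5_key hI' hd' hJ' hBI' hA' (Nat.cast_nonneg ρ) (Nat.cast_nonneg B)
  have hd0 : (0 : ℝ) ≤ d := Nat.cast_nonneg _
  have hdI : (60 : ℝ) * (I * d) ≤ ρ * d := by
    have := mul_le_mul_of_nonneg_right hρI' hd0
    linarith only [this]
  have h2 : (ρ : ℝ) * d ≤ ρ * b := mul_le_mul_of_nonneg_left hdb' (Nat.cast_nonneg _)
  have hId : (0 : ℝ) ≤ I * d := by (clear * - hI; positivity)
  refine sn5_comb hE0 hE ?_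
  have h0 : 1 / (24 * (I : ℝ)) * d * A = A * (d / (24 * I)) := by ring
  rw [h0]
  rcases le_or_gt A Λ with hc | hc
  · have hc' : (A : ℝ) ≤ Λ := by exact_mod_cast hc
    rw [Nat.cast_sub hc]
    have h1 : ((Λ : ℝ) - A) * (B - (b - d) / 2) ≤ 0 :=
      mul_nonpos_of_nonneg_of_nonpos (by linarith only [hc']) (by linarith only [hB'])
    linarith
  · have hc' : (Λ : ℝ) ≤ A := by exact_mod_cast hc.le
    have h4 : ((Λ - A : ℕ) : ℝ) = 0 := by
      rw [Nat.sub_eq_zero_of_le hc.le]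
      simp
    rw [h4]
    have h5 : ((A : ℝ) - Λ) * (b - d) ≤ I * (b - d) :=
      mul_le_mul_of_nonneg_right (by linarith only [hAΛ']) (by linarith only [hdb'])
    have h6 : (I : ℝ) * b ≤ I * (4 * d) := mul_le_mul_of_nonneg_left hb' (by linarith only [])
    have h7 : (Λ : ℝ) * B ≤ A * B := mul_le_mul_of_nonneg_right hc' (Nat.cast_nonneg _)
    linarith

end Vale.Agent.P160
end
end

section

section

namespace Vale.Agent.P160

open Finset

section sm2

variable {N : ℕ} [NeZero N]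

private lemma sm2_ee_neg (x : ZMod N) : ee (-x) = (starRingEnd ℂ) (ee x) := by
  have h1 : ee (-x) * ee x = 1 := by rw [← ee_add]; simp only [neg_add_cancel, ee_zero]
  have h2 : (starRingEnd ℂ) (ee x) * ee x = 1 := by
    rw [← Complex.normSq_eq_conj_mul_self, Complex.normSq_eq_norm_sq, norm_ee]; simp
  have h3 : ee x ≠ 0 := by
    intro h
    have := norm_ee x
    rw [h] at this
    simp at this
  exact mul_right_cancel₀ h3 (h1.trans h2.symm)

/-- The signs: the first half plus, the second half minus. -/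
private def sm2_sg (t : ℕ) : Fin t ⊕ Fin t → ℤ := Sum.elim (fun _ => 1) (fun _ => -1)

private lemma sm2_expand {β : Type*} [DecidableEq β] (B : Finset β) (g : β → ZMod N) (t : ℕ) :
    ((‖∑ b ∈ B, ee (g b)‖ ^ (2 * t) : ℝ) : ℂ) =
      ∑ b ∈ Fintype.piFinset (fun _ : Fin t ⊕ Fin t => B),
        ee (∑ i, (sm2_sg t i : ZMod N) * g (b i)) := by
  have h := Finset.prod_univ_sum (fun _ : Fin t ⊕ Fin t => B)
    (fun i b => ee ((sm2_sg t i : ZMod N) * g b))
  have h2 : ∀ b : Fin t ⊕ Fin t → β, ee (∑ i, (sm2_sg t i : ZMod N) * g (b i)) =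
      ∏ i, ee ((sm2_sg t i : ZMod N) * g (b i)) := fun b => ee_sum _ _
  simp only [h2]
  rw [← h, Fintype.prod_sum_type]
  simp only [sm2_sg, Sum.elim_inl, Int.cast_one, one_mul, prod_const, card_univ, Fintype.card_fin, Sum.elim_inr, Int.cast_neg, neg_mul, sm2_ee_neg]
  rw [← map_sum, pow_mul, ← mul_pow, Complex.mul_conj, Complex.normSq_eq_norm_sq]
  push_cast
  rfl

/-- Power mean. -/
private lemma sm2_pow {α : Type*} (A : Finset α) (f : α → ℂ) (t : ℕ) (ht : 1 ≤ t) :
    ‖∑ a ∈ A, f a‖ ^ (2 * t) ≤ (A.card : ℝ) ^ (2 * t - 1) * ∑ a ∈ A, ‖f a‖ ^ (2 * t) := by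
  obtain ⟨k, hk⟩ : ∃ k, 2 * t = k + 1 := ⟨2 * t - 1, by omega⟩
  rw [hk, Nat.add_sub_cancel]
  calc ‖∑ a ∈ A, f a‖ ^ (k + 1) ≤ (∑ a ∈ A, ‖f a‖) ^ (k + 1) :=
        pow_le_pow_left₀ (norm_nonneg _) (norm_sum_le _ _) _
    _ ≤ _ := pow_sum_le_card_mul_sum_pow (fun i _ => norm_nonneg _) k

/-- Power mean and expansion. -/
private lemma sm2_step {α β : Type*} [DecidableEq β] (A : Finset α) (B : Finset β)
    (g : α → β → ZMod N) (t : ℕ) (ht : 1 ≤ t) :
    ‖∑ a ∈ A, ∑ b ∈ B, ee (g a b)‖ ^ (2 * t) ≤ (A.card : ℝ) ^ (2 * t - 1) *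
      ‖∑ b ∈ Fintype.piFinset (fun _ : Fin t ⊕ Fin t => B), ∑ a ∈ A,
        ee (∑ i, (sm2_sg t i : ZMod N) * g a (b i))‖ := by
  refine (sm2_pow A (fun a => ∑ b ∈ B, ee (g a b)) t ht).trans (le_of_eq ?_)
  congr 1
  rw [sum_comm]
  simp only [← sm2_expand]
  rw [← Complex.ofReal_sum, Complex.norm_real, Real.norm_eq_abs, abs_of_nonneg]
  exact sum_nonneg fun i _ => pow_nonneg (norm_nonneg _) _

variable {r : ℕ}

private lemma sm2_orth (c : ZMod N) (hc : IsUnit c) (v : Fin r → ZMod N) :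
    ∑ l : Fin r → ZMod N, ee (c * ∑ j, l j * v j) = if v = 0 then (N : ℂ) ^ r else 0 := by
  have h1 : ∀ l : Fin r → ZMod N, ee (c * ∑ j, l j * v j) = ∏ j, ee (l j * (c * v j)) := by
    intro l
    rw [← ee_sum]
    congr 1
    rw [mul_sum]
    exact sum_congr rfl fun j _ => by ring
  have h2 := Finset.prod_univ_sum (fun _ : Fin r => (univ : Finset (ZMod N)))
    (fun j x => ee (x * (c * v j)))
  rw [Fintype.piFinset_univ] at h2
  simp only [h1]
  rw [← h2]
  simp only [sum_ee_mul]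
  split_ifs with hv
  · subst hv
    simp only [Pi.zero_apply, mul_zero, ↓reduceIte, prod_const, card_univ, Fintype.card_fin]
  · obtain ⟨j, hj⟩ : ∃ j, v j ≠ 0 := by
      by_contra hcon
      push Not at hcon
      exact hv (funext hcon)
    refine prod_eq_zero (mem_univ j) ?_
    rw [if_neg]
    intro h
    exact hj ((hc.mul_right_eq_zero).1 h)

private lemma sm2_parseval {β : Type*} (B : Finset β) (f : β → (Fin r → ZMod N))
    (c : ZMod N) (hc : IsUnit c) :
    ∑ l : Fin r → ZMod N, ‖∑ b ∈ B, ee (c * ∑ j, l j * f b j)‖ ^ 2 =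
      (N : ℝ) ^ r * (((B ×ˢ B).filter (fun x => f x.1 = f x.2)).card : ℝ) := by
  classical
  have h : ((∑ l : Fin r → ZMod N, ‖∑ b ∈ B, ee (c * ∑ j, l j * f b j)‖ ^ 2 : ℝ) : ℂ) =
      (((N : ℝ) ^ r * (((B ×ˢ B).filter (fun x => f x.1 = f x.2)).card : ℝ) : ℝ) : ℂ) := by
    have h1 : ∀ l : Fin r → ZMod N, ((‖∑ b ∈ B, ee (c * ∑ j, l j * f b j)‖ ^ 2 : ℝ) : ℂ) =
        ∑ x ∈ B ×ˢ B, ee (c * ∑ j, l j * (f x.1 - f x.2) j) := by
      intro l
      rw [← Complex.normSq_eq_norm_sq, ← Complex.mul_conj, map_sum, sum_mul_sum, sum_product]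
      refine sum_congr rfl fun a _ => sum_congr rfl fun b _ => ?_
      rw [← sm2_ee_neg, ← ee_add]
      congr 1
      simp only [Pi.sub_apply, mul_sub, sum_sub_distrib]
      ring
    rw [Complex.ofReal_sum]
    simp only [h1]
    rw [sum_comm]
    simp only [sm2_orth c hc, sub_eq_zero]
    rw [← sum_filter, sum_const, nsmul_eq_mul]
    push_cast
    ring
  exact_mod_cast h

private lemma sm2_cs {α β : Type*} (A : Finset α) (B : Finset β)
    (g : α → (Fin r → ZMod N)) (f : β → (Fin r → ZMod N)) (c : ZMod N) (hc : IsUnit c) :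
    ‖∑ a ∈ A, ∑ b ∈ B, ee (c * ∑ j, g a j * f b j)‖ ^ 2 ≤
      (((A ×ˢ A).filter (fun x => g x.1 = g x.2)).card : ℝ) *
      ((N : ℝ) ^ r * (((B ×ˢ B).filter (fun x => f x.1 = f x.2)).card : ℝ)) := by
  classical
  rw [← sm2_parseval B f c hc]
  set F : (Fin r → ZMod N) → ℂ := fun l => ∑ b ∈ B, ee (c * ∑ j, l j * f b j) with hF
  have h1 : ∑ a ∈ A, ∑ b ∈ B, ee (c * ∑ j, g a j * f b j) =
      ∑ l : Fin r → ZMod N, ((A.filter (fun a => g a = l)).card : ℂ) * F l := by
    rw [← Finset.sum_fiberwise (s := A) (g := g)]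
    refine sum_congr rfl fun l _ => ?_
    rw [← nsmul_eq_mul, ← sum_const]
    refine sum_congr rfl fun a ha => ?_
    rw [(mem_filter.1 ha).2]
  have h2 : (((A ×ˢ A).filter (fun x => g x.1 = g x.2)).card : ℝ) =
      ∑ l : Fin r → ZMod N, ((A.filter (fun a => g a = l)).card : ℝ) ^ 2 := by
    rw [card_eq_sum_card_fiberwise (f := fun x => g x.1) (t := univ)
      (fun x _ => by simp)]
    push_cast
    refine sum_congr rfl fun l _ => ?_
    rw [sq, ← Nat.cast_mul, ← card_product]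
    congr 2
    ext x
    simp only [mem_filter, mem_product]
    constructor
    · rintro ⟨⟨⟨h1, h2⟩, h3⟩, h4⟩
      exact ⟨⟨h1, h4⟩, h2, h3 ▸ h4⟩
    · rintro ⟨⟨h1, h4⟩, h2, h3⟩
      exact ⟨⟨⟨h1, h2⟩, h4.trans h3.symm⟩, h4⟩
  rw [h1, h2]
  calc ‖∑ l : Fin r → ZMod N, ((A.filter (fun a => g a = l)).card : ℂ) * F l‖ ^ 2
      ≤ (∑ l : Fin r → ZMod N, ((A.filter (fun a => g a = l)).card : ℝ) * ‖F l‖) ^ 2 := by
        refine pow_le_pow_left₀ (norm_nonneg _) ?_ 2
        refine (norm_sum_le _ _).trans (le_of_eq (sum_congr rfl fun l _ => ?_))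
        rw [norm_mul, Complex.norm_natCast]
    _ ≤ _ := sum_mul_sq_le_sq_mul_sq _ _ _

end sm2

section count

private lemma sm2_count (κ' r t : ℕ) (X : Finset (Fin r → Fin 4))
    (hT : ∀ σ : Fin (4 * t) → ℤ, (∀ i, σ i = 1 ∨ σ i = -1) →
      ((univ.filter (fun ω : Fin (4 * t) → (Fin r → Fin 4) => (∀ i, ω i ∈ X) ∧
      ∀ j, ∑ i, ((σ i * st (ω i j) : ℤ) : ZMod (2 ^ κ')) = 0)).card : ℝ) ≤
      2 ^ ((κ' + 1) * r) * (X.card : ℝ) ^ (4 * t - κ')) :
    ((((Fintype.piFinset (fun _ : Fin t ⊕ Fin t => X)) ×ˢ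
      (Fintype.piFinset (fun _ : Fin t ⊕ Fin t => X))).filter
      (fun x => (fun j => ∑ i, (sm2_sg t i : ZMod (2 ^ κ')) * ((st (x.1 i j) : ℤ) : ZMod (2 ^ κ'))) =
        (fun j => ∑ i, (sm2_sg t i : ZMod (2 ^ κ')) *
          ((st (x.2 i j) : ℤ) : ZMod (2 ^ κ'))))).card : ℝ) ≤
      2 ^ ((κ' + 1) * r) * (X.card : ℝ) ^ (4 * t - κ') := by
  classical
  have hcard : Fintype.card ((Fin t ⊕ Fin t) ⊕ (Fin t ⊕ Fin t)) = 4 * t := by
    simp only [Fintype.card_sum, Fintype.card_fin]; ring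
  let e : (Fin t ⊕ Fin t) ⊕ (Fin t ⊕ Fin t) ≃ Fin (4 * t) := Fintype.equivFinOfCardEq hcard
  let σ : Fin (4 * t) → ℤ := fun i => Sum.elim (sm2_sg t) (fun i => - sm2_sg t i) (e.symm i)
  have hσ : ∀ i, σ i = 1 ∨ σ i = -1 := by
    intro i
    simp only [σ]
    rcases e.symm i with (a | a) | (a | a) <;> simp [sm2_sg]
  refine le_trans ?_ (hT σ hσ)
  rw [Nat.cast_le]
  refine card_le_card_of_injOn
    (fun x i => Sum.elim x.1 x.2 (e.symm i)) ?_ ?_
  · intro x hx
    simp only [coe_filter, mem_product, Fintype.mem_piFinset, Set.mem_ofPred_eq] at hx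
    simp only [coe_filter, mem_univ, true_and, Set.mem_ofPred_eq]
    obtain ⟨⟨h1, h2⟩, h3⟩ := hx
    constructor
    · intro i
      rcases e.symm i with a | a
      · exact h1 a
      · exact h2 a
    · intro j
      have h4 := congrFun h3 j
      rw [← e.sum_comp]
      simp only [σ, Equiv.symm_apply_apply, Fintype.sum_sum_type, Sum.elim_inl, Sum.elim_inr]
      rw [Fintype.sum_sum_type, Fintype.sum_sum_type] at h4
      push_cast
      simp only [neg_mul, sum_neg_distrib]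
      linear_combination h4
  · intro x _ y _ hxy
    have h : ∀ s, Sum.elim x.1 x.2 s = Sum.elim y.1 y.2 s := by
      intro s
      have := congrFun hxy (e s)
      simpa using this
    refine Prod.ext ?_ ?_
    · funext a
      exact h (Sum.inl a)
    · funext a
      exact h (Sum.inr a)

end count

private lemma sm2_final (κ' r t : ℕ) (ht1 : 1 ≤ t) (hκ1 : 1 ≤ κ')
    (hκ : κ' ≤ 4 * t) (x d b : ℝ) (hx0 : 0 ≤ x)
    (hd0 : 0 ≤ d) (hb : 0 ≤ b) (S S1 S2 : ℝ) (hS0 : 0 ≤ S) (hS10 : 0 ≤ S1) (_ : 0 ≤ S2)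
    (hS : b * (x * d) ≤ S) (hs1 : S ^ (2 * t) ≤ d ^ (2 * t - 1) * S1)
    (hs2 : S1 ^ (2 * t) ≤ (x ^ (2 * t)) ^ (2 * t - 1) * S2)
    (hs3 : S2 ^ 2 ≤ (2 ^ ((κ' + 1) * r) * d ^ (4 * t - κ')) *
        ((2 ^ κ') ^ r * (2 ^ ((κ' + 1) * r) * x ^ (4 * t - κ')))) :
    b ^ (8 * t ^ 2) * (x * d) ^ κ' ≤ 2 ^ ((3 * κ' + 2) * r) := by
  have hS2 : S2 ^ 2 ≤ 2 ^ ((3 * κ' + 2) * r) * (x * d) ^ (4 * t - κ') := by
    refine hs3.trans (le_of_eq ?_)
    rw [mul_pow, ← pow_mul, show (3 * κ' + 2) * r =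
      (κ' + 1) * r + κ' * r + (κ' + 1) * r by ring, pow_add, pow_add]
    ring
  have e1 : (b * (x * d)) ^ (8 * t ^ 2) ≤ ((S ^ (2 * t)) ^ (2 * t)) ^ 2 := by
    have : ((S ^ (2 * t)) ^ (2 * t)) ^ 2 = S ^ (8 * t ^ 2) := by
      rw [← pow_mul, ← pow_mul]
      congr 1
      ring
    rw [this]
    exact pow_le_pow_left₀ (by (clear * - hb hx0 hd0; positivity)) hS _
  have e2 : ((S ^ (2 * t)) ^ (2 * t)) ^ 2 ≤ (d ^ ((2 * t - 1) * (2 * t)) * S1 ^ (2 * t)) ^ 2 := by
    have : d ^ ((2 * t - 1) * (2 * t)) * S1 ^ (2 * t) = (d ^ (2 * t - 1) * S1) ^ (2 * t) := by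
      rw [mul_pow, ← pow_mul]
    rw [this]
    exact pow_le_pow_left₀ (by (clear * - hS0; positivity)) (pow_le_pow_left₀ (by positivity) hs1 _) _
  have e3 : (d ^ ((2 * t - 1) * (2 * t)) * S1 ^ (2 * t)) ^ 2 ≤
      (d ^ ((2 * t - 1) * (2 * t)) * ((x ^ (2 * t)) ^ (2 * t - 1) * S2)) ^ 2 :=
    pow_le_pow_left₀ (by (clear * - hd0 hS10; positivity)) (mul_le_mul_of_nonneg_left hs2 (by positivity)) _
  have e4 : (d ^ ((2 * t - 1) * (2 * t)) * ((x ^ (2 * t)) ^ (2 * t - 1) * S2)) ^ 2 =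
      (x * d) ^ (2 * ((2 * t - 1) * (2 * t))) * S2 ^ 2 := by
    rw [← pow_mul x, mul_pow x d, mul_pow, mul_pow, ← pow_mul, ← pow_mul]
    rw [show (2 * t - 1) * (2 * t) * 2 = 2 * ((2 * t - 1) * (2 * t)) by ring,
      show 2 * t * (2 * t - 1) * 2 = 2 * ((2 * t - 1) * (2 * t)) by ring]
    ring
  have h5 : 8 * t ^ 2 - κ' = 2 * ((2 * t - 1) * (2 * t)) + (4 * t - κ') := by
    obtain ⟨s, rfl⟩ : ∃ s, t = s + 1 := ⟨t - 1, by omega⟩
    have : 2 * (s + 1) - 1 = 2 * s + 1 := by omega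
    rw [this]
    have h6 : 8 * (s + 1) ^ 2 = 2 * ((2 * s + 1) * (2 * (s + 1))) + 4 * (s + 1) := by ring
    omega
  have hkey : (b * (x * d)) ^ (8 * t ^ 2) ≤
      2 ^ ((3 * κ' + 2) * r) * (x * d) ^ (8 * t ^ 2 - κ') := by
    have hxd : 0 ≤ (x * d) ^ (2 * ((2 * t - 1) * (2 * t))) := by (clear * - hx0 hd0; positivity)
    refine e1.trans (e2.trans (e3.trans (e4.le.trans
      ((mul_le_mul_of_nonneg_left hS2 hxd).trans (le_of_eq ?_)))))
    rw [h5, pow_add]
    ring
  have hle : κ' ≤ 8 * t ^ 2 := by nlinarith only [hκ]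
  rcases eq_or_lt_of_le (mul_nonneg hx0 hd0) with h0 | h0
  · rw [← h0, zero_pow (by omega), mul_zero]
    positivity
  · have h7 : (b * (x * d)) ^ (8 * t ^ 2) =
        (b ^ (8 * t ^ 2) * (x * d) ^ κ') * (x * d) ^ (8 * t ^ 2 - κ') := by
      rw [mul_pow, mul_assoc, ← pow_add]
      congr 2
      omega
    rw [h7] at hkey
    exact le_of_mul_le_mul_right hkey (pow_pos h0 _)

/-- Task M2: the two source lemma. -/
theorem two_source (κ : ℕ) : ∃ t : ℕ, 1 ≤ t ∧ ∀ κ', 1 ≤ κ' → κ' ≤ κ → ∀ (r : ℕ)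
    (P : Matrix (Fin r) (Fin r) (ZMod (2 ^ κ'))) (X D : Finset (Fin r → Fin 4))
    (y lam : (Fin r → Fin 4) → (Fin r → ZMod (2 ^ κ'))) (c : ZMod (2 ^ κ')),
    IsUnit c →
    (∀ q ∈ X, P.mulVec (y q) = fun j => ((st (q j) : ℤ) : ZMod (2 ^ κ'))) →
    (∀ ρ ∈ D, P.transpose.mulVec (lam ρ) = fun j => ((st (ρ j) : ℤ) : ZMod (2 ^ κ'))) →
    ∀ b : ℝ, 0 ≤ b →
    b * (X.card * D.card) ≤ ‖∑ ρ ∈ D, ∑ q ∈ X,
      ee (c * ∑ j, lam ρ j * ((st (q j) : ℤ) : ZMod (2 ^ κ')))‖ →
    b ^ (8 * t ^ 2) * ((X.card : ℝ) * D.card) ^ κ' ≤ 2 ^ ((3 * κ' + 2) * r) := by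
  classical
  obtain ⟨t, ht0, ht⟩ := mult_count κ
  have ht1 : 1 ≤ t := by omega
  refine ⟨t, ht1, ?_⟩
  intro κ' hκ1 hκ r P X D y lam c hc hy hlam b hb hS
  have hX := sm2_count κ' r t X (fun σ hσ => ht t le_rfl κ' hκ r σ hσ X)
  have hD := sm2_count κ' r t D (fun σ hσ => ht t le_rfl κ' hκ r σ hσ D)
  set XX := Fintype.piFinset (fun _ : Fin t ⊕ Fin t => X) with hXX
  set DD := Fintype.piFinset (fun _ : Fin t ⊕ Fin t => D) with hDD
  let u : (Fin t ⊕ Fin t → Fin r → Fin 4) → Fin r → ZMod (2 ^ κ') := fun q j =>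
    ∑ i, (sm2_sg t i : ZMod (2 ^ κ')) * ((st (q i j) : ℤ) : ZMod (2 ^ κ'))
  let l2 : (Fin t ⊕ Fin t → Fin r → Fin 4) → Fin r → ZMod (2 ^ κ') := fun ρ j =>
    ∑ i, (sm2_sg t i : ZMod (2 ^ κ')) * lam (ρ i) j
  let y2 : (Fin t ⊕ Fin t → Fin r → Fin 4) → Fin r → ZMod (2 ^ κ') := fun q j =>
    ∑ i, (sm2_sg t i : ZMod (2 ^ κ')) * y (q i) j
  have hpair : ∀ ρ ∈ D, ∀ q ∈ X, ∑ j, lam ρ j * ((st (q j) : ℤ) : ZMod (2 ^ κ')) =
      ∑ j, ((st (ρ j) : ℤ) : ZMod (2 ^ κ')) * y q j := by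
    intro ρ hρ q hq
    have h1 := Matrix.dotProduct_mulVec (lam ρ) P (y q)
    rw [← Matrix.mulVec_transpose, hy q hq, hlam ρ hρ] at h1
    exact h1
  have hpair2 : ∀ ρ ∈ D, ∀ q ∈ XX, ∑ j, lam ρ j * u q j =
      ∑ j, ((st (ρ j) : ℤ) : ZMod (2 ^ κ')) * y2 q j := by
    intro ρ hρ q hq
    have hq' : ∀ i, q i ∈ X := Fintype.mem_piFinset.1 hq
    calc ∑ j, lam ρ j * u q j
        = ∑ i, (sm2_sg t i : ZMod (2 ^ κ')) *
            ∑ j, lam ρ j * ((st (q i j) : ℤ) : ZMod (2 ^ κ')) := by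
          simp only [u, mul_sum]
          rw [sum_comm]
          exact sum_congr rfl fun i _ => sum_congr rfl fun j _ => by ring
      _ = ∑ i, (sm2_sg t i : ZMod (2 ^ κ')) *
            ∑ j, ((st (ρ j) : ℤ) : ZMod (2 ^ κ')) * y (q i) j :=
          sum_congr rfl fun i _ => by rw [hpair ρ hρ (q i) (hq' i)]
      _ = ∑ j, ((st (ρ j) : ℤ) : ZMod (2 ^ κ')) * y2 q j := by
          simp only [y2, mul_sum]
          rw [sum_comm]
          exact sum_congr rfl fun j _ => sum_congr rfl fun i _ => by ring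
  have hs1 := sm2_step D X
    (fun ρ q => c * ∑ j, lam ρ j * ((st (q j) : ℤ) : ZMod (2 ^ κ'))) t ht1
  have hr1 : ∑ q ∈ XX, ∑ ρ ∈ D, ee (∑ i, (sm2_sg t i : ZMod (2 ^ κ')) *
      (c * ∑ j, lam ρ j * ((st (q i j) : ℤ) : ZMod (2 ^ κ')))) =
      ∑ q ∈ XX, ∑ ρ ∈ D, ee (c * ∑ j, ((st (ρ j) : ℤ) : ZMod (2 ^ κ')) * y2 q j) := by
    refine sum_congr rfl fun q hq => sum_congr rfl fun ρ hρ => ?_
    rw [← hpair2 ρ hρ q hq]
    congr 1
    simp only [u, mul_sum]
    rw [sum_comm]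
    exact sum_congr rfl fun i _ => sum_congr rfl fun j _ => by ring
  have hs2 := sm2_step XX D
    (fun q ρ => c * ∑ j, ((st (ρ j) : ℤ) : ZMod (2 ^ κ')) * y2 q j) t ht1
  have hr2 : ∑ ρ ∈ DD, ∑ q ∈ XX, ee (∑ i, (sm2_sg t i : ZMod (2 ^ κ')) *
      (c * ∑ j, ((st (ρ i j) : ℤ) : ZMod (2 ^ κ')) * y2 q j)) =
      ∑ ρ ∈ DD, ∑ q ∈ XX, ee (c * ∑ j, l2 ρ j * u q j) := by
    refine sum_congr rfl fun ρ hρ => sum_congr rfl fun q hq => ?_
    have hρ' : ∀ i, ρ i ∈ D := Fintype.mem_piFinset.1 hρ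
    congr 1
    calc ∑ i, (sm2_sg t i : ZMod (2 ^ κ')) *
          (c * ∑ j, ((st (ρ i j) : ℤ) : ZMod (2 ^ κ')) * y2 q j)
        = ∑ i, (sm2_sg t i : ZMod (2 ^ κ')) * (c * ∑ j, lam (ρ i) j * u q j) :=
          sum_congr rfl fun i _ => by rw [hpair2 (ρ i) (hρ' i) q hq]
      _ = c * ∑ j, l2 ρ j * u q j := by
          simp only [mul_sum, sum_mul, l2]
          rw [sum_comm]
          exact sum_congr rfl fun j _ => sum_congr rfl fun i _ => by ring
  rw [← hXX, hr1] at hs1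
  rw [← hDD, hr2] at hs2
  have hs3 := sm2_cs DD XX l2 u c hc
  have hcD : ((((DD ×ˢ DD).filter (fun x => l2 x.1 = l2 x.2)).card : ℕ) : ℝ) ≤
      2 ^ ((κ' + 1) * r) * (D.card : ℝ) ^ (4 * t - κ') := by
    refine le_trans ?_ hD
    rw [Nat.cast_le]
    refine card_le_card ?_
    intro x hx
    rw [mem_filter] at hx ⊢
    refine ⟨hx.1, ?_⟩
    have hP : ∀ ρ ∈ DD, P.transpose.mulVec (l2 ρ) =
        fun j => ∑ i, (sm2_sg t i : ZMod (2 ^ κ')) * ((st (ρ i j) : ℤ) : ZMod (2 ^ κ')) := by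
      intro ρ hρ
      have hρ' : ∀ i, ρ i ∈ D := Fintype.mem_piFinset.1 hρ
      funext j
      have h1 : ∀ i, ∑ k, P.transpose j k * lam (ρ i) k =
          ((st (ρ i j) : ℤ) : ZMod (2 ^ κ')) := fun i => congrFun (hlam (ρ i) (hρ' i)) j
      calc P.transpose.mulVec (l2 ρ) j = ∑ k, P.transpose j k * l2 ρ k := rfl
        _ = ∑ i, (sm2_sg t i : ZMod (2 ^ κ')) * ∑ k, P.transpose j k * lam (ρ i) k := by
          simp only [l2, mul_sum]
          rw [sum_comm]
          exact sum_congr rfl fun k _ => sum_congr rfl fun i _ => by ring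
        _ = _ := sum_congr rfl fun i _ => by rw [h1 i]
    have h2 := hx.1
    rw [mem_product] at h2
    rw [← hP _ h2.1, ← hP _ h2.2, hx.2]
  have hcX : ((((XX ×ˢ XX).filter (fun x => u x.1 = u x.2)).card : ℕ) : ℝ) ≤
      2 ^ ((κ' + 1) * r) * (X.card : ℝ) ^ (4 * t - κ') := hX
  have hXc : (XX.card : ℝ) = (X.card : ℝ) ^ (2 * t) := by
    rw [hXX, Fintype.card_piFinset, prod_const, card_univ, Fintype.card_sum, Fintype.card_fin]
    push_cast
    congr 1
    ring
  rw [hXc] at hs2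
  have hm : (((2 ^ κ' : ℕ) : ℝ)) = 2 ^ κ' := by push_cast; rfl
  rw [hm] at hs3
  refine sm2_final κ' r t ht1 hκ1 (by omega) _ _ b (Nat.cast_nonneg _) (Nat.cast_nonneg _) hb _ _ _
    (norm_nonneg _) (norm_nonneg _) (norm_nonneg _) hS hs1 hs2 (hs3.trans ?_)
  have h9 : (0 : ℝ) ≤ (2 ^ κ') ^ r := by positivity
  have h10 := mul_le_mul hcD (mul_le_mul_of_nonneg_left hcX h9)
    (mul_nonneg h9 (Nat.cast_nonneg _)) (by (clear * -; positivity))
  exact h10

end Vale.Agent.P160
end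
end
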