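import Mathlib.Analysis.SpecialFunctions.Trigonometric.Bounds
import Mathlib.Analysis.SpecialFunctions.Log.Base
import Vale.Agent.P160.Bdl.B1
import Vale.Agent.P160.MathlibUsed

set_option linter.all false

section

section
attribute [-instance] ProperSMul.toContinuousSMul IsTopologicalTorsor.toContinuousSMul IdemSemiring.toCanonicallyOrderedAdd IdemSemiring.toMulLeftMono IdemSemiring.toMulRightMono AddQuantale.instAddLeftMono AddQuantale.instAddRightMono Quantale.instMulLeftMono Quantale.instMulRightMono FiniteDimensional.rclike_to_real IsScalarTower.complexToReal FiniteDimensional.complexToReal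

set_option linter.unusedSectionVars false

namespace Vale.Agent.P160

open Finset

open Classical in
/-- Probability of an event for the random symmetric matrix. -/
noncomputable def Pb {n : ℕ} (A : (Sym2 (Fin n) → Bool) → Prop) : ℝ :=
  ((univ.filter A).card : ℝ) / (2 : ℝ) ^ Fintype.card (Sym2 (Fin n))

section events

variable {n : ℕ} (D : Finset (Fin n))

lemma Pb_mono {A B : (Sym2 (Fin n) → Bool) → Prop} (h : ∀ b, A b → B b) : Pb A ≤ Pb B := by
  classical
  unfold Pb
  rw [div_le_div_iff_of_pos_right (by positivity)]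
  exact_mod_cast Finset.card_le_card (Finset.monotone_filter_right _ fun b _ hb => h b hb)

lemma Pb_nonneg (A : (Sym2 (Fin n) → Bool) → Prop) : 0 ≤ Pb A := by
  unfold Pb; (clear * -; positivity)

lemma Pb_or (A B : (Sym2 (Fin n) → Bool) → Prop) : Pb (fun b => A b ∨ B b) ≤ Pb A + Pb B := by
  classical
  unfold Pb
  rw [← add_div, div_le_div_iff_of_pos_right (by positivity)]
  norm_cast
  refine (Finset.card_le_card ?_).trans (Finset.card_union_le (univ.filter A) (univ.filter B))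
  intro b hb
  simp only [mem_filter, mem_univ, true_and, mem_union] at hb ⊢
  exact hb

lemma Pb_eq_Spr {N : ℕ} [NeZero N] (v w : Fin n → ZMod N) :
    Pb (fun b => smul2 b v = w) = Spr v w := by
  classical
  unfold Pb Spr
  congr

/-- Union bound. -/
lemma Pb_exists {κ : Type*} (s : Finset κ) (A : κ → (Sym2 (Fin n) → Bool) → Prop) :
    Pb (fun b => ∃ k ∈ s, A k b) ≤ ∑ k ∈ s, Pb (A k) := by
  classical
  unfold Pb
  rw [← sum_div, div_le_div_iff_of_pos_right (by positivity)]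
  norm_cast
  refine (Finset.card_le_card ?_).trans
    (Finset.card_biUnion_le (s := s) (t := fun k => univ.filter (A k)))
  intro b hb
  simp only [mem_filter, mem_univ, true_and, mem_biUnion] at hb ⊢
  exact hb

/-- Integer Markov inequality. -/
lemma Pb_markov {κ : Type*} (s : Finset κ) (A : κ → (Sym2 (Fin n) → Bool) → Prop) (L : ℕ)
    (E : (Sym2 (Fin n) → Bool) → Prop)
    (h : ∀ b, E b → ∃ t : Finset κ, t ⊆ s ∧ L ≤ t.card ∧ ∀ k ∈ t, A k b) :
    L * Pb E ≤ ∑ k ∈ s, Pb (A k) := by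
  classical
  unfold Pb
  rw [← sum_div, mul_div_assoc', div_le_div_iff_of_pos_right (by positivity)]
  have h1 : ∀ k, (univ.filter (A k)).card = ∑ b : Sym2 (Fin n) → Bool, if A k b then 1 else 0 := by
    intro k
    rw [Finset.card_filter]
  have h2 : L * (univ.filter E).card ≤ ∑ k ∈ s, (univ.filter (A k)).card := by
    rw [sum_congr rfl fun k _ => h1 k, sum_comm, Finset.card_filter, mul_sum]
    refine sum_le_sum fun b _ => ?_
    split_ifs with hE
    · obtain ⟨t, hts, hLt, ht⟩ := h b hE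
      rw [mul_one, ← Finset.card_filter]
      refine hLt.trans (Finset.card_le_card ?_)
      intro k hk
      rw [mem_filter]
      exact ⟨hts hk, ht k hk⟩
    · simp only [mul_zero, sum_boole, Nat.cast_id, zero_le]
  exact_mod_cast h2

/-- The sparse event. -/
def Ev0 (u : ℕ) (b : Sym2 (Fin n) → Bool) : Prop :=
  ∃ (v : Fin n → ZMod 2) (c : ZMod 2), v ≠ 0 ∧ nu (fun j : {i // i ∈ D} => v j) < u ∧
    smul2 b v = fun _ => c

lemma isUnit_intCast_iff (a : ℤ) (j : ℕ) : IsUnit (a : ZMod (2 ^ (j + 1))) ↔ Odd a := by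
  rw [ZMod.coe_int_isUnit_iff_isCoprime]
  push_cast
  rw [IsCoprime.pow_left_iff (Nat.succ_pos j)]
  constructor
  · intro h
    rw [← Int.not_even_iff_odd]
    intro he
    have h2 := h.isUnit_of_dvd' (dvd_refl _) (even_iff_two_dvd.1 he)
    rw [Int.isUnit_iff] at h2
    omega
  · rintro ⟨k, rfl⟩
    exact ⟨-k, 1, by ring⟩

lemma nu_intCast {α : Type*} [Fintype α] (g : α → ℤ) (j : ℕ) :
    nu (fun i => (g i : ZMod (2 ^ (j + 1)))) = (univ.filter fun i => Odd (g i)).card := by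
  classical
  unfold nu
  congr 1
  ext i
  simp only [mem_filter, mem_univ, true_and]
  exact isUnit_intCast_iff (g i) j

end events

end Vale.Agent.P160
end
end

section

section

namespace Vale.Agent.P160

open Finset

section
variable {α : Type} [Fintype α] [DecidableEq α] {I : ℕ}

section sn4_general

variable {G : Type*} [AddCommGroup G] [Finite G]

private theorem sn4_lagr {M M' : AddSubgroup G} (h : M ≤ M') (hne : M ≠ M') :
    2 * Nat.card M ≤ Nat.card M' := by
  obtain ⟨c, hc⟩ := AddSubgroup.card_dvd_of_le h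
  have hpos : 0 < Nat.card M' := Nat.card_pos
  have hc0 : c ≠ 0 := by
    rintro rfl
    rw [hc] at hpos
    simp only [mul_zero, lt_self_iff_false] at hpos
  have hc1 : c ≠ 1 := by
    rintro rfl
    exact hne (AddSubgroup.eq_of_le_of_card_ge h (by rw [hc, mul_one]))
  have h2 : 2 ≤ c := by omega
  rw [hc, mul_comm]
  exact Nat.mul_le_mul_left _ h2

private theorem sn4_card_of {L L' : AddSubgroup G} (h : L ≤ L') :
    Nat.card (L.addSubgroupOf L') = Nat.card L :=
  Nat.card_congr (AddSubgroup.addSubgroupOfEquivOfLe h).toEquiv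

/-- in a subgroup of index two all doubles lie in the small group -/
private theorem sn4_double {L L' : AddSubgroup G} (h : L ≤ L')
    (hc : Nat.card L' = 2 * Nat.card L) {x : G} (hx : x ∈ L') : x + x ∈ L := by
  have hi : (L.addSubgroupOf L').index = 2 := by
    have h1 := AddSubgroup.card_mul_index (L.addSubgroupOf L')
    rw [sn4_card_of h, hc, mul_comm 2] at h1
    exact Nat.eq_of_mul_eq_mul_left Nat.card_pos h1
  have h2 := AddSubgroup.add_self_mem_of_index_two hi (⟨x, hx⟩ : L')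
  rw [AddSubgroup.mem_addSubgroupOf] at h2
  exact h2

private theorem sn4_sup_card (L : AddSubgroup G) {y : G} (hy : y ∉ L) (hyy : y + y ∈ L) :
    Nat.card (L ⊔ AddSubgroup.zmultiples y : AddSubgroup G) = 2 * Nat.card L := by
  set L' := L ⊔ AddSubgroup.zmultiples y with hL'
  have hle : L ≤ L' := le_sup_left
  have hyL' : y ∈ L' := (le_sup_right : AddSubgroup.zmultiples y ≤ L')
    (AddSubgroup.mem_zmultiples y)
  have hmem : ∀ b ∈ L', b ∈ L ∨ b + y ∈ L := by
    intro b hb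
    rw [hL', AddSubgroup.mem_sup] at hb
    obtain ⟨l, hl, z, hz, rfl⟩ := hb
    obtain ⟨n, rfl⟩ := AddSubgroup.mem_zmultiples_iff.1 hz
    rcases Int.even_or_odd n with ⟨m, rfl⟩ | ⟨m, rfl⟩
    · left
      have : (m + m) • y = m • (y + y) := by rw [add_smul, smul_add]
      rw [this]
      exact L.add_mem hl (L.zsmul_mem hyy m)
    · right
      have : l + (2 * m + 1) • y + y = l + (m + 1) • (y + y) := by
        rw [smul_add, ← add_smul, add_assoc]
        congr 1
        rw [show y = (1 : ℤ) • y from (one_zsmul y).symm, smul_smul, ← add_smul, smul_smul]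
        congr 1
        ring
      rw [this]
      exact L.add_mem hl (L.zsmul_mem hyy _)
  have hi : (L.addSubgroupOf L').index = 2 := by
    rw [AddSubgroup.index_eq_two_iff]
    refine ⟨⟨y, hyL'⟩, fun b => ?_⟩
    rw [AddSubgroup.mem_addSubgroupOf, AddSubgroup.mem_addSubgroupOf, xor_def]
    simp only [AddSubgroup.coe_add]
    by_cases hb : (b : G) ∈ L
    · right
      refine ⟨hb, fun h => hy ?_⟩
      have := L.sub_mem h hb
      simpa only [add_sub_cancel_left] using this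
    · left
      exact ⟨(hmem b b.2).resolve_left hb, hb⟩
  have h1 := AddSubgroup.card_mul_index (L.addSubgroupOf L')
  rw [sn4_card_of hle, hi] at h1
  rw [← h1, mul_comm]

private theorem sn4_step {L K : AddSubgroup G} (I : ℕ) (hG : ∀ x : G, (2 ^ I : ℕ) • x = 0)
    (h : L ≤ K) (hne : L ≠ K) :
    ∃ L' : AddSubgroup G, L ≤ L' ∧ L' ≤ K ∧ Nat.card L' = 2 * Nat.card L := by
  obtain ⟨z, hzK, hzL⟩ : ∃ z ∈ K, z ∉ L := by
    by_contra hcon
    push Not at hcon
    exact hne (le_antisymm h hcon)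
  classical
  have hex : ∃ n, (2 ^ n : ℕ) • z ∈ L := ⟨I, by rw [hG]; exact L.zero_mem⟩
  have hn0 : Nat.find hex ≠ 0 := by
    intro h0
    have := Nat.find_spec hex
    rw [h0, pow_zero, one_nsmul] at this
    exact hzL this
  obtain ⟨m, hm⟩ := Nat.exists_eq_succ_of_ne_zero hn0
  have h1 : (2 ^ m : ℕ) • z ∉ L := Nat.find_min hex (by omega)
  have h2 : (2 ^ m : ℕ) • z + (2 ^ m : ℕ) • z ∈ L := by
    have := Nat.find_spec hex
    rw [hm, Nat.succ_eq_add_one, pow_succ, mul_two, add_nsmul] at this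
    exact this
  refine ⟨L ⊔ AddSubgroup.zmultiples ((2 ^ m : ℕ) • z), le_sup_left, sup_le h ?_,
    sn4_sup_card L h1 h2⟩
  rw [AddSubgroup.zmultiples_le]
  exact K.nsmul_mem hzK _

end sn4_general

private theorem sn4_exp (x : α → ZMod (2 ^ I)) : (2 ^ I : ℕ) • x = 0 := by
  funext i
  rw [Pi.smul_apply, nsmul_eq_mul, Pi.zero_apply, ZMod.natCast_self, zero_mul]

private theorem sn4_ker (I : ℕ) (α : Type) [Fintype α] [DecidableEq α] :
    (univ.filter (fun y : α → ZMod (2 ^ I) => y + y = 0)).card ≤ 2 ^ Fintype.card α := by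
  have h1 : (univ.filter (fun y : α → ZMod (2 ^ I) => y + y = 0)) ⊆
      Fintype.piFinset (fun _ : α => univ.filter (fun t : ZMod (2 ^ I) => 2 • t = 0)) := by
    intro y hy
    rw [mem_filter] at hy
    rw [Fintype.mem_piFinset]
    intro i
    rw [mem_filter]
    refine ⟨mem_univ _, ?_⟩
    rw [two_nsmul]
    exact congrFun hy.2 i
  refine (card_le_card h1).trans ?_
  rw [Fintype.card_piFinset, prod_const, card_univ]
  exact Nat.pow_le_pow_left (IsAddCyclic.card_nsmul_eq_zero_le (by norm_num)) _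

private theorem sn4_base (L : AddSubgroup (α → ZMod (2 ^ I)))
    (T : Finset (AddSubgroup (α → ZMod (2 ^ I))))
    (h : ∀ K ∈ T, L ≤ K ∧ Nat.card K = 2 * Nat.card L) :
    T.card ≤ 2 ^ Fintype.card α := by
  classical
  have hcardL : ∀ K : AddSubgroup (α → ZMod (2 ^ I)),
      (univ.filter (fun x => x ∈ K)).card = Nat.card K := by
    intro K
    rw [Nat.card_eq_fintype_card, Fintype.card_subtype]
  set D := univ.filter (fun x : α → ZMod (2 ^ I) => x + x ∈ L) with hD
  have hDcard : D.card ≤ 2 ^ Fintype.card α * Nat.card L := by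
    rw [← hcardL L]
    refine card_le_mul_card_image_of_maps_to (f := fun x => x + x) ?_ _ ?_
    · intro x hx
      rw [hD, mem_filter] at hx
      rw [mem_filter]
      exact ⟨mem_univ _, hx.2⟩
    · intro b _
      rcases (D.filter (fun x => x + x = b)).eq_empty_or_nonempty with h0 | ⟨x₀, hx₀⟩
      · rw [h0, card_empty]
        exact Nat.zero_le _
      · refine le_trans ?_ (sn4_ker I α)
        refine card_le_card_of_injOn (fun x => x - x₀) ?_ ?_
        · intro x hx
          rw [mem_coe, mem_filter] at hx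
          rw [mem_filter] at hx₀
          rw [mem_coe, mem_filter]
          refine ⟨mem_univ _, ?_⟩
          have : x - x₀ + (x - x₀) = (x + x) - (x₀ + x₀) := by abel
          rw [this, hx.2, hx₀.2, sub_self]
        · intro x _ x' _ hxx
          exact sub_left_injective hxx
  set t : AddSubgroup (α → ZMod (2 ^ I)) → Finset (α → ZMod (2 ^ I)) :=
    fun K => univ.filter (fun x => x ∈ K ∧ x ∉ L) with ht
  have hsub : T.biUnion t ⊆ D := by
    intro x hx
    rw [mem_biUnion] at hx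
    obtain ⟨K, hK, hx⟩ := hx
    rw [ht, mem_filter] at hx
    rw [hD, mem_filter]
    exact ⟨mem_univ _, sn4_double (h K hK).1 (h K hK).2 hx.2.1⟩
  have hdisj : (T : Set (AddSubgroup (α → ZMod (2 ^ I)))).PairwiseDisjoint t := by
    intro K hK K' hK' hne
    rw [Function.onFun, Finset.disjoint_left]
    intro x hx hx'
    rw [ht, mem_filter] at hx hx'
    apply hne
    have key : ∀ K ∈ T, x ∈ K → L ⊔ AddSubgroup.zmultiples x = K := by
      intro K hK hxK
      have h1 : L ≠ L ⊔ AddSubgroup.zmultiples x := by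
        intro he
        apply hx.2.2
        rw [he]
        exact (le_sup_right : AddSubgroup.zmultiples x ≤ L ⊔ AddSubgroup.zmultiples x)
          (AddSubgroup.mem_zmultiples x)
      refine AddSubgroup.eq_of_le_of_card_ge
        (sup_le (h K hK).1 (AddSubgroup.zmultiples_le.2 hxK)) ?_
      rw [(h K hK).2]
      exact sn4_lagr le_sup_left h1
    rw [← key K hK hx.2.1, key K' hK' hx'.2.1]
  have hcardt : ∀ K ∈ T, (t K).card = Nat.card L := by
    intro K hK
    have h1 : t K = (univ.filter (fun x => x ∈ K)) \ (univ.filter (fun x => x ∈ L)) := by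
      ext x
      simp only [ht, mem_filter, mem_sdiff, mem_univ, true_and]
    have h2 : (univ.filter (fun x => x ∈ L)) ⊆ (univ.filter (fun x => x ∈ K)) := by
      intro x hx
      rw [mem_filter] at hx ⊢
      exact ⟨hx.1, (h K hK).1 hx.2⟩
    rw [h1, card_sdiff_of_subset h2, hcardL, hcardL, (h K hK).2]
    omega
  have h3 := card_le_card hsub
  rw [card_biUnion hdisj, sum_congr rfl hcardt, sum_const, smul_eq_mul] at h3
  exact Nat.le_of_mul_le_mul_right (h3.trans hDcard) Nat.card_pos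

/-- Task N4 -/
theorem card_overgroups (L : AddSubgroup (α → ZMod (2 ^ I))) (k : ℕ)
    (S : Finset (AddSubgroup (α → ZMod (2 ^ I))))
    (h : ∀ K ∈ S, L ≤ K ∧ Nat.card K = 2 ^ k * Nat.card L) :
    S.card ≤ 2 ^ (k * Fintype.card α) := by
  classical
  induction k generalizing L S with
  | zero =>
    have h1 : S ⊆ {L} := by
      intro K hK
      rw [mem_singleton]
      have h2 := h K hK
      rw [pow_zero, one_mul] at h2
      exact (AddSubgroup.eq_of_le_of_card_ge h2.1 h2.2.le).symm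
    have := card_le_card h1
    simpa only [zero_mul, pow_zero, ge_iff_le, card_singleton] using this
  | succ k ih =>
    have hne : ∀ K ∈ S, L ≠ K := by
      intro K hK he
      have h2 := (h K hK).2
      rw [← he] at h2
      have hpos : 0 < Nat.card L := Nat.card_pos
      have h3 : 1 < 2 ^ (k + 1) := Nat.one_lt_two_pow (Nat.succ_ne_zero k)
      nlinarith
    have hex : ∀ K : AddSubgroup (α → ZMod (2 ^ I)), ∃ L' : AddSubgroup (α → ZMod (2 ^ I)),
        K ∈ S → L ≤ L' ∧ L' ≤ K ∧ Nat.card L' = 2 * Nat.card L := by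
      intro K
      by_cases hK : K ∈ S
      · obtain ⟨L', hL'⟩ := sn4_step I sn4_exp (h K hK).1 (hne K hK)
        exact ⟨L', fun _ => hL'⟩
      · exact ⟨⊥, fun h => absurd h hK⟩
    choose F hF using hex
    have h1 : S.card ≤ 2 ^ (k * Fintype.card α) * (S.image F).card := by
      refine card_le_mul_card_image S _ ?_
      intro L' _
      refine ih L' _ ?_
      intro K hK
      rw [mem_filter] at hK
      obtain ⟨hK1, rfl⟩ := hK
      obtain ⟨h2, h3, h4⟩ := hF K hK1
      refine ⟨h3, ?_⟩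
      rw [(h K hK1).2, h4, pow_succ]
      ring
    have h2 : (S.image F).card ≤ 2 ^ Fintype.card α := by
      refine sn4_base L _ ?_
      intro L' hL'
      rw [mem_image] at hL'
      obtain ⟨K, hK, rfl⟩ := hL'
      exact ⟨(hF K hK).1, (hF K hK).2.2⟩
    calc S.card ≤ 2 ^ (k * Fintype.card α) * (S.image F).card := h1
      _ ≤ 2 ^ (k * Fintype.card α) * 2 ^ Fintype.card α := Nat.mul_le_mul_left _ h2
      _ = 2 ^ ((k + 1) * Fintype.card α) := by rw [← pow_add]; congr 1; ring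

private theorem sn4_gen {G : Type*} [AddCommGroup G] [Finite G] (E : Set G) (L : AddSubgroup G)
    (hL : L = AddSubgroup.closure {k | k ∈ L ∧ k ∈ E}) (e₀ : G) (he₀ : e₀ ∈ L ∧ e₀ ∈ E) :
    ∀ (m : ℕ) (M : AddSubgroup G), M ≤ L → Nat.card L ≤ 2 ^ m * Nat.card M →
      ∃ g : Fin m → G, (∀ i, g i ∈ L ∧ g i ∈ E) ∧ M ⊔ AddSubgroup.closure (Set.range g) = L := by
  intro m
  induction m with
  | zero =>
    intro M hM hc
    rw [pow_zero, one_mul] at hc
    refine ⟨Fin.elim0, fun i => i.elim0, ?_⟩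
    rw [Set.range_eq_empty, AddSubgroup.closure_empty, sup_bot_eq]
    exact AddSubgroup.eq_of_le_of_card_ge hM hc
  | succ m ih =>
    intro M hM hc
    by_cases hML : M = L
    · refine ⟨fun _ => e₀, fun _ => he₀, ?_⟩
      rw [hML]
      refine sup_eq_left.2 ((AddSubgroup.closure_le _).2 ?_)
      rintro _ ⟨i, rfl⟩
      exact he₀.1
    · obtain ⟨e, heL, heE, heM⟩ : ∃ e, e ∈ L ∧ e ∈ E ∧ e ∉ M := by
        by_contra hcon
        push Not at hcon
        apply hML
        refine le_antisymm hM ?_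
        rw [hL, AddSubgroup.closure_le]
        intro k hk
        exact hcon k hk.1 hk.2
      have h1 : M ⊔ AddSubgroup.zmultiples e ≤ L := sup_le hM (AddSubgroup.zmultiples_le.2 heL)
      have h2 : M ≠ M ⊔ AddSubgroup.zmultiples e := by
        intro he
        apply heM
        rw [he]
        exact (le_sup_right : AddSubgroup.zmultiples e ≤ M ⊔ AddSubgroup.zmultiples e)
          (AddSubgroup.mem_zmultiples e)
      have h3 := sn4_lagr le_sup_left h2
      obtain ⟨g, hg1, hg2⟩ := ih _ h1 (hc.trans (by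
        rw [pow_succ, mul_assoc]
        exact Nat.mul_le_mul_left _ h3))
      refine ⟨Fin.cons e g, ?_, ?_⟩
      · intro i
        refine Fin.cases ?_ ?_ i
        · exact ⟨heL, heE⟩
        · intro j
          exact hg1 j
      · rw [Fin.range_cons, Set.insert_eq, AddSubgroup.closure_union, ← sup_assoc,
          ← AddSubgroup.zmultiples_eq_closure]
        exact hg2

/-- Task N4 -/
theorem card_gen (E : Finset (α → ZMod (2 ^ I))) (A : ℕ)
    (S : Finset (AddSubgroup (α → ZMod (2 ^ I))))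
    (h : ∀ L ∈ S, Nat.card L = 2 ^ A ∧
      L = AddSubgroup.closure {k | k ∈ L ∧ k ∈ E}) :
    S.card ≤ E.card ^ A := by
  classical
  have hsub : S ⊆ (Fintype.piFinset (fun _ : Fin A => E)).image
      (fun g => AddSubgroup.closure (Set.range g)) := by
    intro L hL
    obtain ⟨hc, hcl⟩ := h L hL
    rw [mem_image]
    by_cases hne : ∃ e₀, e₀ ∈ L ∧ e₀ ∈ (E : Set (α → ZMod (2 ^ I)))
    · obtain ⟨e₀, he₀⟩ := hne
      obtain ⟨g, hg1, hg2⟩ := sn4_gen (E : Set (α → ZMod (2 ^ I))) L (by simpa only [SetLike.mem_coe] using hcl) e₀ he₀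
        A ⊥ bot_le (by
          rw [hc, AddSubgroup.card_bot, mul_one])
      refine ⟨g, ?_, ?_⟩
      · rw [Fintype.mem_piFinset]
        intro i
        exact mem_coe.1 (hg1 i).2
      · rw [← hg2, bot_sup_eq]
    · have h0 : {k | k ∈ L ∧ k ∈ E} = (∅ : Set (α → ZMod (2 ^ I))) := by
        ext k
        simp only [Set.mem_ofPred_eq, Set.mem_empty_iff_false, iff_false]
        intro hk
        exact hne ⟨k, hk.1, mem_coe.2 hk.2⟩
      rw [h0, AddSubgroup.closure_empty] at hcl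
      rw [hcl, AddSubgroup.card_bot] at hc
      have hA : A = 0 := by
        by_contra hA
        have := Nat.one_lt_two_pow hA
        omega
      subst hA
      refine ⟨Fin.elim0, ?_, ?_⟩
      · rw [Fintype.mem_piFinset]
        intro i
        exact i.elim0
      · rw [Set.range_eq_empty, AddSubgroup.closure_empty, hcl]
  refine (card_le_card hsub).trans (card_image_le.trans ?_)
  rw [Fintype.card_piFinset_const]

private theorem sn4_suppc_add {I : ℕ} (x y : α → ZMod (2 ^ I)) :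
    suppc (x + y) ≤ suppc x + suppc y := by
  unfold suppc
  refine (card_le_card ?_).trans (card_union_le _ _)
  intro i hi
  rw [mem_filter] at hi
  rw [mem_union, mem_filter, mem_filter]
  by_contra hcon
  push Not at hcon
  apply hi.2
  rw [Pi.add_apply, hcon.1 (mem_univ _), hcon.2 (mem_univ _), add_zero]

private theorem sn4_suppc_zsmul {I : ℕ} (n : ℤ) (x : α → ZMod (2 ^ I)) :
    suppc (n • x) ≤ suppc x := by
  unfold suppc
  refine card_le_card ?_
  intro i hi
  rw [mem_filter] at hi ⊢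
  refine ⟨mem_univ _, fun h0 => hi.2 ?_⟩
  rw [Pi.smul_apply, h0, smul_zero]

private theorem sn4_suppc_ind (w : ℕ) (K : AddSubgroup (α → ZMod (2 ^ I))) :
    ∀ (m s : ℕ) (M : AddSubgroup (α → ZMod (2 ^ I))), M ≤ spars I w K → (∀ x ∈ M, suppc x ≤ s) →
      Nat.card (spars I w K) ≤ 2 ^ m * Nat.card M → ∀ x ∈ spars I w K, suppc x ≤ s + m * w := by
  intro m
  induction m with
  | zero =>
    intro s M hM hs hc x hx
    rw [pow_zero, one_mul] at hc
    have := AddSubgroup.eq_of_le_of_card_ge hM hc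
    rw [← this] at hx
    simpa only [zero_mul, add_zero, ge_iff_le] using hs x hx
  | succ m ih =>
    intro s M hM hs hc x hx
    by_cases hML : M = spars I w K
    · rw [← hML] at hx
      exact (hs x hx).trans (Nat.le_add_right _ _)
    · obtain ⟨e, heK, hew, heM⟩ : ∃ e, e ∈ K ∧ suppc e < w ∧ e ∉ M := by
        by_contra hcon
        push Not at hcon
        apply hML
        refine le_antisymm hM ?_
        rw [spars, AddSubgroup.closure_le]
        intro k hk
        exact hcon k hk.1 hk.2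
      have heL : e ∈ spars I w K := AddSubgroup.subset_closure ⟨heK, hew⟩
      have h1 : M ⊔ AddSubgroup.zmultiples e ≤ spars I w K :=
        sup_le hM (AddSubgroup.zmultiples_le.2 heL)
      have h2 : M ≠ M ⊔ AddSubgroup.zmultiples e := by
        intro he
        apply heM
        rw [he]
        exact (le_sup_right : AddSubgroup.zmultiples e ≤ M ⊔ AddSubgroup.zmultiples e)
          (AddSubgroup.mem_zmultiples e)
      have h3 := sn4_lagr le_sup_left h2
      have h4 := ih (s + w) _ h1 (by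
        intro z hz
        rw [AddSubgroup.mem_sup] at hz
        obtain ⟨a, ha, b, hb, rfl⟩ := hz
        obtain ⟨n, rfl⟩ := AddSubgroup.mem_zmultiples_iff.1 hb
        refine (sn4_suppc_add _ _).trans ?_
        exact Nat.add_le_add (hs a ha) ((sn4_suppc_zsmul n e).trans hew.le))
        (hc.trans (by
          rw [pow_succ, mul_assoc]
          exact Nat.mul_le_mul_left _ h3)) x hx
      refine h4.trans (le_of_eq ?_)
      ring

/-- Task N4 -/
theorem suppc_of_gen (w A : ℕ) (K : AddSubgroup (α → ZMod (2 ^ I)))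
    (h : Nat.card (spars I w K) = 2 ^ A) : ∀ k ∈ spars I w K, suppc k ≤ A * w := by
  intro k hk
  have := sn4_suppc_ind w K A 0 ⊥ bot_le (by
    intro x hx
    rw [AddSubgroup.mem_bot] at hx
    subst hx
    simp [suppc]) (by rw [h, AddSubgroup.card_bot, mul_one]) k hk
  simpa only [ge_iff_le, zero_add] using this

end

end Vale.Agent.P160
end
end

section

section

namespace Vale.Agent.P160

open Finset

section
variable {α β : Type*} [Fintype α] [Fintype β] [DecidableEq α] [DecidableEq β]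

lemma sm4a_mem_kerN {N : ℕ} [NeZero N] {H : β → α → ℤ} {u : α → ZMod N} :
    u ∈ kerN N H ↔ ∀ i, ∑ l, (H i l : ZMod N) * u l = 0 := by
  simp only [kerN, mem_filter, mem_univ, true_and]

lemma sm4a_dvd {j : ℕ} {x : ZMod (2 ^ (j + 1))} (hx : (x.cast : ZMod 2) = 0) : 2 ∣ x.val := by
  have h1 : (ZMod.castHom (dvd_pow_self 2 (Nat.succ_ne_zero j)) (ZMod 2)) x = 0 := by
    rw [ZMod.castHom_apply]; exact hx
  rw [← ZMod.natCast_zmod_val x, map_natCast, ZMod.natCast_eq_zero_iff] at h1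
  exact h1

omit [DecidableEq α] in
lemma sm4a_iff (j : ℕ) (a : α → ℤ) (k : α → ℕ) :
    (∑ l, (a l : ZMod (2 ^ (j + 1))) * (2 * (k l : ZMod (2 ^ (j + 1)))) = 0) ↔
      ∑ l, (a l : ZMod (2 ^ j)) * (k l : ZMod (2 ^ j)) = 0 := by
  have e1 : ∑ l, (a l : ZMod (2 ^ (j + 1))) * (2 * (k l : ZMod (2 ^ (j + 1)))) =
      ((2 * ∑ l, a l * (k l : ℤ) : ℤ) : ZMod (2 ^ (j + 1))) := by
    push_cast
    rw [mul_sum]
    exact sum_congr rfl fun l _ => by ring
  have e2 : ∑ l, (a l : ZMod (2 ^ j)) * (k l : ZMod (2 ^ j)) =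
      ((∑ l, a l * (k l : ℤ) : ℤ) : ZMod (2 ^ j)) := by
    push_cast
    rfl
  have e3 : ((2 ^ (j + 1) : ℕ) : ℤ) = 2 * ((2 ^ j : ℕ) : ℤ) := by
    push_cast; ring
  rw [e1, e2, ZMod.intCast_zmod_eq_zero_iff_dvd, ZMod.intCast_zmod_eq_zero_iff_dvd, e3]
  exact mul_dvd_mul_iff_left two_ne_zero

lemma sm4a_cast_add {j : ℕ} (x y : ZMod (2 ^ (j + 1))) :
    ((x + 2 * y).cast : ZMod 2) = (x.cast : ZMod 2) := by
  have h := map_add (ZMod.castHom (dvd_pow_self 2 (Nat.succ_ne_zero j)) (ZMod 2)) x (2 * y)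
  rw [map_mul, map_ofNat] at h
  simp only [ZMod.castHom_apply] at h
  rw [h]
  have h2 : (2 : ZMod 2) = 0 := by decide
  rw [h2, zero_mul, add_zero]

lemma sm4a_cast_sub {j : ℕ} {x y : ZMod (2 ^ (j + 1))} (h : (x.cast : ZMod 2) = y.cast) :
    ((x - y).cast : ZMod 2) = 0 := by
  have h1 := map_sub (ZMod.castHom (dvd_pow_self 2 (Nat.succ_ne_zero j)) (ZMod 2)) x y
  simp only [ZMod.castHom_apply] at h1
  rw [h1, h, sub_self]

lemma sm4a_half {j : ℕ} {x : ZMod (2 ^ (j + 1))} (hx : 2 ∣ x.val) :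
    (2 : ZMod (2 ^ (j + 1))) * ((x.val / 2 : ℕ) : ZMod (2 ^ (j + 1))) = x := by
  have h : ((2 * (x.val / 2) : ℕ) : ZMod (2 ^ (j + 1))) = x := by
    rw [Nat.mul_div_cancel' hx, ZMod.natCast_zmod_val]
  rw [Nat.cast_mul, Nat.cast_ofNat] at h
  exact h

/-- Task M4a -/
theorem card_kerN_succ (H : β → α → ℤ) (j : ℕ) :
    (kerN (2 ^ (j + 1)) H).card = (kerN (2 ^ j) H).card * (redN (j + 1) H).card := by
  have key : ∀ b ∈ redN (j + 1) H,
      ((kerN (2 ^ (j + 1)) H).filter (fun u => (fun i => ((u i).cast : ZMod 2)) = b)).card =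
        (kerN (2 ^ j) H).card := by
    intro b hb
    obtain ⟨z₀, hz₀, rfl⟩ := mem_image.1 hb
    rw [sm4a_mem_kerN] at hz₀
    have hd : ∀ z : α → ZMod (2 ^ (j + 1)), (fun i => ((z i).cast : ZMod 2)) =
        (fun i => ((z₀ i).cast : ZMod 2)) → ∀ i, 2 ∣ (z i - z₀ i).val :=
      fun z hz i => sm4a_dvd (sm4a_cast_sub (congrFun hz i))
    have hlt : ∀ y : ZMod (2 ^ (j + 1)), y.val / 2 < 2 ^ j := by
      intro y
      have := ZMod.val_lt y
      rw [Nat.div_lt_iff_lt_mul two_pos]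
      exact lt_of_lt_of_eq this (pow_succ 2 j)
    refine Finset.card_nbij' (fun z i => (((z i - z₀ i).val / 2 : ℕ) : ZMod (2 ^ j)))
      (fun u i => z₀ i + 2 * ((u i).val : ZMod (2 ^ (j + 1)))) ?_ ?_ ?_ ?_
    · intro z hz
      rw [Finset.mem_coe, mem_filter, sm4a_mem_kerN] at hz
      rw [Finset.mem_coe, sm4a_mem_kerN]
      intro i
      rw [← sm4a_iff j (H i) (fun l => (z l - z₀ l).val / 2)]
      have h1 : ∀ l, (2 : ZMod (2 ^ (j + 1))) *
          (((z l - z₀ l).val / 2 : ℕ) : ZMod (2 ^ (j + 1))) = z l - z₀ l :=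
        fun l => sm4a_half (hd z hz.2 l)
      simp only [h1, mul_sub, sum_sub_distrib]
      rw [hz.1 i, hz₀ i, sub_self]
    · intro u hu
      rw [Finset.mem_coe, sm4a_mem_kerN] at hu
      rw [Finset.mem_coe, mem_filter, sm4a_mem_kerN]
      refine ⟨fun i => ?_, ?_⟩
      · simp only [mul_add, sum_add_distrib]
        rw [hz₀ i, zero_add]
        refine (sm4a_iff j (H i) (fun l => (u l).val)).2 ?_
        simp only [ZMod.natCast_zmod_val]
        exact hu i
      · funext i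
        exact sm4a_cast_add _ _
    · intro z hz
      rw [Finset.mem_coe, mem_filter] at hz
      funext i
      simp only
      rw [ZMod.val_cast_of_lt (hlt _), sm4a_half (hd z hz.2 i)]
      ring
    · intro u _
      funext i
      simp only
      rw [add_sub_cancel_left]
      have h1 : (2 : ZMod (2 ^ (j + 1))) * ((u i).val : ZMod (2 ^ (j + 1))) =
          ((2 * (u i).val : ℕ) : ZMod (2 ^ (j + 1))) := by push_cast; rfl
      have h2 : 2 * (u i).val < 2 ^ (j + 1) := by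
        have := ZMod.val_lt (u i)
        rw [pow_succ]; omega
      rw [h1, ZMod.val_cast_of_lt h2, Nat.mul_div_cancel_left _ two_pos, ZMod.natCast_zmod_val]
  calc (kerN (2 ^ (j + 1)) H).card
      = ∑ b ∈ redN (j + 1) H, ((kerN (2 ^ (j + 1)) H).filter
          (fun u => (fun i => ((u i).cast : ZMod 2)) = b)).card :=
        Finset.card_eq_sum_card_image _ _
    _ = ∑ _b ∈ redN (j + 1) H, (kerN (2 ^ j) H).card := sum_congr rfl key
    _ = _ := by rw [sum_const, smul_eq_mul, mul_comm]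

/-- Task M4a -/
theorem redN_antitone (H : β → α → ℤ) {i j : ℕ} (hi : 1 ≤ i) (hij : i ≤ j) :
    redN j H ⊆ redN i H := by
  intro b hb
  obtain ⟨u, hu, rfl⟩ := mem_image.1 hb
  rw [sm4a_mem_kerN] at hu
  have h1 : 2 ∣ 2 ^ i := dvd_pow_self 2 (by omega)
  have h2 : 2 ^ i ∣ 2 ^ j := pow_dvd_pow 2 hij
  refine mem_image.2 ⟨fun l => ZMod.castHom h2 (ZMod (2 ^ i)) (u l), ?_, ?_⟩
  · rw [sm4a_mem_kerN]
    intro k
    have := congrArg (ZMod.castHom h2 (ZMod (2 ^ i))) (hu k)
    rw [map_sum, map_zero] at this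
    rw [← this]
    refine sum_congr rfl fun l _ => ?_
    rw [map_mul, map_intCast]
  · funext l
    have h3 : (ZMod.castHom h1 (ZMod 2)).comp (ZMod.castHom h2 (ZMod (2 ^ i))) =
        ZMod.castHom (h1.trans h2) (ZMod 2) := Subsingleton.elim _ _
    have h4 := DFunLike.congr_fun h3 (u l)
    rw [RingHom.comp_apply] at h4
    simp only [ZMod.castHom_apply] at h4 ⊢
    exact h4

/-- Task M4a -/
theorem card_kerN_le (H : β → α → ℤ) (κ J : ℕ) (hκ : 1 ≤ κ) :
    (kerN (2 ^ J) H).card ≤ 2 ^ (κ * Fintype.card α) * (redN κ H).card ^ J := by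
  have hr : 1 ≤ (redN κ H).card := by
    rw [Nat.one_le_iff_ne_zero, Ne, Finset.card_eq_zero, ← Ne, ← Finset.nonempty_iff_ne_empty]
    refine Finset.Nonempty.image ⟨0, ?_⟩ _
    rw [sm4a_mem_kerN]
    intro i
    simp only [Pi.zero_apply, mul_zero, sum_const_zero]
  have h0 : (kerN (2 ^ 0) H).card ≤ 1 := by
    apply Finset.card_le_one.2
    intro a _ b _
    funext i
    apply ZMod.val_injective
    have h1 : (a i).val < 1 := lt_of_lt_of_eq (ZMod.val_lt (a i)) (pow_zero 2)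
    have h2 : (b i).val < 1 := lt_of_lt_of_eq (ZMod.val_lt (b i)) (pow_zero 2)
    omega
  have hall : ∀ j, (redN j H).card ≤ 2 ^ Fintype.card α := by
    intro j
    refine (Finset.card_le_univ _).trans (le_of_eq ?_)
    rw [Fintype.card_fun, ZMod.card]
  have h1 : ∀ J, (kerN (2 ^ J) H).card ≤ 2 ^ (J * Fintype.card α) := by
    intro J
    induction J with
    | zero => exact h0.trans (Nat.one_le_pow _ _ two_pos)
    | succ J ih =>
      rw [card_kerN_succ, add_mul, one_mul, pow_add]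
      exact Nat.mul_le_mul ih (hall _)
  have h2 : ∀ m, (kerN (2 ^ (κ + m)) H).card ≤
      2 ^ (κ * Fintype.card α) * (redN κ H).card ^ m := by
    intro m
    induction m with
    | zero => rw [pow_zero (redN κ H).card, mul_one]; exact h1 κ
    | succ m ih =>
      rw [← add_assoc, card_kerN_succ, pow_succ (redN κ H).card, ← mul_assoc]
      exact Nat.mul_le_mul ih (Finset.card_le_card (redN_antitone H hκ (by omega)))
  rcases le_total J κ with h | h
  · refine (h1 J).trans ?_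
    calc 2 ^ (J * Fintype.card α) ≤ 2 ^ (κ * Fintype.card α) :=
          Nat.pow_le_pow_right two_pos (Nat.mul_le_mul_right _ h)
      _ ≤ 2 ^ (κ * Fintype.card α) * (redN κ H).card ^ J :=
          Nat.le_mul_of_pos_right _ (Nat.pow_pos hr)
  · obtain ⟨m, rfl⟩ := Nat.exists_eq_add_of_le h
    refine (h2 m).trans (Nat.mul_le_mul_left _ ?_)
    exact Nat.pow_le_pow_right hr (by omega)

lemma sm4a_sum {γ : Type*} [Fintype γ] [DecidableEq γ] {N : ℕ} [NeZero N] (w : γ → ZMod N) :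
    ∑ z : γ → ZMod N, ee (∑ i, z i * w i) =
      if (∀ i, w i = 0) then (N : ℂ) ^ Fintype.card γ else 0 := by
  have h := Finset.prod_univ_sum (fun _ : γ => (univ : Finset (ZMod N)))
    (fun i t => ee (t * w i))
  rw [Fintype.piFinset_univ] at h
  simp only [ee_sum]
  rw [← h]
  simp only [sum_ee_mul]
  split_ifs with hw
  · rw [Finset.prod_congr rfl (fun i _ => if_pos (hw i)), prod_const, card_univ]
  · push Not at hw
    obtain ⟨i, hi⟩ := hw
    exact Finset.prod_eq_zero (mem_univ i) (if_neg hi)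

/-- Task M4a: double counting of characters. -/
theorem card_kerT_kerN (N : ℕ) [NeZero N] (H : β → α → ℤ) :
    (kerT N H).card * N ^ Fintype.card α = (kerN N H).card * N ^ Fintype.card β := by
  have h1 : ∑ u : α → ZMod N, ∑ z : β → ZMod N,
      ee (∑ i, z i * ∑ l, (H i l : ZMod N) * u l) = (kerN N H).card * (N : ℂ) ^ Fintype.card β := by
    simp only [sm4a_sum]
    rw [← sum_filter, sum_const, nsmul_eq_mul]
    rfl
  have h2 : ∑ z : β → ZMod N, ∑ u : α → ZMod N,
      ee (∑ l, u l * ∑ i, (H i l : ZMod N) * z i) = (kerT N H).card * (N : ℂ) ^ Fintype.card α := by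
    simp only [sm4a_sum]
    rw [← sum_filter, sum_const, nsmul_eq_mul]
    rfl
  have h3 : ∑ u : α → ZMod N, ∑ z : β → ZMod N,
      ee (∑ i, z i * ∑ l, (H i l : ZMod N) * u l) =
      ∑ z : β → ZMod N, ∑ u : α → ZMod N,
      ee (∑ l, u l * ∑ i, (H i l : ZMod N) * z i) := by
    rw [sum_comm]
    refine sum_congr rfl fun z _ => sum_congr rfl fun u _ => ?_
    congr 1
    simp only [mul_sum]
    rw [sum_comm]
    exact sum_congr rfl fun l _ => sum_congr rfl fun i _ => by ring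
  rw [h1, h2] at h3
  exact_mod_cast h3.symm
end

end Vale.Agent.P160
end
end

section

section

namespace Vale.Agent.P160

open Finset

section aux

/-- Columns in `S` are combinations of the columns outside `S`. -/
def sm4c_Spans {α β R : Type*} [Fintype α] [DecidableEq α] [CommRing R] (A : β → α → R)
    (S : Finset α) : Prop :=
  ∀ j ∈ S, ∃ y : α → R, ∀ i, A i j = ∑ k ∈ Sᶜ, A i k * y k

lemma sm4c_spans_insert {α β R : Type*} [Fintype α] [DecidableEq α] [CommRing R]
    {A : β → α → R} {S : Finset α} (hS : sm4c_Spans A S) {j : α} (hj : j ∉ S)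
    (y : α → R) (hy : ∀ i, A i j = ∑ k ∈ (insert j S)ᶜ, A i k * y k) :
    sm4c_Spans A (insert j S) := by
  intro j' hj'
  rw [mem_insert] at hj'
  rcases hj' with rfl | hj'
  · exact ⟨y, hy⟩
  · obtain ⟨y', hy'⟩ := hS j' hj'
    refine ⟨fun k => y k * y' j + y' k, fun i => ?_⟩
    have e : Sᶜ = insert j (insert j S)ᶜ := by
      ext k
      simp only [mem_compl, mem_insert, not_or]
      constructor
      · intro hk
        by_cases h : k = j
        · exact Or.inl h
        · exact Or.inr ⟨h, hk⟩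
      · rintro (rfl | ⟨_, hk⟩)
        · exact hj
        · exact hk
    rw [hy' i, e, sum_insert (by simp only [compl_insert, mem_erase, ne_eq, not_true_eq_false, mem_compl, false_and, not_false_eq_true])]
    nth_rewrite 1 [hy i]
    rw [sum_mul, ← sum_add_distrib]
    refine sum_congr rfl fun k _ => ?_
    ring

lemma sm4c_cast_eq {κ : ℕ} (hκ : 1 ≤ κ) (a : ZMod (2 ^ κ)) :
    (a.cast : ZMod 2) = ZMod.castHom (dvd_pow_self 2 (by omega : κ ≠ 0)) (ZMod 2) a := by
  rw [ZMod.castHom_apply]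

lemma sm4c_isUnit {κ : ℕ} (a : ZMod (2 ^ κ)) (ha : (a.cast : ZMod 2) ≠ 0) :
    IsUnit a := by
  have h1 : (a.cast : ZMod 2) = ((a.val : ℕ) : ZMod 2) := ZMod.cast_eq_val a
  rw [h1] at ha
  have h2 : ¬ 2 ∣ a.val := by
    intro h
    exact ha ((ZMod.natCast_eq_zero_iff _ _).2 h)
  have h3 : Nat.Coprime a.val (2 ^ κ) := by
    apply Nat.Coprime.pow_right
    rw [Nat.coprime_comm]
    exact (Nat.Prime.coprime_iff_not_dvd Nat.prime_two).2 h2
  have h4 : IsUnit ((a.val : ℕ) : ZMod (2 ^ κ)) := (ZMod.isUnit_iff_coprime _ _).2 h3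
  rwa [ZMod.natCast_zmod_val] at h4

lemma sm4c_zmod2 (a : ZMod 2) (ha : a ≠ 0) : a = 1 := by
  revert a
  (clear * -; decide)

variable {α β : Type*} [Fintype α] [Fintype β] [DecidableEq α] [DecidableEq β]

/-- Kernel vectors vanishing on `S`. -/
def sm4c_KS (κ : ℕ) (H : β → α → ℤ) (S : Finset α) : Finset (α → ZMod (2 ^ κ)) :=
  (kerN (2 ^ κ) H).filter (fun u => ∀ j ∈ S, u j = 0)

/-- Their reductions mod 2. -/
def sm4c_RS (κ : ℕ) (H : β → α → ℤ) (S : Finset α) : Finset (α → ZMod 2) :=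
  (sm4c_KS κ H S).image (fun u i => ((u i).cast : ZMod 2))

lemma sm4c_mem_KS {κ : ℕ} {H : β → α → ℤ} {S : Finset α} {u : α → ZMod (2 ^ κ)} :
    u ∈ sm4c_KS κ H S ↔ (∀ i, ∑ l, ((H i l : ℤ) : ZMod (2 ^ κ)) * u l = 0) ∧
      ∀ j ∈ S, u j = 0 := by
  simp only [sm4c_KS, kerN, mem_filter, mem_univ, true_and]

lemma sm4c_RS_empty (κ : ℕ) (H : β → α → ℤ) : sm4c_RS κ H ∅ = redN κ H := by
  unfold sm4c_RS sm4c_KS redN
  congr 1
  apply filter_true_of_mem
  simp

lemma sm4c_RS_step {κ : ℕ} (hκ : 1 ≤ κ) {H : β → α → ℤ} {S : Finset α}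
    {u : α → ZMod (2 ^ κ)} (hu : u ∈ sm4c_KS κ H S) {j : α}
    (hj : ((u j).cast : ZMod 2) ≠ 0) :
    (sm4c_RS κ H S).card ≤ (sm4c_RS κ H (insert j S)).card * 2 := by
  classical
  obtain ⟨c, hc⟩ := (sm4c_isUnit (u j) hj).exists_left_inv
  have hvj : ((u j).cast : ZMod 2) = 1 := sm4c_zmod2 _ hj
  rw [sm4c_mem_KS] at hu
  have h2 : (univ : Finset (ZMod 2)).card = 2 := by simp only [card_univ, ZMod.card]
  suffices hsuff : (sm4c_RS κ H S).card ≤
      ((sm4c_RS κ H (insert j S)) ×ˢ (univ : Finset (ZMod 2))).card by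
    rwa [card_product, h2] at hsuff
  refine card_le_card_of_injOn
    (fun w => ((fun i => w i - w j * ((u i).cast : ZMod 2)), w j)) ?_ ?_
  · intro w hw
    rw [mem_coe, sm4c_RS, mem_image] at hw
    obtain ⟨x, hx, rfl⟩ := hw
    rw [sm4c_mem_KS] at hx
    rw [mem_coe, mem_product]
    refine ⟨?_, mem_univ _⟩
    rw [sm4c_RS, mem_image]
    refine ⟨fun i => x i - x j * c * u i, ?_, ?_⟩
    · rw [sm4c_mem_KS]
      refine ⟨fun i => ?_, fun k hk => ?_⟩
      · have e : ∑ l, ((H i l : ℤ) : ZMod (2 ^ κ)) * (x l - x j * c * u l) =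
            ∑ l, ((H i l : ℤ) : ZMod (2 ^ κ)) * x l -
              x j * c * ∑ l, ((H i l : ℤ) : ZMod (2 ^ κ)) * u l := by
          rw [mul_sum, ← sum_sub_distrib]
          refine sum_congr rfl fun l _ => ?_
          ring
        rw [e, hx.1 i, hu.1 i]
        ring
      · rw [mem_insert] at hk
        rcases hk with rfl | hk
        · rw [mul_assoc, hc]; ring
        · rw [hx.2 k hk, hu.2 k hk]; ring
    · funext i
      simp only [sm4c_cast_eq hκ]
      rw [map_sub, map_mul, map_mul]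
      have hcu : ZMod.castHom (dvd_pow_self 2 (by omega : κ ≠ 0)) (ZMod 2) c *
          ZMod.castHom (dvd_pow_self 2 (by omega : κ ≠ 0)) (ZMod 2) (u j) = 1 := by
        rw [← map_mul, hc, map_one]
      rw [← sm4c_cast_eq hκ (u j), hvj, mul_one] at hcu
      rw [hcu, mul_one]
  · intro w hw w' hw' h
    simp only [Prod.mk.injEq] at h
    funext i
    have h3 : w i - w j * ((u i).cast : ZMod 2) = w' i - w' j * ((u i).cast : ZMod 2) :=
      congrFun h.1 i
    rw [h.2] at h3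
    exact sub_left_injective h3

lemma sm4c_main {κ : ℕ} (hκ : 1 ≤ κ) (H : β → α → ℤ) (l : ℕ) (h : 2 ^ l ≤ (redN κ H).card) :
    ∃ S : Finset α, S.card = l ∧
      sm4c_Spans (fun i j => ((H i j : ℤ) : ZMod (2 ^ κ))) S ∧
      (redN κ H).card ≤ (sm4c_RS κ H S).card * 2 ^ l := by
  classical
  induction l with
  | zero =>
    refine ⟨∅, rfl, fun j hj => absurd hj (notMem_empty j), ?_⟩
    rw [sm4c_RS_empty]
    simp
  | succ l ih =>
    have hl : 2 ^ l ≤ (redN κ H).card := le_trans (Nat.pow_le_pow_right (by norm_num) (by omega)) h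
    obtain ⟨S, hS1, hS2, hS3⟩ := ih hl
    have hcard : 2 ≤ (sm4c_RS κ H S).card := by
      have h1 : 2 ^ l * 2 ≤ 2 ^ l * (sm4c_RS κ H S).card := by
        calc 2 ^ l * 2 = 2 ^ (l + 1) := (pow_succ 2 l).symm
          _ ≤ (redN κ H).card := h
          _ ≤ (sm4c_RS κ H S).card * 2 ^ l := hS3
          _ = _ := mul_comm _ _
      exact Nat.le_of_mul_le_mul_left h1 (by (clear * -; positivity))
    obtain ⟨v, hv, hv0⟩ : ∃ v ∈ sm4c_RS κ H S, v ≠ 0 := by
      by_contra hcon
      push Not at hcon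
      have : (sm4c_RS κ H S).card ≤ 1 := card_le_one.2 fun a ha b hb => by
        rw [hcon a ha, hcon b hb]
      (clear * - hcard this; omega)
    rw [sm4c_RS, mem_image] at hv
    obtain ⟨u, hu, rfl⟩ := hv
    obtain ⟨j, hj⟩ := Function.ne_iff.1 hv0
    simp only [Pi.zero_apply] at hj
    have hjS : j ∉ S := by
      intro hjS
      apply hj
      rw [((sm4c_mem_KS.1 hu).2 j hjS)]
      rw [sm4c_cast_eq hκ, map_zero]
    obtain ⟨c, hc⟩ := (sm4c_isUnit (u j) hj).exists_left_inv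
    refine ⟨insert j S, by rw [card_insert_of_notMem hjS, hS1], ?_, ?_⟩
    · refine sm4c_spans_insert hS2 hjS (fun k => -(c * u k)) fun i => ?_
      have h1 := (sm4c_mem_KS.1 hu).1 i
      have h0 := (sm4c_mem_KS.1 hu).2
      have e1 : ∑ k, ((H i k : ℤ) : ZMod (2 ^ κ)) * u k =
          ∑ k ∈ Sᶜ, ((H i k : ℤ) : ZMod (2 ^ κ)) * u k := by
        rw [← sum_add_sum_compl S]
        rw [sum_eq_zero fun k hk => by rw [h0 k hk, mul_zero], zero_add]
      have e : Sᶜ = insert j (insert j S)ᶜ := by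
        ext k
        simp only [mem_compl, mem_insert, not_or]
        constructor
        · intro hk
          by_cases h : k = j
          · exact Or.inl h
          · exact Or.inr ⟨h, hk⟩
        · rintro (rfl | ⟨_, hk⟩)
          · exact hjS
          · exact hk
      rw [e1, e, sum_insert (by simp)] at h1
      have h3 : ((H i j : ℤ) : ZMod (2 ^ κ)) =
          -(c * ∑ k ∈ (insert j S)ᶜ, ((H i k : ℤ) : ZMod (2 ^ κ)) * u k) := by
        have h4 : ∑ k ∈ (insert j S)ᶜ, ((H i k : ℤ) : ZMod (2 ^ κ)) * u k =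
            -(((H i j : ℤ) : ZMod (2 ^ κ)) * u j) := by
          rw [eq_neg_iff_add_eq_zero, add_comm]; exact h1
        rw [h4]
        calc ((H i j : ℤ) : ZMod (2 ^ κ)) = ((H i j : ℤ) : ZMod (2 ^ κ)) * (c * u j) := by
              rw [hc, mul_one]
          _ = _ := by ring
      show ((H i j : ℤ) : ZMod (2 ^ κ)) = _
      rw [h3, mul_sum, ← sum_neg_distrib]
      refine sum_congr rfl fun k _ => ?_
      ring
    · have hstep := sm4c_RS_step hκ hu hj
      calc (redN κ H).card ≤ (sm4c_RS κ H S).card * 2 ^ l := hS3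
        _ ≤ ((sm4c_RS κ H (insert j S)).card * 2) * 2 ^ l := Nat.mul_le_mul_right _ hstep
        _ = _ := by rw [pow_succ]; ring

end aux

/-- Task M4c (columns) -/
theorem exists_span_cols {α β : Type*} [Fintype α] [Fintype β] [DecidableEq α] [DecidableEq β]
    {κ : ℕ} (hκ : 1 ≤ κ) (H : β → α → ℤ) (l : ℕ) (h : 2 ^ l ≤ (redN κ H).card) :
    ∃ S : Finset α, S.card = l ∧ ∀ j ∈ S, ∃ y : α → ZMod (2 ^ κ),
      ∀ i, ((H i j : ℤ) : ZMod (2 ^ κ)) = ∑ k ∈ Sᶜ, ((H i k : ℤ) : ZMod (2 ^ κ)) * y k := by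
  obtain ⟨S, h1, h2, _⟩ := sm4c_main hκ H l h
  exact ⟨S, h1, h2⟩

/-- Task M4c -/
theorem card_redN_swap {d κ : ℕ} (hκ : 1 ≤ κ) (H : Fin d → Fin d → ℤ) :
    (redN κ (fun i j => H j i)).card = (redN κ H).card := by
  have hker : ∀ (N : ℕ) [NeZero N], (kerN N (fun i j => H j i)).card = (kerN N H).card := by
    intro N _
    have h1 := card_kerT_kerN N H
    have h2 : kerN N (fun i j => H j i) = kerT N H := rfl
    rw [h2]
    exact Nat.eq_of_mul_eq_mul_right (pow_pos (Nat.pos_of_ne_zero (NeZero.ne N)) _) h1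
  obtain ⟨j, rfl⟩ : ∃ j, κ = j + 1 := ⟨κ - 1, by omega⟩
  have h1 := card_kerN_succ H j
  have h2 := card_kerN_succ (fun i j => H j i) j
  rw [hker, hker, h1] at h2
  have hpos : 0 < (kerN (2 ^ j) H).card := by
    apply card_pos.2
    refine ⟨0, ?_⟩
    simp only [kerN, mem_filter, mem_univ, Pi.zero_apply, mul_zero, sum_const_zero, implies_true, and_self]
  exact (Nat.eq_of_mul_eq_mul_left hpos h2).symm

lemma sm4c_equiv {d r l : ℕ} (hd : d = r + l) (S : Finset (Fin d)) (hS : S.card = l) :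
    ∃ e : Fin r ⊕ Fin l ≃ Fin d, (∀ j, e (Sum.inr j) ∈ S) ∧
      ∀ (M : Type) [AddCommMonoid M] (f : Fin d → M),
        ∑ k ∈ Sᶜ, f k = ∑ k : Fin r, f (e (Sum.inl k)) := by
  have hc : Sᶜ.card = r := by
    rw [card_compl, Fintype.card_fin, hS]; (clear * - hd; omega)
  have hcc : (Sᶜ)ᶜ.card = l := by rw [compl_compl]; exact hS
  refine ⟨finSumEquivOfFinset hc hcc, fun j => ?_, fun M _ f => ?_⟩
  · rw [finSumEquivOfFinset_inr]
    have := Finset.orderEmbOfFin_mem (Sᶜ)ᶜ hcc j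
    rwa [mem_compl, mem_compl, not_not] at this
  · simp only [finSumEquivOfFinset_inl]
    conv_lhs => rw [← Finset.map_orderEmbOfFin_univ Sᶜ hc]
    rw [sum_map]
    rfl

/-- Task M4c -/
theorem block_form {κ d l r : ℕ} (hκ : 1 ≤ κ) (hd : d = r + l) (H : Fin d → Fin d → ℤ)
    (h : 2 ^ l ≤ (redN κ H).card) :
    ∃ (eI eC : Fin r ⊕ Fin l ≃ Fin d) (Y L : Fin l → Fin r → ZMod (2 ^ κ)),
      (∀ i j, ((H i (eC (Sum.inr j)) : ℤ) : ZMod (2 ^ κ)) =
        ∑ k, ((H i (eC (Sum.inl k)) : ℤ) : ZMod (2 ^ κ)) * Y j k) ∧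
      (∀ i j, ((H (eI (Sum.inr i)) j : ℤ) : ZMod (2 ^ κ)) =
        ∑ k, L i k * ((H (eI (Sum.inl k)) j : ℤ) : ZMod (2 ^ κ))) := by
  obtain ⟨S, hS, hS'⟩ := exists_span_cols hκ H l h
  obtain ⟨T, hT, hT'⟩ := exists_span_cols hκ (fun i j => H j i) l
    (by rw [card_redN_swap hκ]; exact h)
  obtain ⟨eC, hC1, hC2⟩ := sm4c_equiv hd S hS
  obtain ⟨eI, hI1, hI2⟩ := sm4c_equiv hd T hT
  choose! y hy using hS'
  choose! z hz using hT'
  refine ⟨eI, eC, fun j k => y (eC (Sum.inr j)) (eC (Sum.inl k)),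
    fun i k => z (eI (Sum.inr i)) (eI (Sum.inl k)), fun i j => ?_, fun i j => ?_⟩
  · rw [hy _ (hC1 j) i]
    exact hC2 _ _
  · rw [hz _ (hI1 i) j]
    rw [hI2]
    exact sum_congr rfl fun k _ => mul_comm _ _

end Vale.Agent.P160
end
end

section

section

set_option linter.unusedSectionVars false

namespace Vale.Agent.P160

open Finset

section classes

variable {α : Type*} [Fintype α] [DecidableEq α]

end classes

section bounds

variable {n : ℕ} (D : Finset (Fin n))

lemma sum_filter_split {R : Type*} [Fintype R] [DecidableEq R]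
    (C : Finset ({i // i ∈ D} → R)) (F : ({i // i ∈ D} → R) → ({i // i ∉ D} → R) → ℝ) :
    ∑ v ∈ univ.filter (fun v : Fin n → R => (fun j : {i // i ∈ D} => v j) ∈ C),
      F (fun j => v j) (fun i => v i) = ∑ x ∈ C, ∑ z, F x z := by
  classical
  rw [sum_filter]
  have h := sum_split D (fun (x : {i // i ∈ D} → R) (z : {i // i ∉ D} → R) =>
    if x ∈ C then F x z else 0)
  rw [h, ← sum_filter_add_sum_filter_not univ (fun x => x ∈ C)]
  rw [sum_eq_zero (s := univ.filter (fun x => ¬ x ∈ C)), add_zero]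
  · have h2 : univ.filter (fun x => x ∈ C) = C := by ext; simp only [subset_univ, filter_mem_eq_of_subset]
    rw [h2]
    refine sum_congr rfl fun x hx => ?_
    refine sum_congr rfl fun z _ => ?_
    rw [if_pos hx]
  · intro x hx
    rw [mem_filter] at hx
    apply sum_eq_zero
    intro z _
    rw [if_neg hx.2]

/-- Bound for the sparse event. -/
lemma Pb_Ev0_le (u : ℕ) :
    Pb (Ev0 D u) ≤ 2 * ((univ.filter (fun x : {i // i ∈ D} → ZMod 2 => nu x < u)).card : ℝ) /
      2 ^ D.card := by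
  classical
  set C : Finset ({i // i ∈ D} → ZMod 2) := univ.filter (fun x => nu x < u) with hC
  set s : Finset ((Fin n → ZMod 2) × ZMod 2) :=
    (univ.filter (fun v : Fin n → ZMod 2 => (fun j : {i // i ∈ D} => v j) ∈ C)) ×ˢ univ with hs
  have h1 : Pb (Ev0 D u) ≤ Pb (fun b => ∃ p ∈ s, p.1 ≠ 0 ∧ smul2 b p.1 = fun _ => p.2) := by
    apply Pb_mono
    rintro b ⟨v, c, hv, hnu, h⟩
    refine ⟨(v, c), ?_, hv, h⟩
    rw [hs, mem_product]
    refine ⟨?_, mem_univ _⟩
    rw [mem_filter, hC, mem_filter]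
    exact ⟨mem_univ _, mem_univ _, hnu⟩
  have h2 : ∀ p ∈ s, Pb (fun b => p.1 ≠ 0 ∧ smul2 b p.1 = fun _ => p.2) ≤ 1 / 2 ^ n := by
    intro p _
    by_cases hp : p.1 = 0
    · have : Pb (fun b => p.1 ≠ 0 ∧ smul2 b p.1 = fun _ => p.2) = 0 := by
        have h0 := Pb_mono (A := fun b => p.1 ≠ 0 ∧ smul2 b p.1 = fun _ => p.2)
          (B := fun _ => False) (fun b hb => hb.1 hp)
        have h00 : Pb (fun _ : Sym2 (Fin n) → Bool => False) = 0 := by
          unfold Pb; simp only [filter_false, card_empty, CharP.cast_eq_zero, zero_div]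
        exact le_antisymm (h00 ▸ h0) (Pb_nonneg _)
      rw [this]; positivity
    · have h3 := Spr_le_two_pow p.1 (fun _ => p.2) hp
      rw [← Pb_eq_Spr, Fintype.card_fin] at h3
      exact (Pb_mono fun b hb => hb.2).trans h3
  have h3 := (h1.trans (Pb_exists s _)).trans (sum_le_sum h2)
  rw [sum_const, nsmul_eq_mul] at h3
  refine h3.trans (le_of_eq ?_)
  have h4 : (s.card : ℝ) = 2 * (C.card * 2 ^ (n - D.card)) := by
    rw [hs, card_product, card_univ, ZMod.card]
    have h5 := sum_filter_split (R := ZMod 2) D C (fun _ _ => (1 : ℝ))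
    rw [sum_const, nsmul_eq_mul, mul_one] at h5
    push_cast
    rw [h5]
    simp only [sum_const, nsmul_eq_mul, mul_one, card_univ, Fintype.card_fun, ZMod.card]
    push_cast
    have h6 : Fintype.card {i // i ∉ D} = n - D.card := by
      rw [Fintype.card_subtype_compl, Fintype.card_fin, Fintype.card_coe]
    rw [h6]
    ring
  rw [h4]
  have hd : D.card ≤ n := by
    have := Finset.card_le_univ D
    rwa [Fintype.card_fin] at this
  have h7 : (2 : ℝ) ^ n = 2 ^ D.card * 2 ^ (n - D.card) := by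
    rw [← pow_add]; congr 1; omega
  rw [h7]
  (clear * -; field_simp)

lemma exists_unit_of_nu_pos {α : Type*} [Fintype α] {N : ℕ} (v : α → ZMod N) (h : 0 < nu v) :
    ∃ i, IsUnit (v i) := by
  classical
  unfold nu at h
  rw [Finset.card_pos] at h
  obtain ⟨i, hi⟩ := h
  exact ⟨i, (mem_filter.1 hi).2⟩

lemma card_two_mul_eq_le {J : ℕ} (s : ZMod (2 ^ (J + 1))) :
    (univ.filter (fun c : ZMod (2 ^ (J + 1)) => 2 * c = s)).card ≤ 2 := by
  classical
  by_cases hne : (univ.filter (fun c : ZMod (2 ^ (J + 1)) => 2 * c = s)).Nonempty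
  · obtain ⟨c₀, hc₀⟩ := hne
    rw [mem_filter] at hc₀
    have : univ.filter (fun c : ZMod (2 ^ (J + 1)) => 2 * c = s) ⊆
        {c₀, c₀ + ((2 ^ J : ℕ) : ZMod (2 ^ (J + 1)))} := by
      intro c hc
      rw [mem_filter] at hc
      have h1 : 2 * (c - c₀) = 0 := by rw [mul_sub, hc.2, hc₀.2, sub_self]
      rcases (two_mul_eq_zero_iff _).1 h1 with h | h
      · rw [sub_eq_zero] at h
        rw [h]; simp only [Nat.cast_pow, Nat.cast_ofNat, mem_insert, mem_singleton, left_eq_add, true_or]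
      · rw [sub_eq_iff_eq_add'] at h
        rw [h]; simp only [Nat.cast_pow, Nat.cast_ofNat, mem_insert, add_eq_left, mem_singleton, or_true]
    exact (Finset.card_le_card this).trans (Finset.card_le_two)
  · rw [Finset.not_nonempty_iff_eq_empty] at hne
    rw [hne]; simp only [card_empty, zero_le]

lemma card_units_two_pow (J : ℕ) : Fintype.card (ZMod (2 ^ (J + 1)))ˣ = 2 ^ J := by
  rw [ZMod.card_units_eq_totient, Nat.totient_prime_pow_succ Nat.prime_two]
  simp only [Nat.add_one_sub_one, mul_one]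

end bounds

end Vale.Agent.P160
end
end

section

section

namespace Vale.Agent.P160

open Finset

section sn2

variable {α : Type} [Fintype α] [DecidableEq α]

lemma sn2_walk_add {N : ℕ} (a : α → Fin 4) (u v : α → ZMod N) :
    walk a (u + v) = walk a u + walk a v := by
  unfold walk
  rw [← sum_add_distrib]
  refine sum_congr rfl fun i _ => ?_
  rw [Pi.add_apply]
  ring

lemma sn2_ee_eq_one {N : ℕ} [NeZero N] {x : ZMod N} (h : ee x = 1) : x = 0 := by
  have h1 : ee x = ee (0 : ZMod N) := by rw [h, ee_zero]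
  exact ZMod.injective_stdAddChar h1

open Classical in
/-- the elements of a subgroup as a finite set -/
noncomputable def sn2_fin (I : ℕ) (K : AddSubgroup (α → ZMod (2 ^ I))) :
    Finset (α → ZMod (2 ^ I)) := univ.filter (fun k => k ∈ K)

lemma sn2_mem {I : ℕ} {K : AddSubgroup (α → ZMod (2 ^ I))} {k : α → ZMod (2 ^ I)} :
    k ∈ sn2_fin I K ↔ k ∈ K := by
  simp only [sn2_fin, mem_filter, mem_univ, true_and]

lemma sn2_card {I : ℕ} (K : AddSubgroup (α → ZMod (2 ^ I))) :
    (sn2_fin I K).card = Nat.card K := by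
  classical
  rw [Nat.card_eq_fintype_card]
  unfold sn2_fin
  exact (Fintype.card_subtype (fun k => k ∈ K)).symm

lemma sn2_sum_walk {I : ℕ} (K : AddSubgroup (α → ZMod (2 ^ I))) (a : α → Fin 4) :
    ∑ k ∈ sn2_fin I K, ee (walk a k) = if a ∈ orth I K then ((Nat.card K : ℕ) : ℂ) else 0 := by
  classical
  split_ifs with h
  · have h1 : ∀ k ∈ K, walk a k = 0 := by
      simpa only [orth, mem_filter, mem_univ, true_and] using h
    rw [sum_congr rfl (fun k hk => by rw [h1 k (sn2_mem.1 hk), ee_zero]), sum_const, sn2_card]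
    simp only [Nat.card_eq_fintype_card, nsmul_eq_mul, mul_one]
  · have h1 : ∃ k ∈ K, walk a k ≠ 0 := by
      by_contra hcon
      push Not at hcon
      apply h
      simpa only [orth, mem_filter, mem_univ, true_and] using hcon
    obtain ⟨k0, hk0, hne⟩ := h1
    have h2 : ∑ k ∈ sn2_fin I K, ee (walk a k) =
        ee (walk a k0) * ∑ k ∈ sn2_fin I K, ee (walk a k) := by
      rw [mul_sum]
      refine sum_bij (fun k _ => k - k0) ?_ ?_ ?_ ?_
      · intro k hk
        exact sn2_mem.2 (K.sub_mem (sn2_mem.1 hk) hk0)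
      · intro k _ l _ e
        exact sub_left_injective e
      · intro k hk
        exact ⟨k + k0, sn2_mem.2 (K.add_mem (sn2_mem.1 hk) hk0), by simp⟩
      · intro k _
        rw [← ee_add, ← sn2_walk_add]
        congr 2
        abel
    have h3 : (1 - ee (walk a k0)) * ∑ k ∈ sn2_fin I K, ee (walk a k) = 0 := by
      rw [sub_mul, one_mul, ← h2, sub_self]
    rcases mul_eq_zero.1 h3 with h4 | h4
    · exact absurd (sn2_ee_eq_one (sub_eq_zero.1 h4).symm) hne
    · exact h4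

lemma sn2_sum_seed {I : ℕ} (k : α → ZMod (2 ^ I)) :
    ∑ a : α → Fin 4, ee (walk a k) =
      (((4 : ℝ) ^ Fintype.card α * ∏ i, cf 4 (ee (k i)) : ℝ) : ℂ) := by
  have h := sum_prod_zpow_st (ι := α) (M := 4) (by (clear * -; norm_num)) (fun i => ee (k i))
    (fun i => norm_ee _)
  rw [show (((4 : ℕ) : ℝ)) = 4 by norm_num] at h
  rw [← h]
  refine sum_congr rfl fun a _ => ?_
  have := ee_walk a k 1
  simpa only [one_mul] using this

lemma sn2_main {I : ℕ} (K : AddSubgroup (α → ZMod (2 ^ I))) :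
    ((orth I K).card : ℝ) * Nat.card K =
      ∑ k ∈ sn2_fin I K, (4 : ℝ) ^ Fintype.card α * ∏ i, cf 4 (ee (k i)) := by
  classical
  have h1 : ∑ a : α → Fin 4, ∑ k ∈ sn2_fin I K, ee (walk a k) =
      ((orth I K).card : ℂ) * Nat.card K := by
    simp only [sn2_sum_walk]
    rw [← sum_filter, sum_const, nsmul_eq_mul]
    congr 2
    simp only [subset_univ, filter_mem_eq_of_subset]
  rw [sum_comm] at h1
  simp only [sn2_sum_seed] at h1
  have h2 : (((∑ k ∈ sn2_fin I K, (4 : ℝ) ^ Fintype.card α * ∏ i, cf 4 (ee (k i))) : ℝ) : ℂ) =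
      ((((orth I K).card : ℝ) * (Nat.card K : ℝ) : ℝ) : ℂ) := by
    rw [Complex.ofReal_sum, h1]
    push_cast
    rfl
  exact (Complex.ofReal_injective h2).symm

lemma sn2_cf_lt {N : ℕ} [NeZero N] {c : ZMod N} (hc : c ≠ 0) : cf 4 (ee c) < 1 := by
  have h1 := cf_le_one (M := 4) (norm_ee c)
  refine lt_of_le_of_ne h1 ?_
  intro h
  have h2 : (ee c).re = 1 := by
    unfold cf at h
    push_cast at h
    (clear hc h1; linarith)
  have h3 := norm_ee c
  have h4 : (ee c).re ^ 2 + (ee c).im ^ 2 = 1 := by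
    have := Complex.sq_norm (ee c)
    rw [h3, Complex.normSq_apply] at this
    (clear hc h1 h h2 h3; nlinarith)
  rw [h2] at h4
  have h5 : (ee c).im = 0 := by (clear hc h1 h h2 h3; nlinarith)
  exact hc (sn2_ee_eq_one (Complex.ext (by simpa only [Complex.one_re] using h2) (by simpa using h5)))

end sn2

/-- Task N2 -/
theorem orth_le (I : ℕ) (hI : 1 ≤ I) : ∃ q : ℝ, 0 < q ∧ q < 1 ∧ ∀ (α : Type) [Fintype α]
    [DecidableEq α] (w : ℕ) (K : AddSubgroup (α → ZMod (2 ^ I))),
    ((orth I K).card : ℝ) * Nat.card K ≤ Nat.card (spars I w K) * (orth I (spars I w K)).card +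
      Nat.card K * q ^ w * 4 ^ Fintype.card α := by
  classical
  obtain ⟨c0, -, hc0⟩ := Finset.exists_max_image (univ : Finset (ZMod (2 ^ I)))
    (fun c => if c = 0 then (1 / 2 : ℝ) else cf 4 (ee c)) ⟨0, mem_univ _⟩
  set q : ℝ := max (1 / 2) (if c0 = 0 then (1 / 2 : ℝ) else cf 4 (ee c0)) with hq
  have hq0 : 0 < q := lt_of_lt_of_le (by norm_num) (le_max_left _ _)
  have hq1 : q < 1 := by
    apply max_lt (by norm_num)
    split_ifs with h
    · norm_num
    · exact sn2_cf_lt h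
  have hqc : ∀ c : ZMod (2 ^ I), c ≠ 0 → cf 4 (ee c) ≤ q := by
    intro c hc
    have := hc0 c (mem_univ _)
    simp only [hc, if_false] at this
    exact this.trans (le_max_right _ _)
  refine ⟨q, hq0, hq1, ?_⟩
  intro α _ _ w K
  have hsub : spars I w K ≤ K := by
    unfold spars
    rw [AddSubgroup.closure_le]
    intro k hk
    exact hk.1
  have hfs : sn2_fin I (spars I w K) ⊆ sn2_fin I K := by
    intro k hk
    exact sn2_mem.2 (hsub (sn2_mem.1 hk))
  have hterm : ∀ k ∈ sn2_fin I K \ sn2_fin I (spars I w K),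
      (4 : ℝ) ^ Fintype.card α * ∏ i, cf 4 (ee (k i)) ≤ q ^ w * 4 ^ Fintype.card α := by
    intro k hk
    rw [mem_sdiff, sn2_mem, sn2_mem] at hk
    have hw : w ≤ suppc k := by
      by_contra hcon
      apply hk.2
      exact AddSubgroup.subset_closure ⟨hk.1, not_le.1 hcon⟩
    have h1 : ∏ i, cf 4 (ee (k i)) ≤ q ^ suppc k := by
      have h2 : ∏ i, cf 4 (ee (k i)) ≤ ∏ i : α, (if k i ≠ 0 then q else 1) := by
        apply prod_le_prod
        · intro i _
          exact cf_nonneg (by norm_num) (norm_ee _)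
        · intro i _
          split_ifs with h
          · exact hqc _ h
          · exact cf_le_one (norm_ee _)
      refine h2.trans (le_of_eq ?_)
      rw [prod_ite]
      simp [suppc]
    have h3 : q ^ suppc k ≤ q ^ w := pow_le_pow_of_le_one hq0.le hq1.le hw
    rw [mul_comm]
    exact mul_le_mul_of_nonneg_right (h1.trans h3) (by positivity)
  rw [sn2_main, ← sum_sdiff hfs, ← sn2_main, add_comm]
  have h4 : ∑ k ∈ sn2_fin I K \ sn2_fin I (spars I w K),
      (4 : ℝ) ^ Fintype.card α * ∏ i, cf 4 (ee (k i)) ≤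
      Nat.card K * q ^ w * 4 ^ Fintype.card α := by
    refine (sum_le_card_nsmul _ _ _ hterm).trans ?_
    rw [nsmul_eq_mul, mul_assoc (Nat.card K : ℝ)]
    apply mul_le_mul_of_nonneg_right _ (by (clear * -; positivity))
    rw [← sn2_card]
    exact_mod_cast card_le_card sdiff_subset
  have h5 : ((orth I (spars I w K)).card : ℝ) * Nat.card (spars I w K) =
      Nat.card (spars I w K) * (orth I (spars I w K)).card := mul_comm _ _
  (clear * - h4; linarith)

/-- Task N2 -/
theorem orth_tors {α : Type} [Fintype α] [DecidableEq α] (I : ℕ) (hI : 1 ≤ I)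
    (L : AddSubgroup (α → ZMod (2 ^ I))) :
    (orth I L).card * (tors I L).card ≤ 4 ^ Fintype.card α := by
  classical
  let T : AddSubgroup (α → ZMod (2 ^ I)) :=
    { carrier := {k | k ∈ L ∧ k + k = 0}
      add_mem' := by
        rintro a b ⟨ha, ha'⟩ ⟨hb, hb'⟩
        refine ⟨L.add_mem ha hb, ?_⟩
        calc a + b + (a + b) = (a + a) + (b + b) := by abel
          _ = 0 := by rw [ha', hb', add_zero]
      zero_mem' := ⟨L.zero_mem, add_zero 0⟩
      neg_mem' := by
        rintro a ⟨ha, ha'⟩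
        refine ⟨L.neg_mem ha, ?_⟩
        rw [← neg_add, ha', neg_zero] }
  have hT : ∀ k, k ∈ T ↔ k ∈ L ∧ k + k = 0 := fun k => Iff.rfl
  have h1 : (tors I L).card = Nat.card T := by
    rw [← sn2_card]
    congr 1
    ext k
    rw [sn2_mem, hT]
    simp only [tors, mem_filter, mem_univ, true_and]
  have h2 : (orth I L).card ≤ (orth I T).card := by
    apply card_le_card
    intro a ha
    simp only [orth, mem_filter, mem_univ, true_and] at ha ⊢
    intro k hk
    exact ha k hk.1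
  have h3 := sn2_main T
  have h4 : ∑ k ∈ sn2_fin I T, (4 : ℝ) ^ Fintype.card α * ∏ i, cf 4 (ee (k i)) =
      4 ^ Fintype.card α := by
    rw [sum_eq_single (0 : α → ZMod (2 ^ I))]
    · have : ∏ i : α, cf 4 (ee ((0 : α → ZMod (2 ^ I)) i)) = 1 := by
        apply prod_eq_one
        intro i _
        rw [Pi.zero_apply, ee_zero]
        unfold cf
        norm_num
      rw [this, mul_one]
    · intro k hk hne
      rw [sn2_mem, hT] at hk
      have : ∏ i, cf 4 (ee (k i)) = 0 := by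
        obtain ⟨i, hi⟩ : ∃ i, k i ≠ 0 := by
          by_contra hcon
          push Not at hcon
          exact hne (funext hcon)
        apply prod_eq_zero (mem_univ i)
        have h5 : k i + k i = 0 := congrFun hk.2 i
        have h6 : ee (k i) * ee (k i) = 1 := by rw [← ee_add, h5, ee_zero]
        have h7 : ee (k i) = -1 := by
          rcases mul_self_eq_one_iff.1 h6 with h | h
          · exact absurd (sn2_ee_eq_one h) hi
          · exact h
        rw [h7]
        unfold cf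
        norm_num
      rw [this, mul_zero]
    · intro h
      exact absurd (sn2_mem.2 T.zero_mem) h
  rw [h4] at h3
  have h5 : (orth I T).card * Nat.card T = 4 ^ Fintype.card α := by exact_mod_cast h3
  rw [h1, ← h5]
  exact Nat.mul_le_mul_right _ h2

end Vale.Agent.P160
end
end

section

section

set_option linter.unusedSectionVars false

namespace Vale.Agent.P160

open Finset

section sumz

variable {α β : Type*} [Fintype α] [Fintype β] [DecidableEq α] [DecidableEq β]

end sumz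

end Vale.Agent.P160
end
end

section

section

set_option linter.unusedSectionVars false

namespace Vale.Agent.P160

open Finset

section quadlift

variable {n : ℕ}

lemma smul2_add {R : Type*} [Ring R] (b : Sym2 (Fin n) → Bool) (x y : Fin n → R) (a : R)
    (i : Fin n) : smul2 b (fun k => x k + a * y k) i = smul2 b x i + a * smul2 b y i := by
  unfold smul2
  rw [mul_sum, ← sum_add_distrib]
  refine sum_congr rfl fun j _ => ?_
  split_ifs <;> simp

lemma smul2_symm {R : Type*} [CommRing R] (b : Sym2 (Fin n) → Bool) (x y : Fin n → R) :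
    ∑ i, x i * smul2 b y i = ∑ i, y i * smul2 b x i := by
  unfold smul2
  simp only [mul_sum]
  rw [sum_comm]
  refine sum_congr rfl fun i _ => sum_congr rfl fun j _ => ?_
  rw [Sym2.eq_swap]
  split_ifs
  · ring
  · ring

/-- The quadratic form of a kernel vector vanishes mod `N * N` for every lift. -/
lemma quad_int (b : Sym2 (Fin n) → Bool) (g w : Fin n → ℤ) (c N : ℤ)
    (h1 : smul2 b g = fun _ => c) (h2 : 2 * c = ∑ i, g i) :
    2 * ∑ i, (g i + N * w i) * smul2 b (fun k => g k + N * w k) i -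
      (∑ i, (g i + N * w i)) ^ 2 =
      N * N * (2 * ∑ i, w i * smul2 b w i - (∑ i, w i) ^ 2) := by
  have h3 : ∀ i, smul2 b g i = c := fun i => congrFun h1 i
  have h4 : ∑ i, g i * smul2 b w i = ∑ i, w i * smul2 b g i := smul2_symm b g w
  have h5 : ∑ i, w i * smul2 b g i = (∑ i, w i) * c := by
    rw [sum_mul]
    exact sum_congr rfl fun i _ => by rw [h3]
  have h6 : ∑ i, g i * smul2 b g i = (∑ i, g i) * c := by
    rw [sum_mul]
    exact sum_congr rfl fun i _ => by rw [h3]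
  have h7 : ∑ i, (g i + N * w i) * smul2 b (fun k => g k + N * w k) i =
      ∑ i, g i * smul2 b g i + N * ∑ i, g i * smul2 b w i + N * ∑ i, w i * smul2 b g i +
        N * N * ∑ i, w i * smul2 b w i := by
    simp only [smul2_add, mul_sum]
    rw [← sum_add_distrib, ← sum_add_distrib, ← sum_add_distrib]
    refine sum_congr rfl fun i _ => ?_
    ring
  have h8 : ∑ i, (g i + N * w i) = (∑ i, g i) + N * ∑ i, w i := by
    rw [mul_sum, ← sum_add_distrib]
  rw [h7, h8, h4, h5, h6, ← h2]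
  ring

/-- The event that `v` is a kernel vector mod `N`, with the quadratic condition mod `N * N`. -/
def Kev {N : ℕ} (v : Fin n → ZMod N) (c : ZMod N) (b : Sym2 (Fin n) → Bool) : Prop :=
  smul2 b v = (fun _ => c) ∧
    2 * ∑ i, lft (v i) * smul2 b (fun i => lft (v i)) i = (∑ i, lft (v i)) ^ 2

lemma smul2_intCast {N : ℕ} (b : Sym2 (Fin n) → Bool) (h : Fin n → ℤ) (i : Fin n) :
    smul2 b (fun k => ((h k : ℤ) : ZMod N)) i = ((smul2 b h i : ℤ) : ZMod N) := by
  unfold smul2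
  push_cast
  refine sum_congr rfl fun j _ => ?_
  split_ifs <;> simp

lemma Kev_of_int {N : ℕ} [NeZero N] (b : Sym2 (Fin n) → Bool) (g : Fin n → ℤ) (c : ℤ)
    (h1 : smul2 b g = fun _ => c) (h2 : 2 * c = ∑ i, g i) :
    Kev (fun i => (g i : ZMod N)) (c : ZMod N) b := by
  refine ⟨smul2_cast b g c h1, ?_⟩
  -- the lift
  have hdvd : ∀ i, (N : ℤ) ∣ (((g i : ZMod N).val : ℕ) : ℤ) - g i := by
    intro i
    rw [← ZMod.intCast_zmod_eq_zero_iff_dvd]
    push_cast
    rw [ZMod.natCast_zmod_val, sub_self]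
  choose w hw using hdvd
  have hl : ∀ i, lft (g i : ZMod N) = ((g i + N * w i : ℤ) : ZMod (N * N)) := by
    intro i
    unfold lft
    rw [← hw i]
    push_cast
    ring
  simp only [hl]
  have h3 := quad_int b g w c N h1 h2
  have h4 := congrArg (Int.cast : ℤ → ZMod (N * N)) h3
  have h5 : ((N : ZMod (N * N)) * N) = 0 := by
    have := ZMod.natCast_self (N * N)
    push_cast at this
    exact this
  have h6 : smul2 b (fun i => ((g i + N * w i : ℤ) : ZMod (N * N))) =
      fun i => ((smul2 b (fun k => g k + N * w k) i : ℤ) : ZMod (N * N)) := by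
    funext i
    exact smul2_intCast b (fun k => g k + N * w k) i
  rw [h6]
  push_cast at h4 ⊢
  rw [h5, zero_mul, sub_eq_zero] at h4
  exact h4

lemma Pb_Kev {N : ℕ} [NeZero N] (v : Fin n → ZMod N) (c : ZMod N) :
    Pb (Kev v c) = bpr (cq v) ((fun _ => c), (∑ i, lft (v i)) ^ 2) := by
  classical
  unfold Pb bpr
  congr 2
  congr 1
  ext b
  simp only [mem_filter, mem_univ, true_and]
  rw [bwalk_cq, Prod.mk.injEq]
  rfl

end quadlift

section events

variable {n : ℕ} {T : Type} [Fintype T] [DecidableEq T] [Nonempty T] (D : T → Finset (Fin n))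

open Classical in
/-- Distinct star centers. -/
lemma exists_centers {N : ℕ} (v : Fin n → ZMod N) {u : ℕ} (hu : Fintype.card T ≤ u)
    (h : ∀ t, u ≤ nu (fun i : {i // i ∈ D t} => v i)) :
    ∃ l₀ : ∀ t, {i // i ∈ D t}, Function.Injective (fun t => (l₀ t).1) ∧
      ∀ t, IsUnit (v (l₀ t)) := by
  set O : T → Finset (Fin n) := fun t => (univ.filter (fun i : {i // i ∈ D t} =>
    IsUnit (v i))).map (Function.Embedding.subtype _) with hO
  have hcard : ∀ t, u ≤ (O t).card := by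
    intro t
    rw [hO]
    simp only [card_map]
    exact (h t).trans (le_of_eq (nu_eq _))
  have hall : ∀ s : Finset T, s.card ≤ (s.biUnion O).card := by
    intro s
    rcases s.eq_empty_or_nonempty with hs | ⟨t, ht⟩
    · rw [hs]; simp
    · calc s.card ≤ Fintype.card T := Finset.card_le_univ s
        _ ≤ u := hu
        _ ≤ (O t).card := hcard t
        _ ≤ _ := Finset.card_le_card (Finset.subset_biUnion_of_mem O ht)
  obtain ⟨f, hf1, hf2⟩ := (Finset.all_card_le_biUnion_card_iff_exists_injective O).1 hall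
  have hf3 : ∀ t, ∃ hmem : f t ∈ D t, IsUnit (v (f t)) := by
    intro t
    have := hf2 t
    rw [hO] at this
    simp only [mem_map, mem_filter, mem_univ, true_and] at this
    obtain ⟨a, ha, hfa⟩ := this
    have hfa' : a.1 = f t := hfa
    rw [← hfa']
    exact ⟨a.2, ha⟩
  refine ⟨fun t => ⟨f t, (hf3 t).1⟩, hf1, fun t => (hf3 t).2⟩

end events

end Vale.Agent.P160
end
end

section

section

set_option linter.unusedSectionVars false

namespace Vale.Agent.P160

open Finset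

section blocks

variable {α β : Type} [Fintype α] [Fintype β] [DecidableEq α] [DecidableEq β]

end blocks

section evA

variable {n : ℕ} {T : Type} [Fintype T] [DecidableEq T] [Nonempty T] (D : T → Finset (Fin n))

lemma sum_restrict_le {R : Type} [Fintype R] [DecidableEq R] (D₁ : Finset (Fin n))
    (C : Finset (Fin n → R)) (C₁ : Finset ({i // i ∈ D₁} → R))
    (h : ∀ v ∈ C, (fun j : {i // i ∈ D₁} => v j) ∈ C₁)
    (F : ({i // i ∈ D₁} → R) → ({i // i ∉ D₁} → R) → ℝ) (hF : ∀ x z, 0 ≤ F x z) :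
    ∑ v ∈ C, F (fun j => v j) (fun i => v i) ≤ ∑ x ∈ C₁, ∑ z, F x z := by
  classical
  rw [← sum_filter_split D₁ C₁ F]
  apply Finset.sum_le_sum_of_subset_of_nonneg
  · intro v hv
    rw [mem_filter]
    exact ⟨mem_univ _, h v hv⟩
  · intro v _ _
    exact hF _ _

lemma prod_weights {Λ : ℝ} (hΛ : 1 ≤ Λ) (t₀ : T) :
    1 ≤ ∏ t, (if t = t₀ then Λ ^ Fintype.card T else Λ⁻¹) := by
  have hΛ0 : 0 < Λ := by linarith only [hΛ]
  have h1 : ∏ t, (if t = t₀ then Λ ^ Fintype.card T else Λ⁻¹) =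
      Λ ^ Fintype.card T * (Λ⁻¹) ^ (Fintype.card T - 1) := by
    rw [← Finset.mul_prod_erase univ _ (mem_univ t₀), if_pos rfl]
    congr 1
    rw [Finset.prod_congr rfl (g := fun _ => Λ⁻¹) (fun t ht => by
      rw [if_neg (Finset.ne_of_mem_erase ht)]), prod_const, card_erase_of_mem (mem_univ _),
      card_univ]
  rw [h1]
  have hT : 0 < Fintype.card T := Fintype.card_pos
  have h2 : (Λ⁻¹) ^ Fintype.card T ≤ (Λ⁻¹) ^ (Fintype.card T - 1) :=
    pow_le_pow_of_le_one (by positivity) (inv_le_one_of_one_le₀ hΛ) (Nat.sub_le _ _)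
  calc (1 : ℝ) = Λ ^ Fintype.card T * (Λ⁻¹) ^ Fintype.card T := by
        rw [← mul_pow, mul_inv_cancel₀ hΛ0.ne', one_pow]
    _ ≤ _ := mul_le_mul_of_nonneg_left h2 (by positivity)

end evA

end Vale.Agent.P160
end
end

section

section

set_option linter.unusedSectionVars false

namespace Vale.Agent.P160

open Finset

section blocks

variable {α β : Type} [Fintype α] [Fintype β] [DecidableEq α] [DecidableEq β]

end blocks

section evB

variable {n : ℕ} {T : Type} [Fintype T] [DecidableEq T] [Nonempty T] (D : T → Finset (Fin n))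

lemma smul2_mul_left {R : Type*} [Ring R] (b : Sym2 (Fin n) → Bool) (g : Fin n → R) (τ : R) :
    smul2 b (fun i => τ * g i) = fun i => τ * smul2 b g i := by
  funext i
  unfold smul2
  rw [mul_sum]
  refine sum_congr rfl fun j _ => ?_
  split_ifs <;> simp

lemma Bq_nonneg {α β : Type*} [Fintype α] [Fintype β] [DecidableEq α] [DecidableEq β] {N : ℕ}
    (x : α → ZMod N) (z : β → ZMod N) : 0 ≤ Bq x z := by
  unfold Bq; (clear * -; positivity)

end evB

end Vale.Agent.P160
end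
end

section

section

set_option linter.unusedSectionVars false

namespace Vale.Agent.P160

open Finset

section
variable {α β : Type*} [Fintype α] [Fintype β] [DecidableEq α] [DecidableEq β]

lemma sk1_redN_pos (H : β → α → ℤ) (κ : ℕ) : 1 ≤ (redN κ H).card := by
  rw [Nat.one_le_iff_ne_zero, Ne, Finset.card_eq_zero, ← Ne, ← Finset.nonempty_iff_ne_empty]
  refine Finset.Nonempty.image ⟨0, ?_⟩ _
  rw [sm4a_mem_kerN]
  intro i
  simp only [Pi.zero_apply, mul_zero, sum_const_zero]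

lemma sk1_redN_le (H : β → α → ℤ) (κ : ℕ) : (redN κ H).card ≤ 2 ^ Fintype.card α := by
  refine (Finset.card_le_univ _).trans (le_of_eq ?_)
  rw [Fintype.card_fun, ZMod.card]

lemma sk1_kerN_zero_le (H : β → α → ℤ) : (kerN (2 ^ 0) H).card ≤ 1 := by
  apply Finset.card_le_one.2
  intro a _ b _
  funext i
  apply ZMod.val_injective
  have h1 : (a i).val < 1 := lt_of_lt_of_eq (ZMod.val_lt (a i)) (pow_zero 2)
  have h2 : (b i).val < 1 := lt_of_lt_of_eq (ZMod.val_lt (b i)) (pow_zero 2)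
  omega

lemma sk1_kerN_pos (N : ℕ) [NeZero N] (H : β → α → ℤ) : 1 ≤ (kerN N H).card := by
  rw [Nat.one_le_iff_ne_zero, Ne, Finset.card_eq_zero, ← Ne, ← Finset.nonempty_iff_ne_empty]
  refine ⟨0, ?_⟩
  rw [sm4a_mem_kerN]
  intro i
  simp only [Pi.zero_apply, mul_zero, sum_const_zero]

/-- Task K1 -/
theorem card_kerN_mono (H : β → α → ℤ) {i j : ℕ} (hij : i ≤ j) :
    (kerN (2 ^ i) H).card ≤ (kerN (2 ^ j) H).card := by
  obtain ⟨m, rfl⟩ := Nat.exists_eq_add_of_le hij
  clear hij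
  induction m with
  | zero => exact le_rfl
  | succ m ih =>
    rw [← add_assoc, card_kerN_succ]
    exact ih.trans (Nat.le_mul_of_pos_right _ (sk1_redN_pos H _))

lemma sk1_add (H : β → α → ℤ) (i I : ℕ) :
    (kerN (2 ^ (i + I)) H).card ≤ (kerN (2 ^ i) H).card * (kerN (2 ^ I) H).card := by
  induction I with
  | zero => exact Nat.le_mul_of_pos_right _ (sk1_kerN_pos _ H)
  | succ I ih =>
    rw [← add_assoc, card_kerN_succ, card_kerN_succ H I, ← mul_assoc]
    exact Nat.mul_le_mul ih (Finset.card_le_card (redN_antitone H (by omega) (by omega)))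

/-- Task K1 -/
theorem card_kerN_pow_le (H : β → α → ℤ) {I J b : ℕ} (hI : 1 ≤ I) (hJ : J ≤ b * I) :
    (kerN (2 ^ J) H).card ≤ (kerN (2 ^ I) H).card ^ b := by
  refine (card_kerN_mono H hJ).trans ?_
  clear hJ
  induction b with
  | zero =>
    rw [zero_mul, pow_zero (kerN (2 ^ I) H).card]
    exact sk1_kerN_zero_le H
  | succ b ih =>
    rw [add_mul, one_mul, pow_succ (kerN (2 ^ I) H).card]
    exact (sk1_add H (b * I) I).trans (Nat.mul_le_mul_right _ ih)

/-- Task K1 -/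
theorem card_kerN_succ_le (H : β → α → ℤ) (j : ℕ) :
    (kerN (2 ^ (j + 1)) H).card ≤ 2 ^ Fintype.card α * (kerN (2 ^ j) H).card := by
  rw [card_kerN_succ, mul_comm]
  exact Nat.mul_le_mul_right _ (sk1_redN_le H _)

/-- Task K1: summing over `z`. -/
theorem sum_Bpr_eq6 {j : ℕ} (x : α → ZMod (2 ^ j)) :
    ((2 : ℝ) ^ j) ^ Fintype.card α * ∑ z : β → ZMod (2 ^ j), Bpr 4 x z =
      ((2 : ℝ) ^ j) ^ Fintype.card β * ((∑ ω : β → α → Fin 4, if (∀ i, walk (ω i) x = 0) then
        ((kerN (2 ^ j) (hm ω)).card : ℝ) else 0) / 4 ^ (Fintype.card β * Fintype.card α)) := by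
  have e4 : ((4 : ℕ) : ℝ) = 4 := by norm_num
  have h1 : ∑ z : β → ZMod (2 ^ j), Bpr 4 x z =
      (∑ ω : β → α → Fin 4, if ∀ i, walk (ω i) x = 0 then
        ((kerT (2 ^ j) (hm ω)).card : ℝ) else 0) /
        (4 : ℝ) ^ (Fintype.card β * Fintype.card α) := by
    unfold Bpr
    rw [← sum_div, e4]
    congr 1
    have : ∀ z : β → ZMod (2 ^ j), ((univ.filter (fun ω : β → α → Fin 4 =>
        (∀ i, walk (ω i) x = 0) ∧ ∀ l, walk (fun i => ω i l) z = 0)).card : ℝ) =
        ∑ ω : β → α → Fin 4, if (∀ i, walk (ω i) x = 0) ∧ ∀ l, walk (fun i => ω i l) z = 0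
          then (1 : ℝ) else 0 := by
      intro z
      rw [card_filter]
      push_cast
      rfl
    simp only [this]
    rw [sum_comm]
    refine sum_congr rfl fun ω _ => ?_
    by_cases hω : ∀ i, walk (ω i) x = 0
    · rw [if_pos hω]
      unfold kerT
      rw [card_filter]
      push_cast
      refine sum_congr rfl fun z _ => ?_
      by_cases hz : ∀ l, walk (fun i => ω i l) z = 0
      · have hz' : ∀ l, ∑ i, ((hm ω i l : ℤ) : ZMod (2 ^ j)) * z i = 0 := hz
        rw [if_pos ⟨hω, hz⟩, if_pos hz']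
      · have hz' : ¬ ∀ l, ∑ i, ((hm ω i l : ℤ) : ZMod (2 ^ j)) * z i = 0 := hz
        rw [if_neg (fun h => hz h.2), if_neg hz']
    · rw [if_neg hω]
      refine sum_eq_zero fun z _ => ?_
      rw [if_neg (fun h => hω h.1)]
  rw [h1, mul_div_assoc', mul_div_assoc', mul_sum, mul_sum]
  congr 1
  refine sum_congr rfl fun ω _ => ?_
  split_ifs with h
  · have h2 := card_kerT_kerN (2 ^ j) (hm ω)
    have h3 : ((2 : ℝ) ^ j) ^ Fintype.card α * ((kerT (2 ^ j) (hm ω)).card : ℝ) =
        (((kerT (2 ^ j) (hm ω)).card * (2 ^ j) ^ Fintype.card α : ℕ) : ℝ) := by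
      push_cast
      ring
    rw [h3, h2]
    push_cast
    ring
  · rw [mul_zero, mul_zero]

/-- Task K1: summing over `z`, with the quadratic condition. -/
theorem sum_Bq_le6 {j : ℕ} (x : α → ZMod (2 ^ j)) :
    ((2 : ℝ) ^ j) ^ (Fintype.card α + 1) * ∑ z : β → ZMod (2 ^ j), Bq x z ≤
      4 * ((2 : ℝ) ^ j) ^ Fintype.card β * ((∑ ω : β → α → Fin 4,
        if (∀ i, walk (ω i) x = 0) then
        ((kerN (2 ^ j) (augM x ω)).card : ℝ) else 0) / 4 ^ (Fintype.card β * Fintype.card α)) := by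
  unfold Bq
  rw [← sum_div, mul_div_assoc', mul_div_assoc',
    div_le_div_iff_of_pos_right (by positivity)]
  have h1 : ∀ z : β → ZMod (2 ^ j), ((univ.filter (fun ω : β → α → Fin 4 =>
      ((∀ i, walk (ω i) x = 0) ∧ ∀ j, walk (fun i => ω i j) z = 0) ∧
      4 * ∑ i, lft (z i) * walk (ω i) (fun j => lft (x j)) = 0)).card : ℝ) =
      ∑ ω : β → α → Fin 4, if (∀ i, walk (ω i) x = 0) then
        (if (∀ j, walk (fun i => ω i j) z = 0) ∧
      4 * ∑ i, lft (z i) * walk (ω i) (fun j => lft (x j)) = 0 then (1 : ℝ) else 0) else 0 := by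
    intro z
    rw [Finset.card_filter]
    push_cast
    refine sum_congr rfl fun ω _ => ?_
    by_cases h : ∀ i, walk (ω i) x = 0
    · rw [if_pos h]
      by_cases h' : (∀ j, walk (fun i => ω i j) z = 0) ∧
        4 * ∑ i, lft (z i) * walk (ω i) (fun j => lft (x j)) = 0
      · rw [if_pos ⟨⟨h, h'.1⟩, h'.2⟩, if_pos h']
      · rw [if_neg (fun hh => h' ⟨hh.1.2, hh.2⟩), if_neg h']
    · rw [if_neg (fun hh => h hh.1.1), if_neg h]
  rw [sum_congr rfl fun z _ => h1 z, sum_comm, mul_sum, mul_sum]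
  refine sum_le_sum fun ω _ => ?_
  by_cases h : ∀ i, walk (ω i) x = 0
  · simp only [if_pos h]
    rw [sum_boole]
    have h2 := card_z_le x ω h
    have h3 := card_kerT_kerN (2 ^ j) (augM x ω)
    rw [Fintype.card_option] at h3
    set c1 := (univ.filter (fun z : β → ZMod (2 ^ j) => (∀ j, walk (fun i => ω i j) z = 0) ∧
      4 * ∑ i, lft (z i) * walk (ω i) (fun j => lft (x j)) = 0)).card with hc1
    set c2 := (kerT (2 ^ j) (augM x ω)).card with hc2
    set c3 := (kerN (2 ^ j) (augM x ω)).card with hc3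
    have h5 : (2 ^ j) ^ (Fintype.card α + 1) * c1 ≤ 4 * (2 ^ j) ^ Fintype.card β * c3 := by
      calc (2 ^ j) ^ (Fintype.card α + 1) * c1
          ≤ (2 ^ j) ^ (Fintype.card α + 1) * (4 * c2) := Nat.mul_le_mul_left _ h2
        _ = 4 * (c2 * (2 ^ j) ^ (Fintype.card α + 1)) := by ring
        _ = 4 * (c3 * (2 ^ j) ^ Fintype.card β) := by rw [h3]
        _ = _ := by ring
    exact_mod_cast h5
  · simp only [if_neg h]
    simp only [sum_const_zero, mul_zero, Std.le_refl]

end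

end Vale.Agent.P160
end
end

section

section

set_option linter.unusedSectionVars false

namespace Vale.Agent.P160

open Finset

section
variable {α β : Type*} [Fintype α] [Fintype β] [DecidableEq α] [DecidableEq β]

lemma st6a_mem {γ : Type*} [Fintype γ] [DecidableEq γ] {N : ℕ} [NeZero N] {H : β → γ → ℤ}
    {u : γ → ZMod N} : u ∈ kerN N H ↔ ∀ i, ∑ l, (H i l : ZMod N) * u l = 0 := by
  unfold kerN
  rw [mem_filter]
  exact and_iff_right (mem_univ _)

lemma st6a_mem_opt {N : ℕ} [NeZero N] {G : β → Option α → ℤ}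
    {u : Option α → ZMod N} : u ∈ kerN N G ↔
      ∀ i, (G i none : ZMod N) * u none + ∑ l, (G i (some l) : ZMod N) * u (some l) = 0 := by
  rw [st6a_mem]
  refine forall_congr' fun i => ?_
  rw [Fintype.sum_option]

/-- one fibre over the first coordinate -/
lemma st6a_fib_le {N : ℕ} [NeZero N] (G : β → Option α → ℤ) (s : ZMod N) :
    ((kerN N G).filter (fun u => u none = s)).card ≤
      (kerN N (fun i l => G i (some l))).card := by
  by_cases hne : ((kerN N G).filter (fun u => u none = s)).Nonempty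
  · obtain ⟨u₀, hu₀⟩ := hne
    rw [mem_filter, st6a_mem_opt] at hu₀
    refine Finset.card_le_card_of_injOn (fun u l => u (some l) - u₀ (some l)) ?_ ?_
    · intro u hu
      rw [Finset.mem_coe, mem_filter, st6a_mem_opt] at hu
      rw [Finset.mem_coe, st6a_mem]
      intro i
      have h1 := hu.1 i
      have h2 := hu₀.1 i
      rw [hu.2] at h1
      rw [hu₀.2, ← h1] at h2
      have h3 := add_left_cancel h2
      simp only [mul_sub, sum_sub_distrib]
      rw [h3, sub_self]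
    · intro u hu u' hu' h
      rw [Finset.mem_coe, mem_filter] at hu hu'
      funext o
      cases o with
      | none => rw [hu.2, hu'.2]
      | some l => exact sub_left_injective (congrFun h l)
  · rw [Finset.not_nonempty_iff_eq_empty] at hne
    rw [hne]; simp only [card_empty, zero_le]

/-- one nonempty fibre over the first coordinate -/
lemma st6a_fib_ge {N : ℕ} [NeZero N] (G : β → Option α → ℤ) (s : ZMod N)
    (hs : ∃ u ∈ kerN N G, u none = s) :
    (kerN N (fun i l => G i (some l))).card ≤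
      ((kerN N G).filter (fun u => u none = s)).card := by
  obtain ⟨u₀, hu₀, hs₀⟩ := hs
  rw [st6a_mem_opt] at hu₀
  refine Finset.card_le_card_of_injOn
    (fun v o => Option.elim o (u₀ none) (fun l => v l + u₀ (some l))) ?_ ?_
  · intro v hv
    rw [Finset.mem_coe, st6a_mem] at hv
    rw [Finset.mem_coe, mem_filter, st6a_mem_opt]
    refine ⟨fun i => ?_, hs₀⟩
    have h1 := hv i
    have h2 := hu₀ i
    simp only [Option.elim_none, Option.elim_some, mul_add, sum_add_distrib]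
    rw [h1, zero_add]
    exact h2
  · intro v _ v' _ h
    funext l
    have h1 := congrFun h (some l)
    simp only [Option.elim_some] at h1
    exact add_right_cancel h1

lemma st6a_augM_some {N : ℕ} (x : α → ZMod N) (ω : β → α → Fin 4) :
    (fun i l => augM x ω i (some l)) = hm ω := rfl

/-- a subgroup of `ZMod (2 ^ I)` contains `2 ^ e` with `2 ^ (I - e)` its order -/
lemma st6a_sub {I : ℕ} (S : AddSubgroup (ZMod (2 ^ I))) :
    ∃ e ≤ I, Nat.card S = 2 ^ (I - e) ∧ (2 ^ e : ZMod (2 ^ I)) ∈ S := by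
  classical
  have h1 : Nat.card S ∣ 2 ^ I := by
    have := AddSubgroup.card_addSubgroup_dvd_card S
    rwa [Nat.card_zmod] at this
  obtain ⟨k, hk, hc⟩ := (Nat.dvd_prime_pow Nat.prime_two).1 h1
  refine ⟨I - k, Nat.sub_le _ _, ?_, ?_⟩
  · rw [hc]; congr 1; (clear * - hk; omega)
  · have h2 := IsAddCyclic.card_nsmul_eq_zero_le (α := ZMod (2 ^ I)) (n := 2 ^ k)
      (by positivity)
    have h3 : (univ.filter (fun t : ZMod (2 ^ I) => t ∈ S)) ⊆
        univ.filter (fun t : ZMod (2 ^ I) => 2 ^ k • t = 0) := by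
      intro t ht
      rw [mem_filter] at ht ⊢
      refine ⟨mem_univ _, ?_⟩
      have h4 : Nat.card S • (⟨t, ht.2⟩ : S) = 0 := card_nsmul_eq_zero'
      rw [hc] at h4
      exact congrArg Subtype.val h4
    have h5 : (univ.filter (fun t : ZMod (2 ^ I) => t ∈ S)).card = 2 ^ k := by
      rw [← hc, Nat.card_eq_fintype_card, Fintype.card_subtype]
    have h6 := Finset.eq_of_subset_of_card_le h3 (by rw [h5]; exact h2)
    have h7 : (2 ^ (I - k) : ZMod (2 ^ I)) ∈
        univ.filter (fun t : ZMod (2 ^ I) => 2 ^ k • t = 0) := by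
      rw [mem_filter]
      refine ⟨mem_univ _, ?_⟩
      rw [nsmul_eq_mul]
      push_cast
      rw [← pow_add, show k + (I - k) = I by omega]
      have := ZMod.natCast_self (2 ^ I)
      push_cast at this
      exact this
    rw [← h6, mem_filter] at h7
    exact h7.2

/-- cardinality of the kernel of an augmented matrix -/
lemma st6a_card {I : ℕ} (G : β → Option α → ℤ) :
    ∃ e ≤ I, (kerN (2 ^ I) G).card = 2 ^ (I - e) *
      (kerN (2 ^ I) (fun i l => G i (some l))).card ∧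
      ∃ u ∈ kerN (2 ^ I) G, u none = 2 ^ e := by
  classical
  set S : AddSubgroup (ZMod (2 ^ I)) :=
    { carrier := {s | ∃ u ∈ kerN (2 ^ I) G, u none = s}
      add_mem' := by
        rintro a b ⟨u, hu, rfl⟩ ⟨v, hv, rfl⟩
        refine ⟨u + v, ?_, rfl⟩
        rw [st6a_mem] at hu hv ⊢
        intro i
        simp only [Pi.add_apply, mul_add, sum_add_distrib]
        rw [hu i, hv i, add_zero]
      zero_mem' := ⟨0, by rw [st6a_mem]; intro i; simp only [Pi.zero_apply, mul_zero, sum_const_zero], rfl⟩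
      neg_mem' := by
        rintro a ⟨u, hu, rfl⟩
        refine ⟨-u, ?_, rfl⟩
        rw [st6a_mem] at hu ⊢
        intro i
        simp only [Pi.neg_apply, mul_neg, sum_neg_distrib]
        rw [hu i, neg_zero] } with hS
  obtain ⟨e, he, hc, hm⟩ := st6a_sub S
  refine ⟨e, he, ?_, hm⟩
  have h1 : (kerN (2 ^ I) G).card = ∑ s : ZMod (2 ^ I),
      ((kerN (2 ^ I) G).filter (fun u => u none = s)).card :=
    Finset.card_eq_sum_card_fiberwise (fun _ _ => by simp)
  have h2 : ∀ s : ZMod (2 ^ I), ((kerN (2 ^ I) G).filter (fun u => u none = s)).card =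
      if s ∈ S then (kerN (2 ^ I) (fun i l => G i (some l))).card else 0 := by
    intro s
    split_ifs with h
    · exact le_antisymm (st6a_fib_le G s) (st6a_fib_ge G s h)
    · rw [card_eq_zero, filter_eq_empty_iff]
      intro u hu hus
      exact h ⟨u, hu, hus⟩
  rw [h1, sum_congr rfl fun s _ => h2 s, ← sum_filter, sum_const, smul_eq_mul]
  congr 1
  rw [← hc, Nat.card_eq_fintype_card, Fintype.card_subtype]

/-- Task T6a: the kernel of the augmented matrix `[a | H]`. -/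
theorem aug_cases {I L : ℕ} (hI : 1 ≤ I) (hIL : I ≤ L) (x : α → ZMod (2 ^ L))
    (ω : β → α → Fin 4) (hx : ∀ i, walk (ω i) x = 0) :
    ∃ e : ℕ, e ≤ I ∧ (kerN (2 ^ I) (augM x ω)).card = 2 ^ (I - e) * (kerN (2 ^ I) (hm ω)).card ∧
      (e < I → ∃ y : α → ZMod (2 ^ (L + I - e)), (∀ i, walk (ω i) y = 0) ∧
        ∀ l, ((y l).cast : ZMod (2 ^ (L - e))) = ((x l).cast : ZMod (2 ^ (L - e)))) := by
  obtain ⟨e, he, hc, u, hu, hu0⟩ := st6a_card (I := I) (augM x ω)
  refine ⟨e, he, hc, fun _ => ?_⟩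
  rw [st6a_mem_opt] at hu
  refine ⟨fun l => (((x l).val + 2 ^ (L - e) * (u (some l)).val : ℕ) :
    ZMod (2 ^ (L + I - e))), ?_, ?_⟩
  · intro i
    have h1 := hu i
    rw [hu0] at h1
    have h2 : ((augI x (ω i) * 2 ^ e + ∑ l, st (ω i l) * ((u (some l)).val : ℤ) : ℤ) :
        ZMod (2 ^ I)) = 0 := by
      rw [← h1]
      push_cast
      congr 1
      refine sum_congr rfl fun l _ => ?_
      rw [ZMod.natCast_zmod_val]
      rfl
    rw [ZMod.intCast_zmod_eq_zero_iff_dvd] at h2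
    have h3 := augI_mul x (ω i) (hx i)
    have h4 : walk (ω i) (fun l => (((x l).val + 2 ^ (L - e) * (u (some l)).val : ℕ) :
        ZMod (2 ^ (L + I - e)))) =
        ((∑ l, st (ω i l) * (((x l).val : ℤ) + 2 ^ (L - e) * ((u (some l)).val : ℤ)) : ℤ) :
          ZMod (2 ^ (L + I - e))) := by
      unfold walk
      push_cast
      rfl
    rw [h4, ZMod.intCast_zmod_eq_zero_iff_dvd]
    have h5 : ∑ l, st (ω i l) * (((x l).val : ℤ) + 2 ^ (L - e) * ((u (some l)).val : ℤ)) =
        2 ^ (L - e) * (augI x (ω i) * 2 ^ e + ∑ l, st (ω i l) * ((u (some l)).val : ℤ)) := by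
      have h6 : (2 : ℤ) ^ (L - e) * 2 ^ e = 2 ^ L := by
        rw [← pow_add]; congr 1; omega
      have h7 : ∑ l, st (ω i l) * (((x l).val : ℤ) + 2 ^ (L - e) * ((u (some l)).val : ℤ)) =
          ∑ l, st (ω i l) * ((x l).val : ℤ) +
            2 ^ (L - e) * ∑ l, st (ω i l) * ((u (some l)).val : ℤ) := by
        rw [mul_sum, ← sum_add_distrib]
        refine sum_congr rfl fun l _ => ?_
        ring
      rw [h7, ← h3, mul_add]
      congr 1
      push_cast
      rw [← h6]
      ring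
    rw [h5, show L + I - e = (L - e) + I by (clear hI x ω hx he hc u hu hu0 i h1 h2 h3 h4 h5; omega)]
    push_cast at h2 ⊢
    rw [pow_add]
    exact mul_dvd_mul_left _ h2
  · intro l
    have hd : 2 ^ (L - e) ∣ 2 ^ (L + I - e) := pow_dvd_pow 2 (by (clear hIL x ω hx he hc u hu hu0 l; omega))
    rw [ZMod.cast_natCast hd]
    push_cast
    have h8 : ((2 : ZMod (2 ^ (L - e))) ^ (L - e)) = 0 := by
      have := ZMod.natCast_self (2 ^ (L - e))
      push_cast at this
      exact this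
    rw [h8, zero_mul, add_zero, ZMod.natCast_val]

open Classical in
/-- Task T6a: number of kernel vectors with given reduction. -/
theorem card_fibre_le {I L e : ℕ} (he : e ≤ I) (hIL : I ≤ L) (ω : β → α → Fin 4)
    (y : α → ZMod (2 ^ (L - e))) :
    (univ.filter (fun x : α → ZMod (2 ^ L) => (∀ i, walk (ω i) x = 0) ∧
      ∀ l, ((x l).cast : ZMod (2 ^ (L - e))) = y l)).card ≤ (kerN (2 ^ I) (hm ω)).card := by
  refine le_trans ?_ (card_kerN_mono (hm ω) he)
  by_cases hne : (univ.filter (fun x : α → ZMod (2 ^ L) => (∀ i, walk (ω i) x = 0) ∧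
      ∀ l, ((x l).cast : ZMod (2 ^ (L - e))) = y l)).Nonempty
  · obtain ⟨x₀, hx₀⟩ := hne
    rw [mem_filter] at hx₀
    have hdd : 2 ^ (L - e) ∣ 2 ^ L := pow_dvd_pow 2 (by omega)
    have hd : ∀ x : α → ZMod (2 ^ L), (∀ l, ((x l).cast : ZMod (2 ^ (L - e))) = y l) →
        ∀ l, 2 ^ (L - e) ∣ (x l - x₀ l).val := by
      intro x hx l
      have h2 : ((x l - x₀ l).cast : ZMod (2 ^ (L - e))) = 0 := by
        rw [ZMod.cast_sub hdd, hx l, hx₀.2.2 l, sub_self]
      rw [← ZMod.natCast_val, ZMod.natCast_eq_zero_iff] at h2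
      exact h2
    have hp : 0 < 2 ^ (L - e) := by positivity
    have hLe : (2 : ℕ) ^ L = 2 ^ (L - e) * 2 ^ e := by
      rw [← pow_add]; congr 1; omega
    refine Finset.card_le_card_of_injOn
      (fun x l => (((x l - x₀ l).val / 2 ^ (L - e) : ℕ) : ZMod (2 ^ e))) ?_ ?_
    · intro x hx
      rw [Finset.mem_coe, mem_filter] at hx
      rw [Finset.mem_coe, st6a_mem]
      intro i
      have h3 : ∑ l, (hm ω i l : ZMod (2 ^ L)) * (x l - x₀ l) = 0 := by
        have e1 := hx.2.1 i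
        have e2 := hx₀.2.1 i
        unfold walk at e1 e2
        unfold hm
        simp only [mul_sub, sum_sub_distrib]
        rw [e1, e2, sub_self]
      have h5 : ∀ l, ((x l - x₀ l).val : ℤ) =
          2 ^ (L - e) * (((x l - x₀ l).val / 2 ^ (L - e) : ℕ) : ℤ) := by
        intro l
        have := Nat.mul_div_cancel' (hd x hx.2.2 l)
        exact_mod_cast this.symm
      have h4 : ((2 ^ (L - e) * ∑ l, hm ω i l *
          (((x l - x₀ l).val / 2 ^ (L - e) : ℕ) : ℤ) : ℤ) : ZMod (2 ^ L)) = 0 := by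
        rw [← h3, mul_sum]
        have : ∑ l, (2 : ℤ) ^ (L - e) * (hm ω i l *
            (((x l - x₀ l).val / 2 ^ (L - e) : ℕ) : ℤ)) =
            ∑ l, hm ω i l * ((x l - x₀ l).val : ℤ) := by
          refine sum_congr rfl fun l _ => ?_
          rw [h5 l]; ring
        rw [this, Int.cast_sum]
        refine sum_congr rfl fun l _ => ?_
        rw [Int.cast_mul, Int.cast_natCast, ZMod.natCast_zmod_val]
      rw [ZMod.intCast_zmod_eq_zero_iff_dvd] at h4
      have h6 : ((2 ^ e : ℕ) : ℤ) ∣ ∑ l, hm ω i l *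
          (((x l - x₀ l).val / 2 ^ (L - e) : ℕ) : ℤ) := by
        have h7 : ((2 ^ L : ℕ) : ℤ) = (2 : ℤ) ^ (L - e) * ((2 ^ e : ℕ) : ℤ) := by
          rw [hLe]; push_cast; ring
        rw [h7] at h4
        exact Int.dvd_of_mul_dvd_mul_left (by positivity) h4
      have h8 := (ZMod.intCast_zmod_eq_zero_iff_dvd _ (2 ^ e)).2 h6
      rw [← h8, Int.cast_sum]
      refine sum_congr rfl fun l _ => ?_
      rw [Int.cast_mul, Int.cast_natCast]
    · intro x hx x' hx' h
      rw [Finset.mem_coe, mem_filter] at hx hx'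
      funext l
      have h1 := congrFun h l
      simp only at h1
      have hlt : ∀ t : ZMod (2 ^ L), t.val / 2 ^ (L - e) < 2 ^ e := by
        intro t
        have := ZMod.val_lt t
        rw [Nat.div_lt_iff_lt_mul hp, mul_comm, ← hLe]
        exact this
      have h2 := congrArg ZMod.val h1
      rw [ZMod.val_cast_of_lt (hlt _), ZMod.val_cast_of_lt (hlt _)] at h2
      have h3 : (x l - x₀ l).val = (x' l - x₀ l).val := by
        rw [← Nat.mul_div_cancel' (hd x hx.2.2 l), ← Nat.mul_div_cancel' (hd x' hx'.2.2 l), h2]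
      exact sub_left_injective (ZMod.val_injective _ h3)
  · rw [Finset.not_nonempty_iff_eq_empty] at hne
    rw [hne]; simp only [card_empty, zero_le]

/-- Task T6a: trivial bound for the augmented matrix. -/
theorem card_aug_le {L : ℕ} (x : α → ZMod (2 ^ L)) (ω : β → α → Fin 4) :
    (kerN (2 ^ L) (augM x ω)).card ≤ 2 ^ L * (kerN (2 ^ L) (hm ω)).card := by
  have h1 : (kerN (2 ^ L) (augM x ω)).card = ∑ s : ZMod (2 ^ L),
      ((kerN (2 ^ L) (augM x ω)).filter (fun u => u none = s)).card :=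
    Finset.card_eq_sum_card_fiberwise (fun _ _ => by simp)
  rw [h1]
  refine (sum_le_sum fun s _ => st6a_fib_le (augM x ω) s).trans ?_
  rw [sum_const, card_univ, ZMod.card, smul_eq_mul, st6a_augM_some]

end

end Vale.Agent.P160
end
end

section

section

namespace Vale.Agent.P160

open Finset

section
variable {α : Type} [Fintype α] [DecidableEq α] {I : ℕ}

theorem sn3_card (L : AddSubgroup (α → ZMod (2 ^ I))) :
    Nat.card L ∣ 2 ^ (I * Fintype.card α) := by
  have h := AddSubgroup.card_addSubgroup_dvd_card L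
  have h2 : Nat.card (α → ZMod (2 ^ I)) = 2 ^ (I * Fintype.card α) := by
    rw [Nat.card_eq_fintype_card, Fintype.card_fun, ZMod.card, ← pow_mul]
  rwa [h2] at h

/-- Task N3 -/
theorem exists_card_pow (L : AddSubgroup (α → ZMod (2 ^ I))) : ∃ A : ℕ, Nat.card L = 2 ^ A := by
  obtain ⟨k, _, hk⟩ := (Nat.dvd_prime_pow Nat.prime_two).1 (sn3_card L)
  exact ⟨k, hk⟩

/-- The elements of order at most two as a subgroup. -/
def sn3_T (L : AddSubgroup (α → ZMod (2 ^ I))) : AddSubgroup (α → ZMod (2 ^ I)) where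
  carrier := {k | k ∈ L ∧ k + k = 0}
  add_mem' := by
    rintro a b ⟨ha, ha2⟩ ⟨hb, hb2⟩
    refine ⟨L.add_mem ha hb, ?_⟩
    have : a + b + (a + b) = (a + a) + (b + b) := by abel
    rw [this, ha2, hb2, add_zero]
  zero_mem' := ⟨L.zero_mem, by simp⟩
  neg_mem' := by
    rintro a ⟨ha, ha2⟩
    refine ⟨L.neg_mem ha, ?_⟩
    rw [← neg_add, ha2, neg_zero]

theorem sn3_T_card (L : AddSubgroup (α → ZMod (2 ^ I))) :
    (tors I L).card = Nat.card (sn3_T L) := by
  classical
  rw [Nat.card_eq_fintype_card, Fintype.card_subtype]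
  congr 1
  ext k
  simp only [tors, mem_filter, mem_univ, true_and]
  rfl

/-- Task N3 -/
theorem exists_tors_pow (L : AddSubgroup (α → ZMod (2 ^ I))) :
    ∃ ρ : ℕ, (tors I L).card = 2 ^ ρ := by
  rw [sn3_T_card]
  exact exists_card_pow _

theorem sn3_step (L M : AddSubgroup (α → ZMod (2 ^ I))) (hM : M ≤ L) :
    Nat.card M ≤ (tors I L).card * Nat.card (M.map (nsmulAddMonoidHom 2)) := by
  classical
  have e1 : Nat.card M = (univ.filter (fun k : α → ZMod (2 ^ I) => k ∈ M)).card := by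
    rw [Nat.card_eq_fintype_card, Fintype.card_subtype]
  have e2 : Nat.card (M.map (nsmulAddMonoidHom (2 : ℕ))) =
      ((univ.filter (fun k : α → ZMod (2 ^ I) => k ∈ M)).image
        (fun k => (2 : ℕ) • k)).card := by
    rw [Nat.card_eq_fintype_card, Fintype.card_subtype]
    congr 1
    ext k
    simp only [AddSubgroup.mem_map, nsmulAddMonoidHom_apply, mem_filter, mem_univ, true_and,
      mem_image]
  rw [e1, e2]
  apply card_le_mul_card_image
  intro a ha
  rw [mem_image] at ha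
  obtain ⟨z, hz, hza⟩ := ha
  rw [mem_filter] at hz
  apply card_le_card_of_injOn (fun k => k - z)
  · intro k hk
    simp only [mem_coe, mem_filter, mem_univ, true_and] at hk
    simp only [tors, mem_coe, mem_filter, mem_univ, true_and]
    refine ⟨hM (M.sub_mem hk.1 hz.2), ?_⟩
    have h2 : (2 : ℕ) • k = (2 : ℕ) • z := by rw [hk.2, hza]
    have : k - z + (k - z) = (2 : ℕ) • k - (2 : ℕ) • z := by
      rw [two_nsmul, two_nsmul]; abel
    rw [this, h2, sub_self]
  · intro a _ b _ hab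
    exact sub_left_injective hab

/-- Task N3 -/
theorem card_le_tors (L : AddSubgroup (α → ZMod (2 ^ I))) :
    Nat.card L ≤ (tors I L).card ^ I := by
  have key : ∀ i : ℕ, Nat.card L ≤
      (tors I L).card ^ i * Nat.card (L.map (nsmulAddMonoidHom (2 ^ i))) := by
    intro i
    induction i with
    | zero =>
      have : L.map (nsmulAddMonoidHom (2 ^ 0)) = L := by
        ext k
        simp only [AddSubgroup.mem_map, nsmulAddMonoidHom_apply, pow_zero, one_nsmul,
          exists_eq_right]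
      rw [this, pow_zero, one_mul]
    | succ i ih =>
      refine ih.trans ?_
      have hs := sn3_step L (L.map (nsmulAddMonoidHom (2 ^ i))) (by
        intro k hk
        obtain ⟨z, hz, rfl⟩ := AddSubgroup.mem_map.1 hk
        exact L.nsmul_mem hz _)
      have he : (L.map (nsmulAddMonoidHom (2 ^ i))).map (nsmulAddMonoidHom 2) =
          L.map (nsmulAddMonoidHom (2 ^ (i + 1))) := by
        ext k
        simp only [AddSubgroup.mem_map, nsmulAddMonoidHom_apply, exists_exists_and_eq_and]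
        constructor
        · rintro ⟨z, hz, rfl⟩
          exact ⟨z, hz, by rw [pow_succ', mul_nsmul']⟩
        · rintro ⟨z, hz, rfl⟩
          exact ⟨z, hz, by rw [pow_succ', mul_nsmul']⟩
      rw [he] at hs
      calc (tors I L).card ^ i * Nat.card (L.map (nsmulAddMonoidHom (2 ^ i)))
          ≤ (tors I L).card ^ i * ((tors I L).card *
            Nat.card (L.map (nsmulAddMonoidHom (2 ^ (i + 1))))) := Nat.mul_le_mul_left _ hs
        _ = _ := by rw [pow_succ (tors I L).card i, mul_assoc]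
  have h := key I
  have h0 : L.map (nsmulAddMonoidHom (2 ^ I)) = ⊥ := by
    rw [eq_bot_iff]
    intro k hk
    obtain ⟨z, _, rfl⟩ := AddSubgroup.mem_map.1 hk
    rw [AddSubgroup.mem_bot, nsmulAddMonoidHom_apply]
    ext i
    rw [Pi.smul_apply, nsmul_eq_mul, ZMod.natCast_self, zero_mul, Pi.zero_apply]
  rw [h0, AddSubgroup.card_bot, mul_one] at h
  exact h

/-- Task N3 -/
theorem exists_between (L K : AddSubgroup (α → ZMod (2 ^ I))) (hLK : L ≤ K) (k : ℕ)
    (h : 2 ^ k * Nat.card L ≤ Nat.card K) :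
    ∃ K' : AddSubgroup (α → ZMod (2 ^ I)), L ≤ K' ∧ K' ≤ K ∧ Nat.card K' = 2 ^ k * Nat.card L := by
  obtain ⟨A, hA⟩ := exists_card_pow L
  obtain ⟨B, hB⟩ := exists_card_pow K
  have hab : k + A ≤ B := by
    rw [hA, hB, ← pow_add] at h
    exact (Nat.pow_le_pow_iff_right (by norm_num)).1 h
  have : Fact (Nat.Prime 2) := ⟨Nat.prime_two⟩
  have hcH : Nat.card (AddSubgroup.toSubgroup (L.addSubgroupOf K)) = 2 ^ A := by
    rw [← hA]
    exact Nat.card_congr (AddSubgroup.addSubgroupOfEquivOfLe hLK).toEquiv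
  have hcG : Nat.card (Multiplicative K) = 2 ^ B := by
    rw [← hB]; rfl
  obtain ⟨K1, hK1, hHK⟩ := Sylow.exists_subgroup_card_pow_prime_le (G := Multiplicative K) 2
    (n := A) (m := k + A) (by rw [hcG]; exact pow_dvd_pow 2 hab)
    (AddSubgroup.toSubgroup (L.addSubgroupOf K)) hcH (Nat.le_add_left A k)
  refine ⟨(Subgroup.toAddSubgroup' K1).map K.subtype, ?_, ?_, ?_⟩
  · intro z hz
    rw [AddSubgroup.mem_map]
    exact ⟨⟨z, hLK hz⟩, hHK (x := Multiplicative.ofAdd (⟨z, hLK hz⟩ : K)) hz, rfl⟩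
  · intro z hz
    obtain ⟨y, _, rfl⟩ := AddSubgroup.mem_map.1 hz
    exact y.2
  · rw [AddSubgroup.card_map_of_injective (AddSubgroup.subtype_injective K), hA, ← pow_add, ← hK1]
    rfl

end

end Vale.Agent.P160
end
end

section

section

namespace Vale.Agent.P160

open Finset

/-- Scaling the standard character. -/
lemma sm3a_ee_scale {κ κ' : ℕ} (h : κ' ≤ κ) (x : ZMod (2 ^ κ)) :
    ee ((2 : ZMod (2 ^ κ)) ^ (κ - κ') * x) =
      ee (ZMod.castHom (pow_dvd_pow 2 h) (ZMod (2 ^ κ')) x) := by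
  obtain ⟨j, rfl⟩ := ZMod.intCast_surjective x
  rw [map_intCast]
  have h1 : (2 : ZMod (2 ^ κ)) ^ (κ - κ') * (j : ZMod (2 ^ κ)) =
      ((2 ^ (κ - κ') * j : ℤ) : ZMod (2 ^ κ)) := by
    push_cast; ring
  unfold ee
  rw [h1, ZMod.stdAddChar_coe, ZMod.stdAddChar_coe]
  congr 1
  have h2 : (2 : ℂ) ^ κ = 2 ^ (κ - κ') * 2 ^ κ' := by
    rw [← pow_add, Nat.sub_add_cancel h]
  push_cast
  rw [h2]
  field_simp

/-- The number of residues divisible by a high power of two. -/
lemma sm3a_card_small (κ k : ℕ) (hk : k ≤ κ) :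
    ((univ : Finset (ZMod (2 ^ κ))).filter (fun a => 2 ^ (κ - k) ∣ a.val)).card ≤ 2 ^ k := by
  have : ((univ : Finset (ZMod (2 ^ κ))).filter (fun a => 2 ^ (κ - k) ∣ a.val)).card ≤
      (range (2 ^ k)).card := by
    refine card_le_card_of_injOn (fun a => a.val / 2 ^ (κ - k)) ?_ ?_
    · intro a _
      have h1 : a.val < 2 ^ κ := ZMod.val_lt a
      have h2 : 2 ^ κ = 2 ^ (κ - k) * 2 ^ k := by
        rw [← pow_add, Nat.sub_add_cancel hk]
      simp only [coe_range, Set.mem_Iio]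
      exact Nat.div_lt_of_lt_mul (h1.trans_eq h2)
    · intro a ha b hb hab
      simp only [coe_filter, mem_univ, true_and, Set.mem_ofPred_eq] at ha hb
      have h1 : a.val = b.val := by
        rw [← Nat.div_mul_cancel ha, ← Nat.div_mul_cancel hb]
        simp only at hab
        rw [hab]
      exact ZMod.val_injective _ h1
  simpa only [ge_iff_le, card_range] using this

/-- Residues not divisible by a high power of two. -/
lemma sm3a_decomp (κ k : ℕ) (hk : k ≤ κ) (a : ZMod (2 ^ κ)) (ha : ¬ 2 ^ (κ - k) ∣ a.val) :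
    ∃ κ' c : ℕ, k < κ' ∧ κ' ≤ κ ∧ Odd c ∧
      a = (2 : ZMod (2 ^ κ)) ^ (κ - κ') * (c : ZMod (2 ^ κ)) := by
  have h0 : a.val ≠ 0 := by
    intro h; rw [h] at ha; exact ha (dvd_zero _)
  obtain ⟨e, c, hc, he⟩ := Nat.exists_eq_two_pow_mul_odd h0
  have h1 : e < κ - k := by
    by_contra hcon
    push Not at hcon
    exact ha (he ▸ (pow_dvd_pow 2 hcon).mul_right c)
  refine ⟨κ - e, c, by omega, by omega, hc, ?_⟩
  have h2 : κ - (κ - e) = e := by omega
  rw [h2]
  have h3 : a = ((a.val : ℕ) : ZMod (2 ^ κ)) := by simp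
  rw [h3, he]
  push_cast
  rfl

/-- Duality: the pairing is computed by any pair of solutions. -/
lemma sm3a_pairing {N r : ℕ} (P : Matrix (Fin r) (Fin r) (ZMod N)) (u v : Fin r → ZMod N)
    (l l' y : Fin r → ZMod N) (h1 : P.transpose.mulVec l = u) (h2 : P.transpose.mulVec l' = u)
    (h3 : P.mulVec y = v) : ∑ j, l j * v j = ∑ j, l' j * v j := by
  have key : ∀ l : Fin r → ZMod N, P.transpose.mulVec l = u → ∑ j, l j * v j = ∑ j, u j * y j := by
    intro l hl
    have e1 : ∑ j, l j * v j = l ⬝ᵥ P.mulVec y := by rw [h3]; rfl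
    rw [e1, Matrix.dotProduct_mulVec, ← Matrix.mulVec_transpose, hl]
    rfl
  rw [key l h1, key l' h2]

/-- Fourier bound for the number of pairs with a given value. -/
lemma sm3a_count {N : ℕ} [NeZero N] {α : Type*} (T : Finset α) (Z : α → ZMod N) (s : ZMod N)
    [DecidablePred (fun p => Z p = s)] :
    (N : ℝ) * ((T.filter (fun p => Z p = s)).card : ℝ) ≤
      ∑ a : ZMod N, ‖∑ p ∈ T, ee (a * Z p)‖ := by
  have h1 : ((N : ℝ) * ((T.filter (fun p => Z p = s)).card : ℝ) : ℂ) =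
      ∑ a : ZMod N, ee (-(a * s)) * ∑ p ∈ T, ee (a * Z p) := by
    simp only [mul_sum]
    rw [sum_comm]
    have h2 : ∀ p ∈ T, ∑ a : ZMod N, ee (-(a * s)) * ee (a * Z p) =
        if Z p = s then (N : ℂ) else 0 := by
      intro p _
      have h3 := sum_ee_mul (Z p - s)
      simp only [sub_eq_zero] at h3
      rw [← h3]
      refine sum_congr rfl fun a _ => ?_
      rw [← ee_add]
      congr 1
      ring
    rw [sum_congr rfl h2, ← sum_filter, sum_const, nsmul_eq_mul]
    push_cast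
    ring
  have h4 : (N : ℝ) * ((T.filter (fun p => Z p = s)).card : ℝ) =
      ‖((N : ℝ) * ((T.filter (fun p => Z p = s)).card : ℝ) : ℂ)‖ := by
    rw [← Complex.ofReal_mul, Complex.norm_real, Real.norm_eq_abs, abs_of_nonneg]
    (clear * -; positivity)
  rw [h4, h1]
  refine (norm_sum_le _ _).trans (sum_le_sum fun a _ => ?_)
  rw [norm_mul, norm_ee, one_mul]

/-- The final numerical step. -/
lemma sm3a_num {K κ κ' t r : ℕ} {b N : ℝ} (hκ : 0 < κ) (hκ' : κ < 2 * κ') (hN : 0 ≤ N)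
    (hb : b = 1 / (6 * 2 ^ K))
    (h : b ^ (8 * t ^ 2) * N ^ κ' ≤ 2 ^ ((3 * κ' + 2) * r)) :
    N ≤ (2 : ℝ) ^ ((3 + 4 / (κ : ℝ)) * r + ((8 * t ^ 2 * (K + 3) : ℕ) : ℝ)) := by
  have hκ0 : (0 : ℝ) < κ := by exact_mod_cast hκ
  have hκ1 : (κ : ℝ) < 2 * κ' := by exact_mod_cast hκ'
  have hκ2 : (1 : ℝ) ≤ κ' := by
    have : 1 ≤ κ' := by omega
    exact_mod_cast this
  have hb0 : 0 < b := by rw [hb]; positivity
  have h1 : 1 ≤ b * 2 ^ (K + 3) := by
    rw [hb, pow_add, one_div, inv_mul_eq_div, le_div_iff₀ (by positivity)]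
    have : (0 : ℝ) < 2 ^ K := by positivity
    (clear * - this; nlinarith)
  have h2 : (1 : ℝ) ≤ b ^ (8 * t ^ 2) * 2 ^ (8 * t ^ 2 * (K + 3)) := by
    have : (2 : ℝ) ^ (8 * t ^ 2 * (K + 3)) = (2 ^ (K + 3)) ^ (8 * t ^ 2) := by
      rw [← pow_mul, mul_comm]
    rw [this, ← mul_pow]
    exact one_le_pow₀ h1
  have h3 : N ^ κ' ≤ 2 ^ ((3 * κ' + 2) * r) * 2 ^ (8 * t ^ 2 * (K + 3)) := by
    have h4 : N ^ κ' * 1 ≤ N ^ κ' * (b ^ (8 * t ^ 2) * 2 ^ (8 * t ^ 2 * (K + 3))) :=
      mul_le_mul_of_nonneg_left h2 (by (clear * - hN; positivity))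
    have h5 : b ^ (8 * t ^ 2) * N ^ κ' * 2 ^ (8 * t ^ 2 * (K + 3)) ≤
        2 ^ ((3 * κ' + 2) * r) * 2 ^ (8 * t ^ 2 * (K + 3)) :=
      mul_le_mul_of_nonneg_right h (by positivity)
    calc N ^ κ' = N ^ κ' * 1 := by ring
      _ ≤ _ := h4
      _ = b ^ (8 * t ^ 2) * N ^ κ' * 2 ^ (8 * t ^ 2 * (K + 3)) := by ring
      _ ≤ _ := h5
  have hk0 : κ' ≠ 0 := by omega
  refine le_of_pow_le_pow_left₀ hk0 (by positivity) (h3.trans ?_)
  rw [← Real.rpow_mul_natCast (by norm_num), ← pow_add, ← Real.rpow_natCast]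
  refine Real.rpow_le_rpow_of_exponent_le (by norm_num) ?_
  push_cast
  have e1 : (2 : ℝ) ≤ 4 / κ * κ' := by
    rw [div_mul_eq_mul_div, le_div_iff₀ hκ0]
    linarith only [hκ1]
  have e2 : (0 : ℝ) ≤ r := by (clear * -; positivity)
  have e3 : (0 : ℝ) ≤ 8 * (t : ℝ) ^ 2 * (K + 3) := by (clear * -; positivity)
  nlinarith only [e1, hκ2, e3]

open Classical in
/-- Task M3a: dense pairs are small. -/
theorem dense_pairs (K : ℕ) {κ : ℕ} (hκ : 2 * K + 6 ≤ κ) : ∃ C : ℝ, ∀ (r : ℕ)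
    (P : Matrix (Fin r) (Fin r) (ZMod (2 ^ κ))) (X D : Finset (Fin r → Fin 4)),
    (∀ q ∈ X, ∃ y, P.mulVec y = fun j => ((st (q j) : ℤ) : ZMod (2 ^ κ))) →
    (∀ ρ ∈ D, ∃ lam, P.transpose.mulVec lam = fun j => ((st (ρ j) : ℤ) : ZMod (2 ^ κ))) →
    (X.card : ℝ) * D.card ≤ 2 ^ K * (((D ×ˢ X).filter (fun p => AdjP P p.1 p.2)).card : ℝ) →
    (X.card : ℝ) * D.card ≤ (2 : ℝ) ^ ((3 + 4 / (κ : ℝ)) * r + C) := by
  obtain ⟨t, ht, hts⟩ := two_source κ
  refine ⟨((8 * t ^ 2 * (K + 3) : ℕ) : ℝ), fun r P X D hX hD hdense => ?_⟩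
  rcases (show (0 : ℝ) ≤ (X.card : ℝ) * D.card by (clear * -; positivity)).eq_or_lt with hN | hN
  · rw [← hN]; positivity
  choose! y hy using hX
  choose! lam hlam using hD
  set N : ℝ := (X.card : ℝ) * D.card with hNdef
  set Z : (Fin r → Fin 4) × (Fin r → Fin 4) → ZMod (2 ^ κ) :=
    fun p => ∑ j, lam p.1 j * ((st (p.2 j) : ℤ) : ZMod (2 ^ κ)) with hZ
  set S : ZMod (2 ^ κ) → ℝ := fun a => ‖∑ p ∈ D ×ˢ X, ee (a * Z p)‖ with hS
  have hcardT : ((D ×ˢ X).card : ℝ) = N := by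
    rw [card_product, hNdef]; push_cast; ring
  have hSle : ∀ a, S a ≤ N := by
    intro a
    rw [← hcardT]
    refine (norm_sum_le _ _).trans ?_
    simp only [norm_ee, sum_const, nsmul_eq_mul, mul_one, le_refl]
  have hadj : (((D ×ˢ X).filter (fun p => AdjP P p.1 p.2)).card : ℝ) ≤
      ((D ×ˢ X).filter (fun p => Z p = 0)).card + ((D ×ˢ X).filter (fun p => Z p = 1)).card +
        ((D ×ˢ X).filter (fun p => Z p = -1)).card := by
    have hsub : (D ×ˢ X).filter (fun p => AdjP P p.1 p.2) ⊆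
        ((D ×ˢ X).filter (fun p => Z p = 0) ∪ (D ×ˢ X).filter (fun p => Z p = 1)) ∪
          (D ×ˢ X).filter (fun p => Z p = -1) := by
      intro p hp
      rw [mem_filter, mem_product] at hp
      obtain ⟨⟨hp1, hp2⟩, l, yy, hl, hyy, hval⟩ := hp
      have hpair := sm3a_pairing P _ _ l (lam p.1) yy hl (hlam p.1 hp1) hyy
      rw [hpair] at hval
      simp only [mem_union, mem_filter, mem_product]
      rcases hval with h | h | h
      · exact Or.inl (Or.inl ⟨⟨hp1, hp2⟩, h⟩)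
      · exact Or.inl (Or.inr ⟨⟨hp1, hp2⟩, h⟩)
      · exact Or.inr ⟨⟨hp1, hp2⟩, h⟩
    have h1 := (card_le_card hsub).trans ((card_union_le _ _).trans
      (Nat.add_le_add_right (card_union_le _ _) _))
    exact_mod_cast h1
  have hm : ((2 ^ κ : ℕ) : ℝ) * (((D ×ˢ X).filter (fun p => AdjP P p.1 p.2)).card : ℝ) ≤
      3 * ∑ a, S a := by
    have h0 := sm3a_count (D ×ˢ X) Z 0
    have h1 := sm3a_count (D ×ˢ X) Z 1
    have h2 := sm3a_count (D ×ˢ X) Z (-1)
    have h3 : ((2 ^ κ : ℕ) : ℝ) * (((D ×ˢ X).filter (fun p => AdjP P p.1 p.2)).card : ℝ) ≤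
        ((2 ^ κ : ℕ) : ℝ) * (((D ×ˢ X).filter (fun p => Z p = 0)).card +
          ((D ×ˢ X).filter (fun p => Z p = 1)).card +
            ((D ×ˢ X).filter (fun p => Z p = -1)).card) :=
      mul_le_mul_of_nonneg_left hadj (by positivity)
    linarith only [h0, h1, h2, h3]
  have hk2 : κ / 2 ≤ κ := Nat.div_le_self _ _
  obtain ⟨a, ha, hSa⟩ : ∃ a : ZMod (2 ^ κ), ¬ 2 ^ (κ - κ / 2) ∣ a.val ∧
      1 / (6 * 2 ^ K) * N < S a := by
    by_contra hcon
    push Not at hcon
    have hsum : ∑ a, S a ≤ 2 ^ (κ / 2) * N + 2 ^ κ * (1 / (6 * 2 ^ K) * N) := by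
      rw [← sum_filter_add_sum_filter_not univ (fun a : ZMod (2 ^ κ) => 2 ^ (κ - κ / 2) ∣ a.val)]
      refine add_le_add ?_ ?_
      · refine (sum_le_card_nsmul _ _ N fun a _ => hSle a).trans ?_
        rw [nsmul_eq_mul]
        refine mul_le_mul_of_nonneg_right ?_ hN.le
        exact_mod_cast sm3a_card_small κ (κ / 2) hk2
      · refine (sum_le_card_nsmul _ _ (1 / (6 * 2 ^ K) * N) fun a ha => ?_).trans ?_
        · exact hcon a (mem_filter.mp ha).2
        · rw [nsmul_eq_mul]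
          refine mul_le_mul_of_nonneg_right ?_ (by (clear * - hN; positivity))
          have : ((univ : Finset (ZMod (2 ^ κ))).filter
              (fun a => ¬ 2 ^ (κ - κ / 2) ∣ a.val)).card ≤ 2 ^ κ := by
            refine (card_filter_le _ _).trans ?_
            rw [card_univ, ZMod.card]
          exact_mod_cast this
    have hp : (2 : ℝ) ^ κ = 2 ^ (κ / 2) * 2 ^ (κ - κ / 2) := by
      rw [← pow_add]; congr 1; omega
    have hq : (8 : ℝ) * 2 ^ K ≤ 2 ^ (κ - κ / 2) := by
      have : (8 : ℝ) * 2 ^ K = 2 ^ (K + 3) := by rw [pow_add]; norm_num; ring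
      rw [this]
      exact pow_le_pow_right₀ (by norm_num) (by omega)
    have hmul : ((2 ^ κ : ℕ) : ℝ) * N ≤ 2 ^ K * (((2 ^ κ : ℕ) : ℝ) *
        (((D ×ˢ X).filter (fun p => AdjP P p.1 p.2)).card : ℝ)) := by
      have := mul_le_mul_of_nonneg_left hdense (show (0 : ℝ) ≤ ((2 ^ κ : ℕ) : ℝ) by (clear * -; positivity))
      linarith only [this]
    have hfin : ((2 ^ κ : ℕ) : ℝ) * N ≤ 2 ^ K * (3 * (2 ^ (κ / 2) * N +
        2 ^ κ * (1 / (6 * 2 ^ K) * N))) :=
      hmul.trans (mul_le_mul_of_nonneg_left (hm.trans (by linarith only [hsum])) (by positivity))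
    have hK : (0 : ℝ) < 2 ^ K := by positivity
    have he : (2 : ℝ) ^ K * (3 * (2 ^ (κ / 2) * N + 2 ^ κ * (1 / (6 * 2 ^ K) * N))) =
        3 * 2 ^ K * 2 ^ (κ / 2) * N + 2 ^ κ * N / 2 := by
      field_simp
      ring
    rw [he] at hfin
    push_cast at hfin
    rw [hp] at hfin
    have hA : (0 : ℝ) < 2 ^ (κ / 2) * N := by (clear * - hN; positivity)
    nlinarith only [hfin, hq, hA, hK]
  obtain ⟨κ', c, hk', hκ'κ, hc, hac⟩ := sm3a_decomp κ (κ / 2) hk2 a ha
  set φ := ZMod.castHom (pow_dvd_pow 2 hκ'κ) (ZMod (2 ^ κ')) with hφ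
  have hunit : IsUnit ((c : ℕ) : ZMod (2 ^ κ')) := by
    rw [ZMod.isUnit_iff_coprime]
    exact Nat.Coprime.pow_right _ (Nat.coprime_two_right.mpr hc)
  have hfinal := hts κ' (by (clear * - hk' hκ'κ; omega)) hκ'κ r (P.map φ) X D (fun q j => φ (y q j))
    (fun ρ j => φ (lam ρ j)) ((c : ℕ) : ZMod (2 ^ κ')) hunit ?_ ?_ (1 / (6 * 2 ^ K))
    (by positivity) ?_
  · exact sm3a_num (by omega) (by omega) hN.le rfl hfinal
  · intro q hq
    have h1 := hy q hq
    funext i
    have h2 := congrFun h1 i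
    have h3 := congrArg φ h2
    rw [map_intCast] at h3
    rw [← h3]
    simp only [Matrix.mulVec, dotProduct, map_sum, map_mul, Matrix.map_apply]
  · intro ρ hρ
    have h1 := hlam ρ hρ
    funext i
    have h2 := congrFun h1 i
    have h3 := congrArg φ h2
    rw [map_intCast] at h3
    rw [← h3]
    simp only [Matrix.mulVec, dotProduct, Matrix.transpose_apply, Matrix.map_apply, map_sum, map_mul]
  · refine (le_of_lt hSa).trans (le_of_eq ?_)
    simp only [hS]
    congr 1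
    rw [sum_product]
    refine sum_congr rfl fun ρ _ => sum_congr rfl fun q _ => ?_
    rw [hac, mul_assoc, sm3a_ee_scale hκ'κ]
    congr 1
    rw [map_mul, map_natCast]
    congr 1
    simp only [hZ, map_sum, map_mul, map_intCast]
    rfl

end Vale.Agent.P160
end
end

section

section

namespace Vale.Agent.P160

open Finset

open Classical in
/-- Common neighbours of the rows with index in `I`. -/
noncomputable def sm3b_X {κ r l : ℕ} (P : Matrix (Fin r) (Fin r) (ZMod (2 ^ κ)))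
    (I : Finset (Fin l)) (ρ : Fin l → Fin r → Fin 4) : Finset (Fin r → Fin 4) :=
  univ.filter (fun q => (∃ y, P.mulVec y = fun j => ((st (q j) : ℤ) : ZMod (2 ^ κ))) ∧
    ∀ i ∈ I, AdjP P (ρ i) q)

open Classical in
/-- Seeds with many neighbours among the common neighbours. -/
noncomputable def sm3b_D {κ r l : ℕ} (K : ℕ) (P : Matrix (Fin r) (Fin r) (ZMod (2 ^ κ)))
    (I : Finset (Fin l)) (ρ : Fin l → Fin r → Fin 4) : Finset (Fin r → Fin 4) :=
  univ.filter (fun σ => (∃ lam, P.transpose.mulVec lam =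
      fun j => ((st (σ j) : ℤ) : ZMod (2 ^ κ))) ∧
    (sm3b_X P I ρ).card ≤ 2 ^ K * ((sm3b_X P I ρ).filter (fun q => AdjP P σ q)).card)

lemma sm3b_X_congr {κ r l : ℕ} (P : Matrix (Fin r) (Fin r) (ZMod (2 ^ κ)))
    (I : Finset (Fin l)) {ρ τ : Fin l → Fin r → Fin 4} (h : ∀ i ∈ I, ρ i = τ i) :
    sm3b_X P I ρ = sm3b_X P I τ := by
  classical
  unfold sm3b_X
  refine filter_congr fun q _ => ?_
  refine and_congr_right fun _ => forall₂_congr fun i hi => ?_
  rw [h i hi]

lemma sm3b_D_congr {κ r l : ℕ} (K : ℕ) (P : Matrix (Fin r) (Fin r) (ZMod (2 ^ κ)))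
    (I : Finset (Fin l)) {ρ τ : Fin l → Fin r → Fin 4} (h : ∀ i ∈ I, ρ i = τ i) :
    sm3b_D K P I ρ = sm3b_D K P I τ := by
  classical
  unfold sm3b_D
  rw [sm3b_X_congr P I h]

lemma sm3b_card_le {r : ℕ} (X : Finset (Fin r → Fin 4)) : X.card ≤ 4 ^ r := by
  refine (card_le_univ X).trans ?_
  simp only [Fintype.card_pi, Fintype.card_fin, prod_const, card_univ, Std.le_refl]

open Classical in
/-- The fibres over the rows in `I`. -/
lemma sm3b_fiber {κ r l : ℕ} (K : ℕ) (P : Matrix (Fin r) (Fin r) (ZMod (2 ^ κ)))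
    (I : Finset (Fin l)) (B : ℝ) (hB4 : (4 : ℝ) ^ r ≤ B) (hB1 : 1 ≤ B)
    (hB : ∀ τ : Fin l → Fin r → Fin 4,
      ((sm3b_X P I τ).card : ℝ) * (sm3b_D K P I τ).card ≤ B) :
    ((univ.filter (fun p : (Fin l → Fin r → Fin 4) × (Fin l → Fin r → Fin 4) =>
      (∀ i, i ∉ I → p.1 i ∈ sm3b_D K P I p.1) ∧ ∀ j, p.2 j ∈ sm3b_X P I p.1)).card : ℝ) ≤
      B ^ l * 4 ^ (r * I.card) := by
  set E := univ.filter (fun p : (Fin l → Fin r → Fin 4) × (Fin l → Fin r → Fin 4) =>
      (∀ i, i ∉ I → p.1 i ∈ sm3b_D K P I p.1) ∧ ∀ j, p.2 j ∈ sm3b_X P I p.1) with hE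
  set f : (Fin l → Fin r → Fin 4) × (Fin l → Fin r → Fin 4) → (Fin l → Fin r → Fin 4) :=
    fun p i => if i ∈ I then p.1 i else default with hf
  set T : Finset (Fin l → Fin r → Fin 4) :=
    Fintype.piFinset (fun i => if i ∈ I then univ else {default}) with hT
  have hTcard : T.card = 4 ^ (r * I.card) := by
    rw [hT, Fintype.card_piFinset]
    have : ∀ i : Fin l, (if i ∈ I then (univ : Finset (Fin r → Fin 4)) else {default}).card =
        if i ∈ I then 4 ^ r else 1 := by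
      intro i
      split_ifs <;> simp
    rw [prod_congr rfl fun i _ => this i, prod_ite, prod_const, prod_const_one, mul_one, ← pow_mul]
    congr 2
    congr 1
    ext i
    simp only [subset_univ, filter_mem_eq_of_subset]
  have hmaps : ∀ p ∈ E, f p ∈ T := by
    intro p _
    rw [hT, Fintype.mem_piFinset]
    intro i
    simp only [hf]
    split_ifs <;> simp
  have hfib : ∀ τ ∈ T, (E.filter (fun p => f p = τ)).card ≤ ⌊B ^ l⌋₊ := by
    intro τ _
    refine Nat.le_floor ?_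
    have hsub : E.filter (fun p => f p = τ) ⊆
        Fintype.piFinset (fun i => if i ∈ I then {τ i} else sm3b_D K P I τ) ×ˢ
          Fintype.piFinset (fun _ : Fin l => sm3b_X P I τ) := by
      intro p hp
      rw [mem_filter, hE, mem_filter] at hp
      obtain ⟨⟨-, h1, h2⟩, h3⟩ := hp
      have h4 : ∀ i ∈ I, p.1 i = τ i := by
        intro i hi
        rw [← h3]
        simp [hf, hi]
      rw [sm3b_D_congr K P I h4] at h1
      rw [sm3b_X_congr P I h4] at h2
      rw [mem_product, Fintype.mem_piFinset, Fintype.mem_piFinset]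
      refine ⟨fun i => ?_, h2⟩
      split_ifs with hi
      · rw [mem_singleton]; exact h4 i hi
      · exact h1 i hi
    have h1 := card_le_card hsub
    rw [card_product, Fintype.card_piFinset, Fintype.card_piFinset] at h1
    have h2 : ∀ i : Fin l, (if i ∈ I then ({τ i} : Finset (Fin r → Fin 4))
        else sm3b_D K P I τ).card = if i ∈ I then 1 else (sm3b_D K P I τ).card := by
      intro i
      split_ifs <;> simp
    rw [prod_congr rfl fun i _ => h2 i, prod_ite, prod_const_one, one_mul, prod_const,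
      prod_const, card_univ, Fintype.card_fin] at h1
    have h3 : (univ.filter (fun i : Fin l => i ∉ I)).card ≤ l := by
      refine (card_filter_le _ _).trans ?_
      simp only [card_univ, Fintype.card_fin, Std.le_refl]
    have h1' : ((E.filter (fun p => f p = τ)).card : ℝ) ≤
        ((sm3b_D K P I τ).card : ℝ) ^ (univ.filter (fun i : Fin l => i ∉ I)).card *
          ((sm3b_X P I τ).card : ℝ) ^ l := by exact_mod_cast h1
    refine h1'.trans ?_
    have hXr : ((sm3b_X P I τ).card : ℝ) ≤ 4 ^ r := by exact_mod_cast sm3b_card_le _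
    rcases Nat.eq_zero_or_pos (sm3b_D K P I τ).card with hD | hD
    · rw [hD]
      rcases Nat.eq_zero_or_pos (univ.filter (fun i : Fin l => i ∉ I)).card with h0 | h0
      · rw [h0, pow_zero, one_mul]
        exact pow_le_pow_left₀ (by (clear * -; positivity)) (hXr.trans hB4) _
      · rw [Nat.cast_zero, zero_pow h0.ne', zero_mul]
        positivity
    · have hD1 : (1 : ℝ) ≤ (sm3b_D K P I τ).card := by exact_mod_cast hD
      calc ((sm3b_D K P I τ).card : ℝ) ^ (univ.filter (fun i : Fin l => i ∉ I)).card *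
            ((sm3b_X P I τ).card : ℝ) ^ l
          ≤ ((sm3b_D K P I τ).card : ℝ) ^ l * ((sm3b_X P I τ).card : ℝ) ^ l :=
            mul_le_mul_of_nonneg_right (pow_le_pow_right₀ hD1 h3) (by (clear * -; positivity))
        _ = (((sm3b_X P I τ).card : ℝ) * (sm3b_D K P I τ).card) ^ l := by
            rw [← mul_pow, mul_comm]
        _ ≤ B ^ l := pow_le_pow_left₀ (by (clear * - hD; positivity)) (hB τ) _
  have hmain := card_le_mul_card_image_of_maps_to hmaps _ hfib
  have h5 : (E.card : ℝ) ≤ (⌊B ^ l⌋₊ : ℝ) * (T.card : ℝ) := by exact_mod_cast hmain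
  refine h5.trans ?_
  rw [hTcard]
  push_cast
  exact mul_le_mul_of_nonneg_right (Nat.floor_le (by positivity)) (by positivity)

/-- Maximal index sets. -/
lemma sm3b_max {κ r l : ℕ} (K : ℕ) (P : Matrix (Fin r) (Fin r) (ZMod (2 ^ κ)))
    (ρ q : Fin l → Fin r → Fin 4) (hl : 0 < l) (h : ∀ i j, AdjP P (ρ i) (q j)) :
    ∃ I : Finset (Fin l), K * I.card ≤ 2 * r ∧ (∀ i, i ∉ I → ρ i ∈ sm3b_D K P I ρ) ∧
      ∀ j, q j ∈ sm3b_X P I ρ := by
  classical
  have hq : ∀ I : Finset (Fin l), ∀ j, q j ∈ sm3b_X P I ρ := by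
    intro I j
    unfold sm3b_X
    rw [mem_filter]
    obtain ⟨lam, y, h1, h2, h3⟩ := h ⟨0, hl⟩ j
    exact ⟨mem_univ _, ⟨y, h2⟩, fun i _ => h i j⟩
  set 𝒮 := (univ : Finset (Finset (Fin l))).filter
    (fun I => (sm3b_X P I ρ).card * 2 ^ (K * I.card) ≤ 4 ^ r) with h𝒮
  have hne : 𝒮.Nonempty := by
    refine ⟨∅, ?_⟩
    rw [h𝒮, mem_filter]
    refine ⟨mem_univ _, ?_⟩
    simpa only [card_empty, mul_zero, pow_zero, mul_one] using sm3b_card_le (sm3b_X P (∅ : Finset (Fin l)) ρ)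
  obtain ⟨I, hI, hmax⟩ := exists_max_image 𝒮 (fun I => I.card) hne
  have hI' := (mem_filter.mp hI).2
  have hXpos : 0 < (sm3b_X P I ρ).card := card_pos.mpr ⟨q ⟨0, hl⟩, hq I _⟩
  refine ⟨I, ?_, ?_, hq I⟩
  · have h1 : 2 ^ (K * I.card) ≤ 2 ^ (2 * r) := by
      calc 2 ^ (K * I.card) ≤ (sm3b_X P I ρ).card * 2 ^ (K * I.card) :=
            Nat.le_mul_of_pos_left _ hXpos
        _ ≤ 4 ^ r := hI'
        _ = 2 ^ (2 * r) := by rw [pow_mul]; norm_num
    exact (Nat.pow_le_pow_iff_right (by norm_num)).mp h1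
  · intro i hi
    unfold sm3b_D
    rw [mem_filter]
    obtain ⟨lam, y, h1, h2, h3⟩ := h i ⟨0, hl⟩
    refine ⟨mem_univ _, ⟨lam, h1⟩, ?_⟩
    have hnot : insert i I ∉ 𝒮 := by
      intro hcon
      have := hmax _ hcon
      simp only [card_insert_of_notMem hi] at this
      omega
    have hgt : 4 ^ r < (sm3b_X P (insert i I) ρ).card * 2 ^ (K * (insert i I).card) := by
      by_contra hcon
      push Not at hcon
      exact hnot (by rw [h𝒮, mem_filter]; exact ⟨mem_univ _, hcon⟩)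
    have hXi : sm3b_X P (insert i I) ρ = (sm3b_X P I ρ).filter (fun q => AdjP P (ρ i) q) := by
      unfold sm3b_X
      ext q
      simp only [mem_filter, mem_univ, true_and, mem_insert, forall_eq_or_imp]
      (clear * - hl h3; tauto)
    rw [hXi, card_insert_of_notMem hi, mul_add, mul_one, pow_add] at hgt
    have h4 := hI'.trans_lt hgt
    have h5 : (sm3b_X P I ρ).card * 2 ^ (K * I.card) <
        (2 ^ K * ((sm3b_X P I ρ).filter (fun q => AdjP P (ρ i) q)).card) *
          2 ^ (K * I.card) := by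
      calc _ < _ := h4
        _ = _ := by ring
    exact (Nat.lt_of_mul_lt_mul_right h5).le

open Classical in
/-- Task M3b: the number of bicliques. -/
theorem biclique (e : ℝ) (he : 0 < e) : ∃ κ : ℕ, 2 ≤ κ ∧ ∃ d0 : ℕ, ∀ r l : ℕ, d0 ≤ r + l →
    ∀ P : Matrix (Fin r) (Fin r) (ZMod (2 ^ κ)),
    ((univ.filter (fun p : (Fin l → Fin r → Fin 4) × (Fin l → Fin r → Fin 4) =>
      ∀ i j, AdjP P (p.1 i) (p.2 j))).card : ℝ) ≤
      (2 : ℝ) ^ (e * ((r : ℝ) + l) ^ 2) * 2 ^ (3 * r * l) := by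
  obtain ⟨K, hK⟩ := exists_nat_ge (16 / e)
  have hK0 : (0 : ℝ) < K := lt_of_lt_of_le (by positivity) hK
  have hK4 : (4 : ℝ) / K ≤ e / 4 := by
    rw [div_le_iff₀ hK0]
    rw [div_le_iff₀ he] at hK
    linarith
  set κ := 2 * K + 6 with hκ
  have hκ4 : (4 : ℝ) / κ ≤ e / 4 := by
    refine le_trans ?_ hK4
    refine div_le_div_of_nonneg_left (by norm_num) hK0 ?_
    rw [hκ]; push_cast; linarith only []
  obtain ⟨C0, hC0⟩ := dense_pairs K (κ := κ) le_rfl
  set C : ℝ := max C0 0 with hC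
  have hCnn : 0 ≤ C := le_max_right _ _
  obtain ⟨d0, hd0⟩ := exists_nat_ge (4 * (C + 1) / e)
  refine ⟨κ, by omega, d0, fun r l hrl P => ?_⟩
  rcases Nat.eq_zero_or_pos l with rfl | hl
  · have h1 : (univ.filter (fun p : (Fin 0 → Fin r → Fin 4) × (Fin 0 → Fin r → Fin 4) =>
      ∀ i j, AdjP P (p.1 i) (p.2 j))).card ≤ 1 := by
      refine (card_filter_le _ _).trans ?_
      simp only [card_univ, Fintype.card_prod, Fintype.card_unique, mul_one, Std.le_refl]
    have h2 : ((univ.filter (fun p : (Fin 0 → Fin r → Fin 4) × (Fin 0 → Fin r → Fin 4) =>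
      ∀ i j, AdjP P (p.1 i) (p.2 j))).card : ℝ) ≤ 1 := by exact_mod_cast h1
    refine h2.trans ?_
    rw [mul_zero, pow_zero, mul_one]
    exact Real.one_le_rpow (by norm_num) (by (clear * - he; positivity))
  set B : ℝ := (2 : ℝ) ^ ((3 + 4 / (κ : ℝ)) * r + C) with hBdef
  have hκpos : (0 : ℝ) < κ := by rw [hκ]; push_cast; positivity
  have hB4 : (4 : ℝ) ^ r ≤ B := by
    have : (4 : ℝ) ^ r = (2 : ℝ) ^ ((2 * r : ℕ) : ℝ) := by
      rw [Real.rpow_natCast, pow_mul]; norm_num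
    rw [this, hBdef]
    refine Real.rpow_le_rpow_of_exponent_le (by norm_num) ?_
    push_cast
    have : (0 : ℝ) ≤ 4 / κ * r := by (clear * -; positivity)
    have : (0 : ℝ) ≤ (r : ℝ) := by (clear * -; positivity)
    (clear e he hK hK0 hK4 hκ hκ4 hC0 hC d0 hd0 l hrl P hl B hBdef hκpos this; nlinarith)
  have hB1 : 1 ≤ B := le_trans (one_le_pow₀ (by norm_num)) hB4
  have hBB : ∀ I : Finset (Fin l), ∀ τ : Fin l → Fin r → Fin 4,
      ((sm3b_X P I τ).card : ℝ) * (sm3b_D K P I τ).card ≤ B := by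
    intro I τ
    have h1 := hC0 r P (sm3b_X P I τ) (sm3b_D K P I τ) ?_ ?_ ?_
    · refine h1.trans ?_
      rw [hBdef]
      refine Real.rpow_le_rpow_of_exponent_le (by norm_num) ?_
      have := le_max_left C0 0
      linarith only [this]
    · intro q hq
      exact (mem_filter.mp hq).2.1
    · intro σ hσ
      exact (mem_filter.mp hσ).2.1
    · have h2 : ((sm3b_D K P I τ ×ˢ sm3b_X P I τ).filter (fun p => AdjP P p.1 p.2)).card =
          ∑ σ ∈ sm3b_D K P I τ, ((sm3b_X P I τ).filter (fun q => AdjP P σ q)).card := by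
        rw [card_filter, sum_product]
        refine sum_congr rfl fun σ _ => ?_
        rw [card_filter]
      have h3 : (sm3b_X P I τ).card * (sm3b_D K P I τ).card ≤
          2 ^ K * ((sm3b_D K P I τ ×ˢ sm3b_X P I τ).filter (fun p => AdjP P p.1 p.2)).card := by
        rw [h2, mul_sum, mul_comm, ← smul_eq_mul]
        refine card_nsmul_le_sum _ _ _ fun σ hσ => ?_
        exact (mem_filter.mp hσ).2.2
      exact_mod_cast h3
  set 𝒮 := (univ : Finset (Finset (Fin l))).filter (fun I => K * I.card ≤ 2 * r) with h𝒮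
  have hsub : (univ.filter (fun p : (Fin l → Fin r → Fin 4) × (Fin l → Fin r → Fin 4) =>
      ∀ i j, AdjP P (p.1 i) (p.2 j))) ⊆
      𝒮.biUnion (fun I => univ.filter
        (fun p : (Fin l → Fin r → Fin 4) × (Fin l → Fin r → Fin 4) =>
          (∀ i, i ∉ I → p.1 i ∈ sm3b_D K P I p.1) ∧ ∀ j, p.2 j ∈ sm3b_X P I p.1)) := by
    intro p hp
    obtain ⟨I, hI1, hI2, hI3⟩ := sm3b_max K P p.1 p.2 hl (mem_filter.mp hp).2
    rw [mem_biUnion]
    exact ⟨I, by rw [h𝒮, mem_filter]; exact ⟨mem_univ _, hI1⟩,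
      mem_filter.mpr ⟨mem_univ _, hI2, hI3⟩⟩
  have hcard : ((univ.filter (fun p : (Fin l → Fin r → Fin 4) × (Fin l → Fin r → Fin 4) =>
      ∀ i j, AdjP P (p.1 i) (p.2 j))).card : ℝ) ≤
      ∑ I ∈ 𝒮, ((univ.filter
        (fun p : (Fin l → Fin r → Fin 4) × (Fin l → Fin r → Fin 4) =>
          (∀ i, i ∉ I → p.1 i ∈ sm3b_D K P I p.1) ∧
            ∀ j, p.2 j ∈ sm3b_X P I p.1)).card : ℝ) := by
    exact_mod_cast (card_le_card hsub).trans card_biUnion_le
  refine hcard.trans ?_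
  have hterm : ∀ I ∈ 𝒮, ((univ.filter
        (fun p : (Fin l → Fin r → Fin 4) × (Fin l → Fin r → Fin 4) =>
          (∀ i, i ∉ I → p.1 i ∈ sm3b_D K P I p.1) ∧
            ∀ j, p.2 j ∈ sm3b_X P I p.1)).card : ℝ) ≤
      (2 : ℝ) ^ (((3 + 4 / (κ : ℝ)) * r + C) * l + 4 * (r : ℝ) ^ 2 / K) := by
    intro I hI
    refine (sm3b_fiber K P I B hB4 hB1 (hBB I)).trans ?_
    have hI' : (K : ℝ) * I.card ≤ 2 * r := by exact_mod_cast (mem_filter.mp hI).2
    have h1 : B ^ l = (2 : ℝ) ^ (((3 + 4 / (κ : ℝ)) * r + C) * l) := by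
      rw [hBdef, ← Real.rpow_mul_natCast (by norm_num)]
    have h2 : (4 : ℝ) ^ (r * I.card) = (2 : ℝ) ^ ((2 * (r * I.card) : ℕ) : ℝ) := by
      rw [Real.rpow_natCast, pow_mul (2 : ℝ) 2 (r * I.card)]; norm_num
    rw [h1, h2, ← Real.rpow_add (by norm_num)]
    refine Real.rpow_le_rpow_of_exponent_le (by norm_num) ?_
    refine add_le_add_right ?_ _
    rw [le_div_iff₀ hK0]
    push_cast
    have hr : (0 : ℝ) ≤ r := by (clear * -; positivity)
    nlinarith only [hI']
  refine (sum_le_sum hterm).trans ?_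
  rw [sum_const, nsmul_eq_mul]
  have hcS : (𝒮.card : ℝ) ≤ (2 : ℝ) ^ ((l : ℕ) : ℝ) := by
    rw [Real.rpow_natCast]
    have : 𝒮.card ≤ 2 ^ l := by
      refine (card_filter_le _ _).trans ?_
      simp only [card_univ, Fintype.card_finset, Fintype.card_fin, Std.le_refl]
    exact_mod_cast this
  refine (mul_le_mul_of_nonneg_right hcS (by positivity)).trans ?_
  rw [← Real.rpow_add (by norm_num), ← Real.rpow_natCast 2 (3 * r * l),
    ← Real.rpow_add (by norm_num)]
  refine Real.rpow_le_rpow_of_exponent_le (by norm_num) ?_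
  push_cast
  have hd : (d0 : ℝ) ≤ r + l := by exact_mod_cast hrl
  have hd' : 4 * (C + 1) / e ≤ r + l := hd0.trans hd
  rw [div_le_iff₀ he] at hd'
  have hr : (0 : ℝ) ≤ r := by (clear * -; positivity)
  have hl0 : (0 : ℝ) ≤ l := by positivity
  have a1 : 4 * (r : ℝ) ^ 2 / K ≤ e / 4 * (r + l) ^ 2 := by
    have : 4 * (r : ℝ) ^ 2 / K = 4 / K * r ^ 2 := by ring
    rw [this]
    refine mul_le_mul hK4 ?_ (by (clear * -; positivity)) (by positivity)
    nlinarith
  have a2 : 4 / (κ : ℝ) * r * l ≤ e / 4 * (r + l) ^ 2 := by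
    rw [mul_assoc]
    refine mul_le_mul hκ4 ?_ (by (clear * - hl; positivity)) (by positivity)
    nlinarith only []
  have a3 : (C + 1) * l ≤ e / 4 * (r + l) ^ 2 := by
    have h1 : (C + 1) * l ≤ (C + 1) * (r + l) :=
      mul_le_mul_of_nonneg_left (by linarith only []) (by linarith only [hCnn])
    have h2 : (C + 1) * (r + l) ≤ e / 4 * (r + l) * (r + l) :=
      mul_le_mul_of_nonneg_right (by linarith only [hd']) (by linarith only [])
    nlinarith only [h1, h2]
  nlinarith only [a1, a2, a3, he]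

end Vale.Agent.P160
end
end

section

section

namespace Vale.Agent.P160

open Finset

lemma sm5a_card_st (c : ℤ) : (univ.filter (fun a : Fin 4 => st a = c)).card ≤ 2 := by
  by_cases h : ∃ a : Fin 4, st a = c
  · obtain ⟨a, rfl⟩ := h
    revert a
    decide
  · push Not at h
    rw [Finset.filter_false_of_mem (fun a _ => h a)]
    simp only [card_empty, zero_le]

lemma sm5a_st_inj {κ : ℕ} (hκ : 2 ≤ κ) (a b : Fin 4)
    (h : ((st a : ℤ) : ZMod (2 ^ κ)) = ((st b : ℤ) : ZMod (2 ^ κ))) : st a = st b := by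
  rw [ZMod.intCast_eq_intCast_iff] at h
  have h4 : (4 : ℤ) ∣ ((2 ^ κ : ℕ) : ℤ) := by
    have : (4 : ℕ) ∣ 2 ^ κ := by
      have := pow_dvd_pow 2 hκ
      simpa only [Nat.reducePow] using this
    exact_mod_cast this
  have h2 : st a ≡ st b [ZMOD 4] := h.of_dvd h4
  clear h h4
  revert a b
  (clear * -; decide)

lemma sm5a_st_cases (a : Fin 4) : st a = 0 ∨ st a = 1 ∨ st a = -1 := by
  revert a
  decide

open Classical in
/-- Seeds which are possible in the corner. -/
noncomputable def sm5a_T {κ r : ℕ} (P : Matrix (Fin r) (Fin r) (ZMod (2 ^ κ)))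
    (ρ q : Fin r → Fin 4) : Finset (Fin 4) :=
  univ.filter (fun a => ∃ lam y : Fin r → ZMod (2 ^ κ),
    P.transpose.mulVec lam = (fun j => ((st (ρ j) : ℤ) : ZMod (2 ^ κ))) ∧
    P.mulVec y = (fun j => ((st (q j) : ℤ) : ZMod (2 ^ κ))) ∧
    ((st a : ℤ) : ZMod (2 ^ κ)) = ∑ j, lam j * ((st (q j) : ℤ) : ZMod (2 ^ κ)))

lemma sm5a_T_card {κ r : ℕ} (hκ : 2 ≤ κ) (P : Matrix (Fin r) (Fin r) (ZMod (2 ^ κ)))
    (ρ q : Fin r → Fin 4) : (sm5a_T P ρ q).card ≤ 2 := by
  classical
  by_cases hne : (sm5a_T P ρ q).Nonempty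
  · obtain ⟨a, ha⟩ := hne
    refine (Finset.card_le_card ?_).trans (sm5a_card_st (st a))
    intro b hb
    rw [sm5a_T, mem_filter] at ha hb
    obtain ⟨-, lam, y, h1, h2, h3⟩ := ha
    obtain ⟨-, lam', y', h1', h2', h3'⟩ := hb
    rw [mem_filter]
    refine ⟨mem_univ _, sm5a_st_inj hκ b a ?_⟩
    have key : ∀ lam'' : Fin r → ZMod (2 ^ κ),
        P.transpose.mulVec lam'' = (fun j => ((st (ρ j) : ℤ) : ZMod (2 ^ κ))) →
        ∑ j, lam'' j * ((st (q j) : ℤ) : ZMod (2 ^ κ)) =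
          ∑ j, ((st (ρ j) : ℤ) : ZMod (2 ^ κ)) * y j := by
      intro lam'' h
      have e1 : ∑ j, lam'' j * ((st (q j) : ℤ) : ZMod (2 ^ κ)) =
          dotProduct lam'' (P.mulVec y) := by rw [h2]; rfl
      rw [e1, Matrix.dotProduct_mulVec, ← Matrix.mulVec_transpose, h]
      rfl
    rw [h3', h3, key lam' h1', key lam h1]
  · rw [not_nonempty_iff_eq_empty] at hne
    rw [hne]
    simp only [card_empty, zero_le]

/-- The square block. -/
def sm5a_P (κ : ℕ) {r : ℕ} (p : Fin r → Fin r → Fin 4) : Matrix (Fin r) (Fin r) (ZMod (2 ^ κ)) :=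
  fun k k' => ((st (p k k') : ℤ) : ZMod (2 ^ κ))

open Classical in
lemma sm5a_A_card {κ : ℕ} (hκ : 2 ≤ κ) {d r l : ℕ} {K : ℝ}
    (hK : ∀ P : Matrix (Fin r) (Fin r) (ZMod (2 ^ κ)),
      ((univ.filter (fun p : (Fin l → Fin r → Fin 4) × (Fin l → Fin r → Fin 4) =>
        ∀ i j, AdjP P (p.1 i) (p.2 j))).card : ℝ) ≤ K)
    (eI eC : Fin r ⊕ Fin l ≃ Fin d) :
    ((univ.filter (fun ω : Fin d → Fin d → Fin 4 =>
      ∃ (Y L : Fin l → Fin r → ZMod (2 ^ κ)),
        (∀ i j, ((hm ω i (eC (Sum.inr j)) : ℤ) : ZMod (2 ^ κ)) =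
          ∑ k, ((hm ω i (eC (Sum.inl k)) : ℤ) : ZMod (2 ^ κ)) * Y j k) ∧
        (∀ i j, ((hm ω (eI (Sum.inr i)) j : ℤ) : ZMod (2 ^ κ)) =
          ∑ k, L i k * ((hm ω (eI (Sum.inl k)) j : ℤ) : ZMod (2 ^ κ))))).card : ℝ) ≤
      4 ^ (r * r) * (K * 2 ^ (l * l)) := by
  set Bic : (Fin r → Fin r → Fin 4) →
      Finset ((Fin l → Fin r → Fin 4) × (Fin l → Fin r → Fin 4)) := fun p =>
    univ.filter (fun x => ∀ i j, AdjP (sm5a_P κ p) (x.1 i) (x.2 j)) with hBic
  set Sst : (Fin r → Fin r → Fin 4) → ((Fin l → Fin r → Fin 4) × (Fin l → Fin r → Fin 4)) →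
      Finset (Fin l → Fin l → Fin 4) := fun p x =>
    Fintype.piFinset (fun i => Fintype.piFinset
      (fun j => sm5a_T (sm5a_P κ p) (x.1 i) (x.2 j))) with hSst
  have hS : ∀ p x, (Sst p x).card ≤ 2 ^ (l * l) := by
    intro p x
    rw [hSst]
    simp only [Fintype.card_piFinset]
    calc ∏ i : Fin l, ∏ j : Fin l, (sm5a_T (sm5a_P κ p) (x.1 i) (x.2 j)).card
        ≤ ∏ _i : Fin l, ∏ _j : Fin l, 2 :=
          Finset.prod_le_prod' fun i _ => Finset.prod_le_prod' fun j _ => sm5a_T_card hκ _ _ _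
      _ = 2 ^ (l * l) := by simp only [prod_const, card_univ, Fintype.card_fin, ← pow_mul]
  have h1 : (univ.filter (fun ω : Fin d → Fin d → Fin 4 =>
      ∃ (Y L : Fin l → Fin r → ZMod (2 ^ κ)),
        (∀ i j, ((hm ω i (eC (Sum.inr j)) : ℤ) : ZMod (2 ^ κ)) =
          ∑ k, ((hm ω i (eC (Sum.inl k)) : ℤ) : ZMod (2 ^ κ)) * Y j k) ∧
        (∀ i j, ((hm ω (eI (Sum.inr i)) j : ℤ) : ZMod (2 ^ κ)) =
          ∑ k, L i k * ((hm ω (eI (Sum.inl k)) j : ℤ) : ZMod (2 ^ κ))))).card ≤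
      ((univ : Finset (Fin r → Fin r → Fin 4)).sigma (fun p => (Bic p).sigma (Sst p))).card := by
    refine Finset.card_le_card_of_injOn (fun ω =>
      ⟨fun k k' => ω (eI (Sum.inl k)) (eC (Sum.inl k')),
        ⟨(fun i k => ω (eI (Sum.inr i)) (eC (Sum.inl k)),
          fun j k => ω (eI (Sum.inl k)) (eC (Sum.inr j))),
          fun i j => ω (eI (Sum.inr i)) (eC (Sum.inr j))⟩⟩) ?_ ?_
    · intro ω hω
      rw [Finset.mem_coe, mem_filter] at hω
      obtain ⟨-, Y, L, r1, r2⟩ := hω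
      have a1 : ∀ j, (sm5a_P κ fun k k' => ω (eI (Sum.inl k)) (eC (Sum.inl k'))).mulVec (Y j) =
          fun k => ((st (ω (eI (Sum.inl k)) (eC (Sum.inr j))) : ℤ) : ZMod (2 ^ κ)) := by
        intro j
        funext k
        exact (r1 (eI (Sum.inl k)) j).symm
      have a2 : ∀ i, (sm5a_P κ fun k k' =>
            ω (eI (Sum.inl k)) (eC (Sum.inl k'))).transpose.mulVec (L i) =
          fun k => ((st (ω (eI (Sum.inr i)) (eC (Sum.inl k))) : ℤ) : ZMod (2 ^ κ)) := by
        intro i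
        funext k
        refine Eq.trans ?_ (r2 i (eC (Sum.inl k))).symm
        change ∑ k' : Fin r, ((st (ω (eI (Sum.inl k')) (eC (Sum.inl k))) : ℤ) : ZMod (2 ^ κ)) *
            L i k' =
          ∑ k' : Fin r, L i k' * ((hm ω (eI (Sum.inl k')) (eC (Sum.inl k)) : ℤ) : ZMod (2 ^ κ))
        exact Finset.sum_congr rfl fun k' _ => mul_comm _ _
      have a3 : ∀ i j, ((st (ω (eI (Sum.inr i)) (eC (Sum.inr j))) : ℤ) : ZMod (2 ^ κ)) =
          ∑ k, L i k * ((st (ω (eI (Sum.inl k)) (eC (Sum.inr j))) : ℤ) : ZMod (2 ^ κ)) :=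
        fun i j => r2 i (eC (Sum.inr j))
      rw [Finset.mem_coe, Finset.mem_sigma, Finset.mem_sigma]
      refine ⟨mem_univ _, ?_, ?_⟩
      · rw [hBic]
        simp only [mem_filter, mem_univ, true_and]
        intro i j
        refine ⟨L i, Y j, a2 i, a1 j, ?_⟩
        rw [← a3 i j]
        rcases sm5a_st_cases (ω (eI (Sum.inr i)) (eC (Sum.inr j))) with h | h | h
        · left; rw [h]; simp
        · right; left; rw [h]; simp
        · right; right; rw [h]; simp only [Int.reduceNeg, Int.cast_neg, Int.cast_one]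
      · rw [hSst]
        simp only [Fintype.mem_piFinset]
        intro i j
        rw [sm5a_T, mem_filter]
        exact ⟨mem_univ _, L i, Y j, a2 i, a1 j, a3 i j⟩
    · intro ω _ ω' _ h
      simp only [Sigma.mk.injEq, heq_eq_eq, Prod.mk.injEq] at h
      obtain ⟨h1, ⟨h2, h3⟩, h4⟩ := h
      funext i j
      obtain ⟨a, rfl⟩ := eI.surjective i
      obtain ⟨b, rfl⟩ := eC.surjective j
      rcases a with a | a <;> rcases b with b | b
      · exact congrFun (congrFun h1 a) b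
      · exact congrFun (congrFun h3 b) a
      · exact congrFun (congrFun h2 a) b
      · exact congrFun (congrFun h4 a) b
  have h2 : (((univ : Finset (Fin r → Fin r → Fin 4)).sigma
      (fun p => (Bic p).sigma (Sst p))).card : ℝ) ≤ 4 ^ (r * r) * (K * 2 ^ (l * l)) := by
    rw [Finset.card_sigma]
    push_cast
    calc ∑ p : Fin r → Fin r → Fin 4, (((Bic p).sigma (Sst p)).card : ℝ)
        ≤ ∑ _p : Fin r → Fin r → Fin 4, (K * 2 ^ (l * l)) := by
          refine Finset.sum_le_sum fun p _ => ?_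
          rw [Finset.card_sigma]
          push_cast
          calc ∑ x ∈ Bic p, ((Sst p x).card : ℝ) ≤ ∑ _x ∈ Bic p, (2 : ℝ) ^ (l * l) :=
                Finset.sum_le_sum fun x _ => by exact_mod_cast hS p x
            _ = (Bic p).card * 2 ^ (l * l) := by rw [Finset.sum_const, nsmul_eq_mul]
            _ ≤ K * 2 ^ (l * l) := mul_le_mul_of_nonneg_right (hK _) (by positivity)
      _ = 4 ^ (r * r) * (K * 2 ^ (l * l)) := by
          rw [Finset.sum_const, nsmul_eq_mul, Finset.card_univ]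
          congr 1
          simp only [Fintype.card_pi, Fintype.card_fin, prod_const, card_univ, ← pow_mul, Nat.cast_pow, Nat.cast_ofNat]
  exact (Nat.cast_le.2 h1).trans h2

/-- Task M5a: matrices of given corank. -/
theorem card_corank (e : ℝ) (he : 0 < e) : ∃ κ : ℕ, 2 ≤ κ ∧ ∃ d0 : ℕ, ∀ d l : ℕ, d0 ≤ d → l ≤ d →
    ((univ.filter (fun ω : Fin d → Fin d → Fin 4 => 2 ^ l ≤ (redN κ (hm ω)).card)).card : ℝ) *
      2 ^ (l * d) ≤ (d : ℝ) ^ (2 * d) * (2 : ℝ) ^ (e * (d : ℝ) ^ 2) * 4 ^ (d * d) := by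
  classical
  obtain ⟨κ, hκ, d0, hb⟩ := biclique e he
  refine ⟨κ, hκ, d0, fun d l hd hl => ?_⟩
  obtain ⟨r, rfl⟩ : ∃ r, d = r + l := ⟨d - l, by omega⟩
  set A : (Fin r ⊕ Fin l ≃ Fin (r + l)) × (Fin r ⊕ Fin l ≃ Fin (r + l)) →
      Finset (Fin (r + l) → Fin (r + l) → Fin 4) := fun E =>
    univ.filter (fun ω : Fin (r + l) → Fin (r + l) → Fin 4 =>
      ∃ (Y L : Fin l → Fin r → ZMod (2 ^ κ)),
        (∀ i j, ((hm ω i (E.2 (Sum.inr j)) : ℤ) : ZMod (2 ^ κ)) =
          ∑ k, ((hm ω i (E.2 (Sum.inl k)) : ℤ) : ZMod (2 ^ κ)) * Y j k) ∧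
        (∀ i j, ((hm ω (E.1 (Sum.inr i)) j : ℤ) : ZMod (2 ^ κ)) =
          ∑ k, L i k * ((hm ω (E.1 (Sum.inl k)) j : ℤ) : ZMod (2 ^ κ)))) with hA
  set K : ℝ := (2 : ℝ) ^ (e * ((r : ℝ) + l) ^ 2) * 2 ^ (3 * r * l) with hKdef
  have hK := fun E : (Fin r ⊕ Fin l ≃ Fin (r + l)) × (Fin r ⊕ Fin l ≃ Fin (r + l)) =>
    sm5a_A_card hκ (hb r l hd) E.1 E.2
  have hsub : univ.filter (fun ω : Fin (r + l) → Fin (r + l) → Fin 4 =>
      2 ^ l ≤ (redN κ (hm ω)).card) ⊆ (univ : Finset _).biUnion A := by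
    intro ω hω
    rw [mem_filter] at hω
    obtain ⟨eI, eC, Y, L, h1, h2⟩ := block_form (by omega : 1 ≤ κ) rfl (hm ω) hω.2
    rw [mem_biUnion]
    refine ⟨(eI, eC), mem_univ _, ?_⟩
    rw [hA]
    simp only [mem_filter, mem_univ, true_and]
    exact ⟨Y, L, h1, h2⟩
  have hcE : Fintype.card ((Fin r ⊕ Fin l ≃ Fin (r + l)) × (Fin r ⊕ Fin l ≃ Fin (r + l))) ≤
      (r + l) ^ (2 * (r + l)) := by
    rw [Fintype.card_prod, Fintype.card_equiv finSumFinEquiv]
    have h1 : Fintype.card (Fin r ⊕ Fin l) = r + l := by simp only [Fintype.card_sum, Fintype.card_fin, Nat.add_left_cancel_iff]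
    rw [h1, two_mul, pow_add]
    exact Nat.mul_le_mul (Nat.factorial_le_pow _) (Nat.factorial_le_pow _)
  have hcard : ((univ.filter (fun ω : Fin (r + l) → Fin (r + l) → Fin 4 =>
      2 ^ l ≤ (redN κ (hm ω)).card)).card : ℝ) ≤
      ((r + l : ℕ) : ℝ) ^ (2 * (r + l)) * (4 ^ (r * r) * (K * 2 ^ (l * l))) := by
    have h1 : (univ.filter (fun ω : Fin (r + l) → Fin (r + l) → Fin 4 =>
        2 ^ l ≤ (redN κ (hm ω)).card)).card ≤ ∑ E, (A E).card :=
      (Finset.card_le_card hsub).trans Finset.card_biUnion_le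
    have hK0 : 0 ≤ K := by positivity
    calc ((univ.filter (fun ω : Fin (r + l) → Fin (r + l) → Fin 4 =>
        2 ^ l ≤ (redN κ (hm ω)).card)).card : ℝ) ≤ ((∑ E, (A E).card : ℕ) : ℝ) := by
          exact_mod_cast h1
      _ = ∑ E, ((A E).card : ℝ) := by push_cast; rfl
      _ ≤ ∑ _E : (Fin r ⊕ Fin l ≃ Fin (r + l)) × (Fin r ⊕ Fin l ≃ Fin (r + l)),
          (4 ^ (r * r) * (K * 2 ^ (l * l)) : ℝ) := Finset.sum_le_sum fun E _ => hK E
      _ = (Fintype.card ((Fin r ⊕ Fin l ≃ Fin (r + l)) × (Fin r ⊕ Fin l ≃ Fin (r + l))) : ℝ) *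
          (4 ^ (r * r) * (K * 2 ^ (l * l))) := by
          rw [Finset.sum_const, nsmul_eq_mul, Finset.card_univ]
      _ ≤ _ := by
          refine mul_le_mul_of_nonneg_right ?_ (by positivity)
          exact_mod_cast hcE
  have hexp : (4 : ℝ) ^ (r * r) * (2 ^ (3 * r * l) * 2 ^ (l * l)) * 2 ^ (l * (r + l)) =
      4 ^ ((r + l) * (r + l)) := by
    have h4 : (4 : ℝ) = 2 ^ 2 := by norm_num
    rw [h4, ← pow_mul, ← pow_mul, ← pow_add, ← pow_add, ← pow_add]
    congr 1
    ring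
  calc ((univ.filter (fun ω : Fin (r + l) → Fin (r + l) → Fin 4 =>
        2 ^ l ≤ (redN κ (hm ω)).card)).card : ℝ) * 2 ^ (l * (r + l))
      ≤ ((r + l : ℕ) : ℝ) ^ (2 * (r + l)) * (4 ^ (r * r) * (K * 2 ^ (l * l))) *
        2 ^ (l * (r + l)) := mul_le_mul_of_nonneg_right hcard (by positivity)
    _ = ((r + l : ℕ) : ℝ) ^ (2 * (r + l)) * (2 : ℝ) ^ (e * ((r + l : ℕ) : ℝ) ^ 2) *
        ((4 : ℝ) ^ (r * r) * (2 ^ (3 * r * l) * 2 ^ (l * l)) * 2 ^ (l * (r + l))) := by
        rw [hKdef]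
        push_cast
        ring
    _ = _ := by rw [hexp]

end Vale.Agent.P160
end
end

section

section

namespace Vale.Agent.P160

open Finset

theorem sm5b_grow (e : ℝ) (he : 0 < e) (κ : ℕ) : ∃ d2 : ℕ, ∀ d : ℕ, d2 ≤ d →
    ((d : ℝ) + 1) * 4 ^ (κ * d) * 2 ^ d * (d : ℝ) ^ (2 * d) ≤ (2 : ℝ) ^ (e / 2 * (d : ℝ) ^ 2) := by
  have hl2 : 0 < Real.log 2 := Real.log_pos (by norm_num)
  have hc : 0 < e * Real.log 2 / 16 := by positivity
  have h1 := Real.isLittleO_log_id_atTop.bound hc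
  have h2 : ∀ᶠ x : ℝ in Filter.atTop, 8 * (2 + 2 * (κ : ℝ)) / e ≤ x :=
    Filter.eventually_ge_atTop _
  have h3 : ∀ᶠ x : ℝ in Filter.atTop, (1 : ℝ) ≤ x := Filter.eventually_ge_atTop _
  obtain ⟨d2, hd2⟩ := Filter.eventually_atTop.1
    (tendsto_natCast_atTop_atTop.eventually (h1.and (h2.and h3)) :
      ∀ᶠ n : ℕ in Filter.atTop, _)
  refine ⟨d2, fun d hd => ?_⟩
  obtain ⟨g1, g2, g3⟩ := hd2 d hd
  have hdpos : (0 : ℝ) < d := by linarith only [g3]
  rw [id, Real.norm_eq_abs, Real.norm_eq_abs, abs_of_pos hdpos] at g1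
  have g1' : Real.log d ≤ e * Real.log 2 / 16 * d := le_trans (le_abs_self _) g1
  have g4 : Real.logb 2 d ≤ e / 16 * d := by
    rw [Real.logb, div_le_iff₀ hl2]
    linarith only [g1']
  have g5 : 2 + 2 * (κ : ℝ) ≤ e / 8 * d := by
    rw [div_le_iff₀ he] at g2
    linarith only [g2]
  have h5 : ((d : ℝ) + 1) ≤ 2 ^ d := by
    have : d + 1 ≤ 2 ^ d := Nat.lt_two_pow_self
    exact_mod_cast this
  have h6 : (d : ℝ) ^ (2 * d) = (2 : ℝ) ^ (2 * (d : ℝ) * Real.logb 2 d) := by
    rw [mul_comm (2 * (d : ℝ)), Real.rpow_mul (by norm_num), Real.rpow_logb (by norm_num)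
      (by norm_num) hdpos]
    rw [← Real.rpow_natCast]
    push_cast
    rfl
  have h7 : (4 : ℝ) ^ (κ * d) = (2 : ℝ) ^ (2 * (κ * d)) := by
    rw [pow_mul 2 2]
    norm_num
  calc ((d : ℝ) + 1) * 4 ^ (κ * d) * 2 ^ d * (d : ℝ) ^ (2 * d)
      ≤ 2 ^ d * 4 ^ (κ * d) * 2 ^ d * (d : ℝ) ^ (2 * d) := by (clear * - h5 g3; gcongr)
    _ = (2 : ℝ) ^ ((2 + 2 * (κ : ℝ)) * d + 2 * (d : ℝ) * Real.logb 2 d) := by
        rw [Real.rpow_add (by norm_num), ← h6, h7, ← pow_add, ← pow_add, ← Real.rpow_natCast]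
        congr 2
        push_cast
        ring
    _ ≤ (2 : ℝ) ^ (e / 2 * (d : ℝ) ^ 2) := by
        apply Real.rpow_le_rpow_of_exponent_le (by norm_num)
        nlinarith only [g5, g4]

theorem sm5b_redN_card_le {d κ : ℕ} (H : Fin d → Fin d → ℤ) : (redN κ H).card ≤ 2 ^ d := by
  refine (Finset.card_le_univ _).trans (le_of_eq ?_)
  rw [Fintype.card_fun, ZMod.card, Fintype.card_fin]

theorem sm5b_redN_pos {d κ : ℕ} (H : Fin d → Fin d → ℤ) : 0 < (redN κ H).card := by
  rw [Finset.card_pos]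
  refine ⟨_, Finset.mem_image_of_mem _ (a := 0) ?_⟩
  simp only [kerN, mem_filter, mem_univ, Pi.zero_apply, mul_zero, sum_const_zero, implies_true, and_self]

/-- Task M5b: the second moment of the number of kernel vectors. -/
theorem W2 (e : ℝ) (he : 0 < e) : ∃ d0 : ℕ, ∀ d ≥ d0, ∀ J : ℕ, 2 * J ≤ d →
    (∑ ω : Fin d → Fin d → Fin 4, ((kerN (2 ^ J) (hm ω)).card : ℝ) ^ 2) ≤
      (2 : ℝ) ^ (e * (d : ℝ) ^ 2) * 4 ^ (d * d) := by
  obtain ⟨κ, hκ, d1, hcor⟩ := card_corank (e / 2) (by positivity)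
  obtain ⟨d2, hd2⟩ := sm5b_grow e he κ
  refine ⟨max d1 d2, fun d hd J hJ => ?_⟩
  have hd1 : d1 ≤ d := le_trans (le_max_left _ _) hd
  have hd2' : d2 ≤ d := le_trans (le_max_right _ _) hd
  have hterm : ∀ ω : Fin d → Fin d → Fin 4, ((kerN (2 ^ J) (hm ω)).card : ℝ) ^ 2 ≤
      4 ^ (κ * d) * 2 ^ d * ∑ l ∈ range (d + 1),
        if 2 ^ l ≤ (redN κ (hm ω)).card then (2 : ℝ) ^ (l * d) else 0 := by
    intro ω
    set R := (redN κ (hm ω)).card with hR
    have hRpos : 0 < R := sm5b_redN_pos _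
    have hRle : R ≤ 2 ^ d := sm5b_redN_card_le _
    set l := Nat.log 2 R with hl
    have hl1 : 2 ^ l ≤ R := Nat.pow_log_le_self 2 hRpos.ne'
    have hl2 : R ≤ 2 ^ (l + 1) := (Nat.lt_pow_succ_log_self (by norm_num) R).le
    have hld : l ≤ d := by
      rw [← Nat.pow_le_pow_iff_right (a := 2) (by norm_num)]
      exact hl1.trans hRle
    have h1 : (kerN (2 ^ J) (hm ω)).card ≤ 2 ^ (κ * d) * R ^ J := by
      have := card_kerN_le (hm ω) κ J (by omega)
      rwa [Fintype.card_fin] at this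
    have h2 : (kerN (2 ^ J) (hm ω)).card ^ 2 ≤ 4 ^ (κ * d) * 2 ^ d * 2 ^ (l * d) := by
      calc (kerN (2 ^ J) (hm ω)).card ^ 2 ≤ (2 ^ (κ * d) * R ^ J) ^ 2 :=
            Nat.pow_le_pow_left h1 2
        _ = 4 ^ (κ * d) * R ^ (2 * J) := by
            rw [mul_pow, ← pow_mul, mul_comm (κ * d) 2, pow_mul 2 2, ← pow_mul R, mul_comm J 2]
            norm_num
        _ ≤ 4 ^ (κ * d) * (2 ^ (l + 1)) ^ (2 * J) :=
            Nat.mul_le_mul_left _ (Nat.pow_le_pow_left hl2 _)
        _ ≤ 4 ^ (κ * d) * (2 ^ (l + 1)) ^ d :=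
            Nat.mul_le_mul_left _ (Nat.pow_le_pow_right (by positivity) hJ)
        _ = 4 ^ (κ * d) * 2 ^ d * 2 ^ (l * d) := by
            rw [← pow_mul, add_mul, one_mul, pow_add]
            ring
    have h3 : ((kerN (2 ^ J) (hm ω)).card : ℝ) ^ 2 ≤ 4 ^ (κ * d) * 2 ^ d * 2 ^ (l * d) := by
      exact_mod_cast h2
    refine h3.trans ?_
    have h4 : (2 : ℝ) ^ (l * d) ≤ ∑ l' ∈ range (d + 1),
        if 2 ^ l' ≤ R then (2 : ℝ) ^ (l' * d) else 0 := by
      have h5 := Finset.single_le_sum (f := fun l' => if 2 ^ l' ≤ R then (2 : ℝ) ^ (l' * d) else 0)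
        (s := range (d + 1)) (fun i _ => by split_ifs <;> positivity)
        (Finset.mem_range.2 (Nat.lt_succ_of_le hld))
      simpa only [if_pos hl1] using h5
    (clear * - h4; gcongr)
  calc (∑ ω : Fin d → Fin d → Fin 4, ((kerN (2 ^ J) (hm ω)).card : ℝ) ^ 2)
      ≤ ∑ ω : Fin d → Fin d → Fin 4, 4 ^ (κ * d) * 2 ^ d * ∑ l ∈ range (d + 1),
        (if 2 ^ l ≤ (redN κ (hm ω)).card then (2 : ℝ) ^ (l * d) else 0) :=
        Finset.sum_le_sum fun ω _ => hterm ω
    _ = 4 ^ (κ * d) * 2 ^ d * ∑ l ∈ range (d + 1),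
        (((univ.filter (fun ω : Fin d → Fin d → Fin 4 =>
          2 ^ l ≤ (redN κ (hm ω)).card)).card : ℝ) * 2 ^ (l * d)) := by
        rw [← Finset.mul_sum, Finset.sum_comm]
        congr 1
        refine Finset.sum_congr rfl fun l _ => ?_
        rw [← Finset.sum_filter, Finset.sum_const, nsmul_eq_mul]
    _ ≤ 4 ^ (κ * d) * 2 ^ d * ∑ l ∈ range (d + 1),
        ((d : ℝ) ^ (2 * d) * (2 : ℝ) ^ (e / 2 * (d : ℝ) ^ 2) * 4 ^ (d * d)) := by
        refine mul_le_mul_of_nonneg_left (Finset.sum_le_sum fun l hl => ?_) (by positivity)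
        exact hcor d l hd1 (Nat.lt_succ_iff.1 (Finset.mem_range.1 hl))
    _ = (((d : ℝ) + 1) * 4 ^ (κ * d) * 2 ^ d * (d : ℝ) ^ (2 * d)) *
        (2 : ℝ) ^ (e / 2 * (d : ℝ) ^ 2) * 4 ^ (d * d) := by
        rw [Finset.sum_const, Finset.card_range, nsmul_eq_mul]
        push_cast
        ring
    _ ≤ (2 : ℝ) ^ (e / 2 * (d : ℝ) ^ 2) * (2 : ℝ) ^ (e / 2 * (d : ℝ) ^ 2) * 4 ^ (d * d) := by
        have := hd2 d hd2'
        gcongr
    _ = (2 : ℝ) ^ (e * (d : ℝ) ^ 2) * 4 ^ (d * d) := by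
        rw [← Real.rpow_add (by norm_num)]
        congr 2
        ring

end Vale.Agent.P160
end
end

section

section

namespace Vale.Agent.P160

open Finset

/-- Number of seed rows annihilating both vectors. -/
def sm8_q {α : Type*} [Fintype α] [DecidableEq α] {N : ℕ} (x t : α → ZMod N) : ℕ :=
  (univ.filter (fun a : α → Fin 4 => walk a x = 0 ∧ walk a t = 0)).card

theorem sm8_pow {α β : Type*} [Fintype α] [DecidableEq α] [Fintype β] [DecidableEq β] {N : ℕ}
    (x t : α → ZMod N) :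
    (univ.filter (fun ω : β → α → Fin 4 => (∀ i, walk (ω i) x = 0) ∧
      ∀ i, walk (ω i) t = 0)).card = (sm8_q x t) ^ Fintype.card β := by
  have h : (univ.filter (fun ω : β → α → Fin 4 => (∀ i, walk (ω i) x = 0) ∧
      ∀ i, walk (ω i) t = 0)) = Fintype.piFinset (fun _ : β =>
        univ.filter (fun a : α → Fin 4 => walk a x = 0 ∧ walk a t = 0)) := by
    ext ω
    simp only [mem_filter, mem_univ, true_and, Fintype.mem_piFinset, forall_and]
  rw [h, Fintype.card_piFinset, Finset.prod_const, Finset.card_univ]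
  rfl

theorem sm8_ker {α β : Type*} [Fintype α] [DecidableEq α] [Fintype β] [DecidableEq β] (N : ℕ)
    [NeZero N] (ω : β → α → Fin 4) :
    kerN N (hm ω) = univ.filter (fun u => ∀ i, walk (ω i) u = 0) := rfl

theorem sm8_second (d J : ℕ) :
    ∑ x : Fin d → ZMod (2 ^ J), ∑ t : Fin d → ZMod (2 ^ J), (sm8_q x t : ℝ) ^ d =
      ∑ ω : Fin d → Fin d → Fin 4, ((kerN (2 ^ J) (hm ω)).card : ℝ) ^ 2 := by
  have h1 : ∀ x t : Fin d → ZMod (2 ^ J), (sm8_q x t : ℝ) ^ d =
      ∑ ω : Fin d → Fin d → Fin 4, (if (∀ i, walk (ω i) x = 0) then (1 : ℝ) else 0) *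
        (if (∀ i, walk (ω i) t = 0) then 1 else 0) := by
    intro x t
    have := sm8_pow (β := Fin d) x t
    rw [Fintype.card_fin] at this
    rw [← Nat.cast_pow, ← this, Finset.card_filter, Nat.cast_sum]
    refine sum_congr rfl fun ω _ => ?_
    by_cases ha : ∀ i, walk (ω i) x = 0 <;> by_cases hb : ∀ i, walk (ω i) t = 0 <;> simp [ha, hb]
  have h2 : ∀ ω : Fin d → Fin d → Fin 4, ((kerN (2 ^ J) (hm ω)).card : ℝ) =
      ∑ x : Fin d → ZMod (2 ^ J), (if (∀ i, walk (ω i) x = 0) then (1 : ℝ) else 0) := by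
    intro ω
    rw [sm8_ker, Finset.card_filter]
    push_cast
    rfl
  simp_rw [h1]
  calc ∑ x : Fin d → ZMod (2 ^ J), ∑ t : Fin d → ZMod (2 ^ J), ∑ ω : Fin d → Fin d → Fin 4,
        (if (∀ i, walk (ω i) x = 0) then (1 : ℝ) else 0) *
        (if (∀ i, walk (ω i) t = 0) then 1 else 0)
      = ∑ x : Fin d → ZMod (2 ^ J), ∑ ω : Fin d → Fin d → Fin 4, ∑ t : Fin d → ZMod (2 ^ J),
        (if (∀ i, walk (ω i) x = 0) then (1 : ℝ) else 0) *
        (if (∀ i, walk (ω i) t = 0) then 1 else 0) :=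
        sum_congr rfl fun x _ => sum_comm
    _ = ∑ ω : Fin d → Fin d → Fin 4, ∑ x : Fin d → ZMod (2 ^ J), ∑ t : Fin d → ZMod (2 ^ J),
        (if (∀ i, walk (ω i) x = 0) then (1 : ℝ) else 0) *
        (if (∀ i, walk (ω i) t = 0) then 1 else 0) := sum_comm
    _ = _ := by
        refine sum_congr rfl fun ω _ => ?_
        rw [h2, sq, Finset.sum_mul_sum]

theorem sm8_reindex {α : Type*} [Fintype α] [DecidableEq α] (J n : ℕ) :
    ∑ x : α → ZMod (2 ^ J), ∑ t : α → ZMod (2 ^ J), (sm8_q x t : ℝ) ^ n =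
      ∑ x : Fin (Fintype.card α) → ZMod (2 ^ J), ∑ t : Fin (Fintype.card α) → ZMod (2 ^ J),
        (sm8_q x t : ℝ) ^ n := by
  set e := Fintype.equivFin α
  have hq : ∀ x t : α → ZMod (2 ^ J), sm8_q x t = sm8_q (x ∘ e.symm) (t ∘ e.symm) := by
    intro x t
    unfold sm8_q
    refine Finset.card_bij (fun a _ => a ∘ e.symm) ?_ ?_ ?_
    · intro a ha
      rw [mem_filter] at ha ⊢
      refine ⟨mem_univ _, ?_, ?_⟩
      · rw [← ha.2.1]
        exact Equiv.sum_comp e.symm (fun i => (st (a i) : ZMod (2 ^ J)) * x i)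
      · rw [← ha.2.2]
        exact Equiv.sum_comp e.symm (fun i => (st (a i) : ZMod (2 ^ J)) * t i)
    · intro a _ b _ hab
      funext i
      have := congrFun hab (e i)
      simpa using this
    · intro b hb
      rw [mem_filter] at hb
      refine ⟨b ∘ e, ?_, ?_⟩
      · rw [mem_filter]
        refine ⟨mem_univ _, ?_, ?_⟩
        · rw [← hb.2.1]
          unfold walk
          rw [← Equiv.sum_comp e.symm (fun i => (st ((b ∘ e) i) : ZMod (2 ^ J)) * x i)]
          refine sum_congr rfl fun i _ => ?_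
          simp
        · rw [← hb.2.2]
          unfold walk
          rw [← Equiv.sum_comp e.symm (fun i => (st ((b ∘ e) i) : ZMod (2 ^ J)) * t i)]
          refine sum_congr rfl fun i _ => ?_
          simp
      · funext i
        simp
  simp_rw [hq]
  set E : (α → ZMod (2 ^ J)) ≃ (Fin (Fintype.card α) → ZMod (2 ^ J)) :=
    Equiv.arrowCongr e (Equiv.refl _)
  have hE : ∀ x, E x = x ∘ e.symm := fun x => rfl
  rw [← Equiv.sum_comp E]
  refine sum_congr rfl fun x _ => ?_
  rw [← Equiv.sum_comp E]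
  rfl

theorem sm8_real {θ c8 g e c7 D B : ℝ} (hg : g = c8 / 4) (hc8 : 0 < c8)
    (he1 : e ≤ c8 / 4) (he2 : e ≤ g * θ / 2) (hc7a : 2 * c7 ≤ g * θ / 2)
    (hc7b : 2 * c7 ≤ c8 / 2) (hD : 0 ≤ D) (hB : (1 + θ) * D ≤ B) (h1 : 1 ≤ c7 * D ^ 2) :
    (2 : ℝ) ^ (e * D ^ 2) * ((2 : ℝ) ^ (-g * D * (B - D)) + (2 : ℝ) ^ (g * D * D) *
      (2 : ℝ) ^ (-c8 * D ^ 2)) ≤ (2 : ℝ) ^ (-c7 * D ^ 2) := by
  have hD2 : 0 ≤ D ^ 2 := sq_nonneg D
  have hgpos : 0 < g := by rw [hg]; positivity
  have a1 : (2 : ℝ) ^ (e * D ^ 2) * (2 : ℝ) ^ (-g * D * (B - D)) ≤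
      (2 : ℝ) ^ (-(2 * c7) * D ^ 2) := by
    rw [← Real.rpow_add (by norm_num)]
    apply Real.rpow_le_rpow_of_exponent_le (by norm_num)
    have k1 : θ * D ≤ B - D := by linarith only [hB]
    have k2 : g * D * (θ * D) ≤ g * D * (B - D) :=
      mul_le_mul_of_nonneg_left k1 (mul_nonneg hgpos.le hD)
    nlinarith only [k2, he2, hc7a]
  have a2 : (2 : ℝ) ^ (e * D ^ 2) * ((2 : ℝ) ^ (g * D * D) * (2 : ℝ) ^ (-c8 * D ^ 2)) ≤
      (2 : ℝ) ^ (-(2 * c7) * D ^ 2) := by
    rw [← Real.rpow_add (by norm_num), ← Real.rpow_add (by norm_num)]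
    apply Real.rpow_le_rpow_of_exponent_le (by norm_num)
    rw [hg]
    nlinarith only [he1, hc7b]
  calc (2 : ℝ) ^ (e * D ^ 2) * ((2 : ℝ) ^ (-g * D * (B - D)) + (2 : ℝ) ^ (g * D * D) *
      (2 : ℝ) ^ (-c8 * D ^ 2))
      ≤ (2 : ℝ) ^ (-(2 * c7) * D ^ 2) + (2 : ℝ) ^ (-(2 * c7) * D ^ 2) := by
        rw [mul_add]
        exact add_le_add a1 a2
    _ = (2 : ℝ) ^ (1 + -(2 * c7) * D ^ 2) := by
        rw [Real.rpow_add (by norm_num), Real.rpow_one]
        ring
    _ ≤ (2 : ℝ) ^ (-c7 * D ^ 2) := by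
        apply Real.rpow_le_rpow_of_exponent_le (by norm_num)
        nlinarith only [h1]

open Classical in
/-- Task M8: the far part. -/
theorem far_part {θ c8 : ℝ} (hθ : 0 < θ) (hc8 : 0 < c8) :
    ∃ c7 : ℝ, 0 < c7 ∧ ∃ d0 : ℕ, ∀ (α β : Type) [Fintype α] [DecidableEq α]
      [Fintype β] [DecidableEq β], d0 ≤ Fintype.card α →
      (1 + θ) * Fintype.card α ≤ Fintype.card β →
      ∀ J : ℕ, 2 * J ≤ Fintype.card α → ∀ (Far : (β → α → Fin 4) → Prop)
      (C : Finset (α → ZMod (2 ^ J))),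
      (∀ x ∈ C, ((univ.filter (fun ω : β → α → Fin 4 => (∀ i, walk (ω i) x = 0) ∧
          Far ω)).card : ℝ) ≤
        (2 : ℝ) ^ (-c8 * (Fintype.card α : ℝ) ^ 2) * (1 / 2 ^ J) ^ Fintype.card β *
          4 ^ (Fintype.card β * Fintype.card α)) →
      (∑ x ∈ C, ∑ ω : β → α → Fin 4, if (∀ i, walk (ω i) x = 0) ∧ Far ω then
          ((kerN (2 ^ J) (hm ω)).card : ℝ) else 0) ≤
        (2 : ℝ) ^ (-c7 * (Fintype.card α : ℝ) ^ 2) * (2 ^ J) ^ Fintype.card α *
          (1 / 2 ^ J) ^ Fintype.card β * 4 ^ (Fintype.card β * Fintype.card α) := by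
  set g : ℝ := c8 / 4 with hg
  set e : ℝ := min (c8 / 4) (g * θ / 2) with he
  have hgpos : 0 < g := by positivity
  have hepos : 0 < e := lt_min (by positivity) (by positivity)
  obtain ⟨d1, hW2⟩ := W2 e hepos
  set c7 : ℝ := min (g * θ / 2) (c8 / 2) / 2 with hc7
  have hc7pos : 0 < c7 := by
    have : 0 < min (g * θ / 2) (c8 / 2) := lt_min (by positivity) (by positivity)
    positivity
  obtain ⟨d2, hd2⟩ := exists_nat_gt (1 / c7)
  refine ⟨c7, hc7pos, max d1 (d2 + 1), ?_⟩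
  intro α β _ _ _ _ hd hb J hJ Far C htail
  set d := Fintype.card α with hdd
  set b := Fintype.card β with hbb
  have hd1 : d1 ≤ d := le_trans (le_max_left _ _) hd
  have hd2' : d2 + 1 ≤ d := le_trans (le_max_right _ _) hd
  have hdR : (d2 : ℝ) + 1 ≤ d := by exact_mod_cast hd2'
  have hdone : (1 : ℝ) ≤ d := by
    have : (0 : ℝ) ≤ d2 := Nat.cast_nonneg _
    linarith only [hdR]
  have h1 : 1 ≤ c7 * (d : ℝ) ^ 2 := by
    have k1 : 1 < d2 * c7 := by rwa [div_lt_iff₀ hc7pos] at hd2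
    have k2 : c7 * d2 ≤ c7 * d := mul_le_mul_of_nonneg_left (by linarith only [hdR]) hc7pos.le
    have k3 : c7 * d ≤ c7 * (d : ℝ) ^ 2 := by
      apply mul_le_mul_of_nonneg_left _ hc7pos.le
      nlinarith only [hdR]
    linarith only [k1, k2, k3]
  have hdb : d ≤ b := by
    have : (d : ℝ) ≤ b := by nlinarith only [hb, hθ]
    exact_mod_cast this
  have hS : ∑ x : α → ZMod (2 ^ J), ∑ t : α → ZMod (2 ^ J), (sm8_q x t : ℝ) ^ d ≤
      (2 : ℝ) ^ (e * (d : ℝ) ^ 2) * 4 ^ (d * d) := by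
    rw [sm8_reindex, sm8_second]
    exact hW2 d hd1 J hJ
  set tail : ℝ := (2 : ℝ) ^ (-c8 * (d : ℝ) ^ 2) * (1 / 2 ^ J) ^ b * 4 ^ (b * d) with htl
  have htailpos : 0 ≤ tail := by positivity
  set ρ : ℝ := (2 : ℝ) ^ (-g * d) / 2 ^ J with hρ
  have hρpos : 0 < ρ := by positivity
  have hF : ∀ x ∈ C, ∀ t : α → ZMod (2 ^ J),
      ((univ.filter (fun ω : β → α → Fin 4 => ((∀ i, walk (ω i) x = 0) ∧ Far ω) ∧
        ∀ i, walk (ω i) t = 0)).card : ℝ) ≤
      (sm8_q x t : ℝ) ^ d * ((4 ^ (d * d))⁻¹ * (4 ^ (b * d) * ρ ^ (b - d) +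
        (ρ ^ d)⁻¹ * tail)) := by
    intro x hx t
    have f1 : ((univ.filter (fun ω : β → α → Fin 4 => ((∀ i, walk (ω i) x = 0) ∧ Far ω) ∧
        ∀ i, walk (ω i) t = 0)).card : ℝ) ≤ (sm8_q x t : ℝ) ^ b := by
      have := sm8_pow (β := β) x t
      rw [← Nat.cast_pow, ← this]
      refine Nat.cast_le.2 (Finset.card_le_card ?_)
      intro ω hω
      rw [mem_filter] at hω ⊢
      exact ⟨mem_univ _, hω.2.1.1, hω.2.2⟩
    have f2 : ((univ.filter (fun ω : β → α → Fin 4 => ((∀ i, walk (ω i) x = 0) ∧ Far ω) ∧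
        ∀ i, walk (ω i) t = 0)).card : ℝ) ≤ tail := by
      refine le_trans (Nat.cast_le.2 (Finset.card_le_card ?_)) (htail x hx)
      intro ω hω
      rw [mem_filter] at hω ⊢
      exact ⟨mem_univ _, hω.2.1⟩
    set p : ℝ := (sm8_q x t : ℝ) / 4 ^ d with hp
    have hp0 : 0 ≤ p := by (clear * -; positivity)
    have hqp : (sm8_q x t : ℝ) = p * 4 ^ d := by rw [hp]; (clear * -; field_simp)
    have hrw : (sm8_q x t : ℝ) ^ d * ((4 ^ (d * d))⁻¹ * (4 ^ (b * d) * ρ ^ (b - d) +
        (ρ ^ d)⁻¹ * tail)) = p ^ d * (4 ^ (b * d) * ρ ^ (b - d)) + (p / ρ) ^ d * tail := by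
      have e1 : (sm8_q x t : ℝ) ^ d = p ^ d * 4 ^ (d * d) := by rw [hqp, mul_pow, ← pow_mul]
      have e2 : (4 : ℝ) ^ (d * d) * (4 ^ (d * d))⁻¹ = 1 := mul_inv_cancel₀ (by positivity)
      rw [e1, div_pow p ρ d, div_eq_mul_inv (p ^ d) (ρ ^ d)]
      calc p ^ d * 4 ^ (d * d) * ((4 ^ (d * d))⁻¹ * (4 ^ (b * d) * ρ ^ (b - d) +
          (ρ ^ d)⁻¹ * tail))
          = ((4 : ℝ) ^ (d * d) * (4 ^ (d * d))⁻¹) * (p ^ d * (4 ^ (b * d) * ρ ^ (b - d)) +
            p ^ d * (ρ ^ d)⁻¹ * tail) := by ring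
        _ = _ := by rw [e2, one_mul]
    rw [hrw]
    by_cases hcase : p ≤ ρ
    · have f3 : (sm8_q x t : ℝ) ^ b ≤ p ^ d * (4 ^ (b * d) * ρ ^ (b - d)) := by
        rw [hqp, mul_pow, ← pow_mul, mul_comm d b]
        have : p ^ b = p ^ d * p ^ (b - d) := by
          rw [← pow_add]
          congr 1
          (clear * - hdb; omega)
        rw [this]
        have h5 : p ^ (b - d) ≤ ρ ^ (b - d) := pow_le_pow_left₀ hp0 hcase _
        calc p ^ d * p ^ (b - d) * 4 ^ (b * d) ≤ p ^ d * ρ ^ (b - d) * 4 ^ (b * d) := by (clear * - h5; gcongr)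
          _ = p ^ d * (4 ^ (b * d) * ρ ^ (b - d)) := by ring
      have : 0 ≤ (p / ρ) ^ d * tail := by (clear * -; positivity)
      linarith only [f1, f3, this]
    · push Not at hcase
      have f4 : 1 ≤ (p / ρ) ^ d := one_le_pow₀ ((one_le_div hρpos).2 hcase.le)
      have f5 : tail ≤ (p / ρ) ^ d * tail := le_mul_of_one_le_left htailpos f4
      have : 0 ≤ p ^ d * (4 ^ (b * d) * ρ ^ (b - d)) := by (clear * -; positivity)
      linarith only [f2, f5, this]
  have hL : (∑ x ∈ C, ∑ ω : β → α → Fin 4, if (∀ i, walk (ω i) x = 0) ∧ Far ω then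
          ((kerN (2 ^ J) (hm ω)).card : ℝ) else 0) =
      ∑ x ∈ C, ∑ t : α → ZMod (2 ^ J),
        ((univ.filter (fun ω : β → α → Fin 4 => ((∀ i, walk (ω i) x = 0) ∧ Far ω) ∧
        ∀ i, walk (ω i) t = 0)).card : ℝ) := by
    refine sum_congr rfl fun x _ => ?_
    have k1 : ∀ ω : β → α → Fin 4, (if (∀ i, walk (ω i) x = 0) ∧ Far ω then
          ((kerN (2 ^ J) (hm ω)).card : ℝ) else 0) = ∑ t : α → ZMod (2 ^ J),
          (if ((∀ i, walk (ω i) x = 0) ∧ Far ω) ∧ (∀ i, walk (ω i) t = 0) then (1 : ℝ)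
            else 0) := by
      intro ω
      rw [sm8_ker, Finset.card_filter]
      push_cast
      split_ifs with hc
      · refine sum_congr rfl fun t _ => ?_
        by_cases ht : ∀ i, walk (ω i) t = 0 <;> simp only [ht, ↓reduceIte, hc, implies_true, and_self, and_false]
      · symm
        apply Finset.sum_eq_zero
        intro t _
        rw [if_neg]
        exact fun h => hc h.1
    rw [sum_congr rfl fun ω _ => k1 ω, sum_comm]
    refine sum_congr rfl fun t _ => ?_
    rw [Finset.card_filter]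
    push_cast
    rfl
  rw [hL]
  set K : ℝ := (4 ^ (d * d))⁻¹ * (4 ^ (b * d) * ρ ^ (b - d) + (ρ ^ d)⁻¹ * tail) with hK
  have hK0 : 0 ≤ K := by positivity
  have hLHS : ∑ x ∈ C, ∑ t : α → ZMod (2 ^ J),
        ((univ.filter (fun ω : β → α → Fin 4 => ((∀ i, walk (ω i) x = 0) ∧ Far ω) ∧
        ∀ i, walk (ω i) t = 0)).card : ℝ) ≤ ((2 : ℝ) ^ (e * (d : ℝ) ^ 2) * 4 ^ (d * d)) * K := by
    calc _ ≤ ∑ x ∈ C, ∑ t : α → ZMod (2 ^ J), (sm8_q x t : ℝ) ^ d * K :=
          sum_le_sum fun x hx => sum_le_sum fun t _ => hF x hx t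
      _ ≤ ∑ x : α → ZMod (2 ^ J), ∑ t : α → ZMod (2 ^ J), (sm8_q x t : ℝ) ^ d * K :=
          sum_le_sum_of_subset_of_nonneg (subset_univ _) fun x _ _ =>
            sum_nonneg fun t _ => by (clear * -; positivity)
      _ = (∑ x : α → ZMod (2 ^ J), ∑ t : α → ZMod (2 ^ J), (sm8_q x t : ℝ) ^ d) * K := by
          rw [sum_mul]
          refine sum_congr rfl fun x _ => ?_
          rw [sum_mul]
      _ ≤ _ := mul_le_mul_of_nonneg_right hS hK0
  refine hLHS.trans ?_
  have hreal := sm8_real (D := (d : ℝ)) (B := (b : ℝ)) hg hc8 (min_le_left _ _)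
    (min_le_right _ _) (c7 := c7)
    (by rw [hc7]; linarith only [min_le_left (g * θ / 2) (c8 / 2)])
    (by rw [hc7]; linarith only [min_le_right (g * θ / 2) (c8 / 2)])
    (Nat.cast_nonneg _) hb h1
  rw [← he] at hreal
  have hρ1 : ρ ^ (b - d) = (2 : ℝ) ^ (-g * d * (b - d)) * ((2 ^ J) ^ d * (1 / 2 ^ J) ^ b) := by
    rw [hρ, div_pow, ← Real.rpow_natCast ((2 : ℝ) ^ (-g * d)) (b - d),
      ← Real.rpow_mul (by norm_num), Nat.cast_sub hdb]
    rw [div_eq_mul_inv]
    congr 1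
    have : ((2 : ℝ) ^ J) ^ b = (2 ^ J) ^ d * (2 ^ J) ^ (b - d) := by
      rw [← pow_add]
      congr 1
      omega
    rw [one_div, inv_pow, this]
    field_simp
  have hρ2 : (ρ ^ d)⁻¹ = (2 : ℝ) ^ (g * d * d) * (2 ^ J) ^ d := by
    rw [hρ, div_pow, ← Real.rpow_natCast ((2 : ℝ) ^ (-g * d)) d, ← Real.rpow_mul (by norm_num),
      inv_div, div_eq_mul_inv, ← Real.rpow_neg (by norm_num), mul_comm]
    congr 2
    ring
  have hfin : ((2 : ℝ) ^ (e * (d : ℝ) ^ 2) * 4 ^ (d * d)) * K =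
      ((2 : ℝ) ^ (e * (d : ℝ) ^ 2) * ((2 : ℝ) ^ (-g * d * ((b : ℝ) - d)) +
        (2 : ℝ) ^ (g * d * d) * (2 : ℝ) ^ (-c8 * (d : ℝ) ^ 2))) *
        ((2 ^ J) ^ d * (1 / 2 ^ J) ^ b * 4 ^ (b * d)) := by
    rw [hK, hρ1, hρ2, htl]
    have : (4 : ℝ) ^ (d * d) ≠ 0 := by positivity
    field_simp
  rw [hfin]
  calc _ ≤ (2 : ℝ) ^ (-c7 * (d : ℝ) ^ 2) * ((2 ^ J) ^ d * (1 / 2 ^ J) ^ b * 4 ^ (b * d)) :=
        mul_le_mul_of_nonneg_right hreal (by positivity)
    _ = _ := by ring

end Vale.Agent.P160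
end
end

section

section

set_option linter.unusedSectionVars false

namespace Vale.Agent.P160

open Finset

lemma st2_good {α : Type*} [Fintype α] [DecidableEq α] (I : ℕ) (τ : ℝ) (J : ℕ) (g : α → ℤ)
    (x : α → ZMod (2 ^ J)) (hx : ∀ i, x i = (g i : ZMod (2 ^ J)))
    (h : ∀ m, I ≤ m → m + 1 ≤ J → ¬ BadL I τ (fun i => (g i : ZMod (2 ^ (m + 1))))) :
    GoodX I τ x := by
  intro j h1 h2 k
  obtain ⟨m, rfl⟩ : ∃ m, j = m + 1 := ⟨j - 1, by omega⟩
  have h3 := h m (by omega) h2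
  unfold BadL at h3
  push Not at h3
  have h4 := h3 k
  have h5 : ∀ i, ((x i).cast : ZMod (2 ^ (m + 1))) = (g i : ZMod (2 ^ (m + 1))) := fun i => by
    rw [hx i]
    exact ZMod.cast_intCast (pow_dvd_pow 2 h2) (g i)
  simp only [h5]
  exact h4

/-- Task T2: the case distinction. -/
theorem sing_cases6 {n : ℕ} {T : Type} [Fintype T] [DecidableEq T] [Nonempty T]
    (D : T → Finset (Fin n)) (I u : ℕ) (hI : 1 ≤ I) (τ : ℝ) (J : ℕ)
    (b : Sym2 (Fin n) → Bool) (h : (signM b).det = 0) :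
    (∃ t ∈ (univ : Finset T), Ev0 (D t) u b) ∨
      (∃ p ∈ Icc I J ×ˢ (univ : Finset T), EvA6 D I u τ p.1 p.2 b) ∨
        EvB6 D I u τ J b := by
  classical
  obtain ⟨g, c, ⟨i₀, hi₀⟩, hgc, hc⟩ := exists_kernel b h
  by_cases hsp : ∃ t, (univ.filter fun i : {i // i ∈ D t} => Odd (g i)).card < u
  · left
    obtain ⟨t, ht⟩ := hsp
    refine ⟨t, mem_univ _, fun i => (g i : ZMod 2), (c : ZMod 2), ?_, ?_, ?_⟩
    · intro h0
      have h1 := congrFun h0 i₀
      have h2 : ((g i₀ : ℤ) : ZMod 2) = 0 := h1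
      rw [ZMod.intCast_zmod_eq_zero_iff_dvd] at h2
      exact (Int.not_even_iff_odd.2 hi₀) (even_iff_two_dvd.2 (by exact_mod_cast h2))
    · have h3 := nu_intCast (fun i : {i // i ∈ D t} => g i) 0
      rw [zero_add, pow_one] at h3
      rw [h3]; exact ht
    · exact smul2_cast b g c hgc
  · right
    push Not at hsp
    by_cases hbad : ∃ j, j ∈ Icc I J ∧ ∃ t,
        BadL I τ (fun i : {i // i ∈ D t} => (g i : ZMod (2 ^ (j + 1))))
    · left
      have hj := Nat.find_spec hbad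
      have hmin := fun m => Nat.find_min hbad (m := m)
      set j := Nat.find hbad with hjdef
      obtain ⟨hj1, t₀, hj2⟩ := hj
      refine ⟨(j, t₀), mem_product.2 ⟨hj1, mem_univ _⟩,
        fun i => (g i : ZMod (2 ^ (j + 1))), (c : ZMod (2 ^ (j + 1))),
        ⟨?_, hj2, ?_⟩, smul2_cast b g c hgc⟩
      · intro t
        rw [nu_intCast (fun i : {i // i ∈ D t} => g i) j]; exact hsp t
      · intro t
        refine st2_good I τ j (fun i : {i // i ∈ D t} => g i) _ (fun i =>
          ZMod.cast_intCast (pow_dvd_pow 2 (Nat.le_succ j)) (g i)) fun m hm1 hm2 hb => ?_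
        have hj3 := mem_Icc.1 hj1
        exact hmin m (by omega) ⟨mem_Icc.2 ⟨hm1, by omega⟩, t, hb⟩
    · right
      refine ⟨g, c, hgc, hc, fun t => ⟨?_, ?_⟩⟩
      · rw [nu_intCast (fun i : {i // i ∈ D t} => g i) J]; exact hsp t
      · refine st2_good I τ (J + 1) (fun i : {i // i ∈ D t} => g i) _ (fun _ => rfl)
          fun m hm1 hm2 hb => ?_
        exact hbad ⟨m, mem_Icc.2 ⟨hm1, by omega⟩, t, hb⟩

end Vale.Agent.P160
end
end
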