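import Mathlib.Analysis.SpecialFunctions.Trigonometric.Bounds
import Mathlib.Analysis.SpecialFunctions.Log.Base
import Vale.Agent.P160.MathlibUsed
import Vale.Agent.P160.Bdl.B1
import Vale.Agent.P160.Bdl.B2

set_option linter.all false

section

section

namespace Vale.Agent.P160

open Finset

section pivots

variable {ι : Type*} [Fintype ι] [DecidableEq ι] {q : ℕ}

end pivots

section sums

variable {ι : Type*} [Fintype ι] [DecidableEq ι] {α : Type*} [Fintype α] [DecidableEq α]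

end sums

section bound

variable {ι : Type*} [Fintype ι] [DecidableEq ι] {q M : ℕ}

end bound

end Vale.Agent.P160
end
end

section

section

set_option linter.unusedSectionVars false

namespace Vale.Agent.P160

open Finset

section perp

variable {ι : Type*} [Fintype ι] [DecidableEq ι]

end perp

section fourier

variable {ι : Type*} [Fintype ι] [DecidableEq ι] {N : ℕ} [NeZero N]

end fourier

section cs

variable {ι : Type*} [Fintype ι] [DecidableEq ι] {N : ℕ} [NeZero N]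

end cs

end Vale.Agent.P160
end
end

section

section

namespace Vale.Agent.P160

open Finset

set_option linter.unusedSectionVars false
set_option linter.unusedVariables false

section sn6

variable {α : Type} [Fintype α] [DecidableEq α] {I : ℕ}

/-- The sparse part is generated by its sparse elements. -/
lemma sn6_spars_eq (w : ℕ) (K : AddSubgroup (α → ZMod (2 ^ I))) :
    spars I w K = AddSubgroup.closure
      {k | k ∈ spars I w K ∧ k ∈ univ.filter (fun k : α → ZMod (2 ^ I) => suppc k < w)} := by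
  apply le_antisymm
  · refine (AddSubgroup.closure_le _).2 fun k hk => AddSubgroup.subset_closure ?_
    exact ⟨AddSubgroup.subset_closure hk, mem_filter.2 ⟨mem_univ k, hk.2⟩⟩
  · exact (AddSubgroup.closure_le _).2 fun k hk => hk.1

lemma sn6_spars_le (w : ℕ) (K : AddSubgroup (α → ZMod (2 ^ I))) : spars I w K ≤ K :=
  (AddSubgroup.closure_le _).2 fun _ hk => hk.1

open Classical in
/-- Counting by the sparse part. -/
lemma sn6_count (w A k : ℕ) (T : Finset (AddSubgroup (α → ZMod (2 ^ I))))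
    (F : AddSubgroup (α → ZMod (2 ^ I)) → AddSubgroup (α → ZMod (2 ^ I)))
    (hT : ∀ K ∈ T, Nat.card (spars I w K) = 2 ^ A ∧ F (spars I w K) ≤ K ∧
      Nat.card K = 2 ^ k * Nat.card (F (spars I w K))) :
    T.card ≤ (univ.filter (fun k : α → ZMod (2 ^ I) => suppc k < w)).card ^ A *
      2 ^ (Fintype.card α * k) := by
  have h1 : T.card ≤ 2 ^ (k * Fintype.card α) * (T.image (fun K => spars I w K)).card := by
    refine Finset.card_le_mul_card_image T _ fun L _ => ?_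
    refine card_overgroups (F L) k _ fun K hK => ?_
    obtain ⟨hK1, hK2⟩ := mem_filter.1 hK
    obtain ⟨-, h3, h4⟩ := hT K hK1
    rw [hK2] at h3 h4
    exact ⟨h3, h4⟩
  have h2 : (T.image (fun K => spars I w K)).card ≤
      (univ.filter (fun k : α → ZMod (2 ^ I) => suppc k < w)).card ^ A := by
    refine card_gen _ A _ fun L hL => ?_
    obtain ⟨K, hK, rfl⟩ := mem_image.1 hL
    exact ⟨(hT K hK).1, sn6_spars_eq w K⟩
  calc T.card ≤ 2 ^ (k * Fintype.card α) * (T.image (fun K => spars I w K)).card := h1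
    _ ≤ 2 ^ (k * Fintype.card α) *
        (univ.filter (fun k : α → ZMod (2 ^ I) => suppc k < w)).card ^ A :=
      Nat.mul_le_mul_left _ h2
    _ = _ := by rw [mul_comm, mul_comm k]

lemma sn6_nu (xb : α → ZMod (2 ^ I)) :
    nu xb = (univ.filter fun i => IsUnit (xb i)).card := by
  unfold nu
  congr

/-- A vector with a unit coordinate has full order. -/
lemma sn6_card_zmultiples (xb : α → ZMod (2 ^ I)) (hx : 1 ≤ nu xb) :
    Nat.card (AddSubgroup.zmultiples xb) = 2 ^ I := by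
  rw [Nat.card_zmultiples]
  apply Nat.dvd_antisymm
  · apply addOrderOf_dvd_of_nsmul_eq_zero
    ext i
    simp only [Pi.smul_apply, nsmul_eq_mul, Pi.zero_apply, ZMod.natCast_self, zero_mul]
  · rw [sn6_nu] at hx
    obtain ⟨i, hi⟩ := Finset.card_pos.1 hx
    have hu := (mem_filter.1 hi).2
    have h1 : addOrderOf xb • xb i = 0 := congrFun (addOrderOf_nsmul_eq_zero xb) i
    rw [nsmul_eq_mul, hu.mul_left_eq_zero] at h1
    exact (ZMod.natCast_eq_zero_iff _ _).1 h1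

lemma sn6_disjoint (xb : α → ZMod (2 ^ I)) (w A : ℕ) (K : AddSubgroup (α → ZMod (2 ^ I)))
    (hK : Nat.card (spars I w K) = 2 ^ A) (hw : A * w < nu xb) :
    Disjoint (spars I w K) (AddSubgroup.zmultiples xb) := by
  rw [AddSubgroup.disjoint_def]
  intro z hz hz'
  by_contra hz0
  obtain ⟨m, rfl⟩ := AddSubgroup.mem_zmultiples_iff.1 hz'
  have h1 := suppc_of_gen w A K hK _ hz
  have hm : (m : ZMod (2 ^ I)) ≠ 0 := by
    intro h2
    apply hz0
    ext i
    rw [Pi.smul_apply, zsmul_eq_mul, h2, zero_mul, Pi.zero_apply]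
  have h3 : nu xb ≤ suppc (m • xb) := by
    rw [sn6_nu]
    unfold suppc
    refine Finset.card_le_card fun i hi => ?_
    have hi2 := (mem_filter.1 hi).2
    refine mem_filter.2 ⟨mem_univ i, ?_⟩
    rw [Pi.smul_apply, zsmul_eq_mul, Ne, hi2.mul_left_eq_zero]
    exact hm
  omega

lemma sn6_card_sup (L Z : AddSubgroup (α → ZMod (2 ^ I))) (h : Disjoint L Z) :
    Nat.card (L ⊔ Z : AddSubgroup (α → ZMod (2 ^ I))) = Nat.card L * Nat.card Z := by
  rw [← Nat.card_prod]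
  refine (Nat.card_congr (Equiv.ofBijective
    (fun g : L × Z => (⟨(g.1 : α → ZMod (2 ^ I)) + g.2,
      AddSubgroup.add_mem_sup g.1.2 g.2.2⟩ : (L ⊔ Z : AddSubgroup (α → ZMod (2 ^ I))))) ?_)).symm
  constructor
  · intro g g' hg
    exact AddSubgroup.add_injective_of_disjoint h (congrArg Subtype.val hg)
  · rintro ⟨x, hx⟩
    obtain ⟨a, ha, b, hb, rfl⟩ := AddSubgroup.mem_sup.1 hx
    exact ⟨(⟨a, ha⟩, ⟨b, hb⟩), rfl⟩

end sn6

open Classical in
/-- Task N6: the number of subgroups with given sparse part. -/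
theorem count_K {α : Type} [Fintype α] [DecidableEq α] {I : ℕ} (hI : 1 ≤ I)
    (xb : α → ZMod (2 ^ I)) (hx : 1 ≤ nu xb) (w Λ A : ℕ)
    (S : Finset (AddSubgroup (α → ZMod (2 ^ I))))
    (hS : ∀ K ∈ S, xb ∈ K ∧ Nat.card K = 2 ^ (I + Λ))
    (hA : ∃ K ∈ S, Nat.card (spars I w K) = 2 ^ A) :
    (A ≤ Λ + I ∧ (S.filter (fun K => Nat.card (spars I w K) = 2 ^ A)).card ≤
      (univ.filter (fun k : α → ZMod (2 ^ I) => suppc k < w)).card ^ A *
        2 ^ (Fintype.card α * (Λ + I - A))) ∧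
    (A * w < nu xb → A ≤ Λ ∧ (S.filter (fun K => Nat.card (spars I w K) = 2 ^ A)).card ≤
      (univ.filter (fun k : α → ZMod (2 ^ I) => suppc k < w)).card ^ A *
        2 ^ (Fintype.card α * (Λ - A))) := by
  have hle : ∀ L K : AddSubgroup (α → ZMod (2 ^ I)), L ≤ K → Nat.card L ≤ Nat.card K :=
    fun L K h => Nat.card_le_card_of_injective _ (AddSubgroup.inclusion_injective h)
  obtain ⟨K0, hK0, hK0A⟩ := hA
  constructor
  · have hAl : A ≤ Λ + I := by
      have h1 := hle _ _ (sn6_spars_le w K0)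
      rw [hK0A, (hS K0 hK0).2] at h1
      have h2 := (Nat.pow_le_pow_iff_right (by norm_num : 1 < 2)).1 h1
      omega
    refine ⟨hAl, sn6_count w A (Λ + I - A) _ id fun K hK => ?_⟩
    obtain ⟨hK1, hK2⟩ := mem_filter.1 hK
    refine ⟨hK2, sn6_spars_le w K, ?_⟩
    rw [id, hK2, (hS K hK1).2, ← pow_add]
    congr 1
    omega
  · intro hw
    have hcard : ∀ K ∈ S, Nat.card (spars I w K) = 2 ^ A →
        Nat.card (spars I w K ⊔ AddSubgroup.zmultiples xb : AddSubgroup (α → ZMod (2 ^ I))) =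
          2 ^ (A + I) := by
      intro K _ hK2
      rw [sn6_card_sup _ _ (sn6_disjoint xb w A K hK2 hw), hK2, sn6_card_zmultiples xb hx,
        ← pow_add]
    have hsup : ∀ K ∈ S, spars I w K ⊔ AddSubgroup.zmultiples xb ≤ K := fun K hK =>
      sup_le (sn6_spars_le w K) (AddSubgroup.zmultiples_le_of_mem (hS K hK).1)
    have hAl : A ≤ Λ := by
      have h1 := hle _ _ (hsup K0 hK0)
      rw [hcard K0 hK0 hK0A, (hS K0 hK0).2] at h1
      have h2 := (Nat.pow_le_pow_iff_right (by norm_num : 1 < 2)).1 h1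
      omega
    refine ⟨hAl, sn6_count w A (Λ - A) _ (fun L => L ⊔ AddSubgroup.zmultiples xb)
      fun K hK => ?_⟩
    obtain ⟨hK1, hK2⟩ := mem_filter.1 hK
    refine ⟨hK2, hsup K hK1, ?_⟩
    rw [hcard K hK1 hK2, (hS K hK1).2, ← pow_add]
    congr 1
    (clear * - hAl; omega)

end Vale.Agent.P160
end
end

section

section

set_option linter.unusedSectionVars false

namespace Vale.Agent.P160

open Finset

lemma st6b_cast_cast {a b c : ℕ} (hcb : c ≤ b) (hba : b ≤ a) (x : ZMod (2 ^ a)) :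
    (((x.cast : ZMod (2 ^ b))).cast : ZMod (2 ^ c)) = (x.cast : ZMod (2 ^ c)) := by
  have h : ((ZMod.castHom (pow_dvd_pow 2 hcb) (ZMod (2 ^ c))).comp
      (ZMod.castHom (pow_dvd_pow 2 hba) (ZMod (2 ^ b)))) x =
      (ZMod.castHom (pow_dvd_pow 2 (hcb.trans hba)) (ZMod (2 ^ c))) x := by
    congr 1
    exact Subsingleton.elim _ _
  exact h

lemma st6b_nu_cast {α : Type} [Fintype α] [DecidableEq α] {a b : ℕ} (hb : b ≠ 0) (hba : b ≤ a)
    (x : α → ZMod (2 ^ a)) :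
    nu (fun i => ((x i).cast : ZMod (2 ^ b))) = nu x := by
  rw [← wt_eq_nu hb, ← wt_eq_nu (j := a) (by omega)]
  congr 1
  funext i
  have h : ((x i).cast : ZMod (2 ^ b)) =
      ZMod.castHom (pow_dvd_pow 2 hba) (ZMod (2 ^ b)) (x i) := rfl
  rw [h, ← RingHom.comp_apply]
  congr 1
  exact Subsingleton.elim _ _

lemma st6b_walk_cast {α : Type} [Fintype α] [DecidableEq α] {a b : ℕ} (hba : b ≤ a) (r : α → Fin 4)
    (x : α → ZMod (2 ^ a)) (h : walk r x = 0) :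
    walk r (fun i => ((x i).cast : ZMod (2 ^ b))) = 0 := by
  have h1 := walk_castHom (pow_dvd_pow 2 hba) r x
  rw [h, map_zero] at h1
  exact h1

lemma st6b_fiber {a c : ℕ} (h : c ≤ a) (t : ZMod (2 ^ c)) :
    (univ.filter (fun z : ZMod (2 ^ a) => (z.cast : ZMod (2 ^ c)) = t)).card ≤ 2 ^ (a - c) := by
  have hr : (range (2 ^ (a - c))).card = 2 ^ (a - c) := card_range _
  rw [← hr]
  refine card_le_card_of_injOn (fun z => z.val / 2 ^ c) ?_ ?_
  · intro z _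
    simp only [coe_range, Set.mem_Iio]
    apply Nat.div_lt_of_lt_mul
    rw [← pow_add, Nat.add_sub_cancel' h]
    exact ZMod.val_lt z
  · intro z hz w hw hzw
    rw [mem_coe, mem_filter] at hz hw
    have h1 : ((z.val : ℕ) : ZMod (2 ^ c)) = ((w.val : ℕ) : ZMod (2 ^ c)) := by
      rw [ZMod.natCast_val, ZMod.natCast_val, hz.2, hw.2]
    have h2 : z.val % 2 ^ c = w.val % 2 ^ c := (ZMod.natCast_eq_natCast_iff' _ _ _).1 h1
    have h3 : z.val = w.val := by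
      have hzw' : z.val / 2 ^ c = w.val / 2 ^ c := hzw
      rw [← Nat.div_add_mod z.val (2 ^ c), ← Nat.div_add_mod w.val (2 ^ c), h2, hzw']
    exact ZMod.val_injective _ h3

open Classical in
lemma st6b_lift {α : Type} [Fintype α] [DecidableEq α] {I L' j : ℕ} {τ u : ℝ} (hj : j ≠ 0)
    (hjL : j ≤ L') :
    (univ.filter (fun y : α → ZMod (2 ^ L') => u ≤ nu y ∧
      BadL I τ (fun i => ((y i).cast : ZMod (2 ^ j))))).card ≤
    (2 ^ (L' - j)) ^ Fintype.card α *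
      (univ.filter (fun x : α → ZMod (2 ^ j) => u ≤ nu x ∧ BadL I τ x)).card := by
  refine (card_le_mul_card_image (f := fun (y : α → ZMod (2 ^ L')) (i : α) =>
    ((y i).cast : ZMod (2 ^ j))) _ ((2 ^ (L' - j)) ^ Fintype.card α) ?_).trans ?_
  · intro x _
    refine (card_le_card (t := Fintype.piFinset (fun i => univ.filter
      (fun z : ZMod (2 ^ L') => (z.cast : ZMod (2 ^ j)) = x i))) ?_).trans ?_
    · intro y hy
      rw [mem_filter] at hy
      rw [Fintype.mem_piFinset]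
      intro i
      rw [mem_filter]
      exact ⟨mem_univ _, congrFun hy.2 i⟩
    · rw [Fintype.card_piFinset]
      refine (prod_le_prod' (fun i _ => st6b_fiber hjL (x i))).trans (le_of_eq ?_)
      rw [prod_const, card_univ]
  · refine Nat.mul_le_mul_left _ (card_le_card ?_)
    intro x hx
    obtain ⟨y, hy, rfl⟩ := mem_image.1 hx
    rw [mem_filter] at hy ⊢
    refine ⟨mem_univ _, ?_, hy.2.2⟩
    rw [st6b_nu_cast hj hjL]
    exact hy.2.1

open Classical in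
/-- Task T6b: sum over the vectors `y` which are good up to level `L - e`. -/
theorem near_e {α β : Type} [Fintype α] [DecidableEq α] [Fintype β] [DecidableEq β]
    {I L e b : ℕ} {δ τ κ : ℝ} (hI : 1 ≤ I) (he : e < I) (hL : 2 * I ≤ L)
    (h3 : 3 * (L + I) ≤ 2 * Fintype.card α)
    (hb : 2 * (b + 1) + Fintype.card α ≤ Fintype.card β) (hbI : b * I ≤ L + I)
    (Near : (β → α → Fin 4) → Prop)
    (hnear : ∀ J' : ℕ, I ≤ J' → 3 * J' ≤ 2 * Fintype.card α → ∀ x : α → ZMod (2 ^ J'),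
      δ * Fintype.card α ≤ nu x → GoodX I τ x →
      ∀ B : ℕ, 2 * B + Fintype.card α ≤ Fintype.card β → B * I ≤ J' + 3 * I →
        (∑ ω : β → α → Fin 4, if (∀ i, walk (ω i) x = 0) ∧ Near ω then
          ((kerN (2 ^ I) (hm ω)).card : ℝ) ^ B else 0) ≤
          8 * ((2 : ℝ) ^ I) ^ B * (1 / 2 ^ J') ^ Fintype.card β *
            4 ^ (Fintype.card β * Fintype.card α))
    (hκ : 0 ≤ κ)
    (hbad : ∀ j : ℕ, I < j → j ≤ L + I →
      ((univ.filter (fun x : α → ZMod (2 ^ j) => δ * Fintype.card α ≤ nu x ∧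
        BadL I τ x)).card : ℝ) ≤ κ * ((2 : ℝ) ^ j) ^ Fintype.card α) :
    (∑ y ∈ univ.filter (fun y : α → ZMod (2 ^ (L + I - e)) => δ * Fintype.card α ≤ nu y ∧
        GoodX I τ (fun i => ((y i).cast : ZMod (2 ^ (L - e))))),
      ∑ ω : β → α → Fin 4, if (∀ i, walk (ω i) y = 0) ∧ Near ω then
          ((kerN (2 ^ I) (hm ω)).card : ℝ) ^ (b + 1) else 0) ≤
      8 * ((2 : ℝ) ^ I) ^ (b + 1) * 4 ^ (Fintype.card β * Fintype.card α) *
        ((2 : ℝ) ^ (L + I - e)) ^ Fintype.card α * (1 / 2 ^ (L + I - e)) ^ Fintype.card β *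
        (1 + I * κ * 2 ^ (I * Fintype.card β)) := by
  have hbI1 : (b + 1) * I = b * I + I := by ring
  set Y : Finset (α → ZMod (2 ^ (L + I - e))) := univ.filter (fun y =>
    δ * Fintype.card α ≤ nu y ∧ GoodX I τ (fun i => ((y i).cast : ZMod (2 ^ (L - e))))) with hY
  set A : ℝ := 8 * ((2 : ℝ) ^ I) ^ (b + 1) * (1 / 2 ^ (L + I - e)) ^ Fintype.card β *
    4 ^ (Fintype.card β * Fintype.card α) with hA
  have hA0 : 0 ≤ A := by positivity
  have hgood : ∀ y ∈ Y.filter (fun y => GoodX I τ y),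
      (∑ ω : β → α → Fin 4, if (∀ i, walk (ω i) y = 0) ∧ Near ω then
          ((kerN (2 ^ I) (hm ω)).card : ℝ) ^ (b + 1) else 0) ≤ A := by
    intro y hy
    rw [mem_filter, hY, mem_filter] at hy
    exact hnear (L + I - e) (by omega) (by (clear * - h3 hbI1; omega)) y hy.1.2.1 hy.2 (b + 1) hb (by (clear * - he hbI hbI1; omega))
  have hbadS : ∀ y ∈ Y.filter (fun y => ¬ GoodX I τ y),
      (∑ ω : β → α → Fin 4, if (∀ i, walk (ω i) y = 0) ∧ Near ω then
          ((kerN (2 ^ I) (hm ω)).card : ℝ) ^ (b + 1) else 0) ≤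
        A * 2 ^ (I * Fintype.card β) := by
    intro y hy
    rw [mem_filter, hY, mem_filter] at hy
    have h1 := hnear (L - e) (by omega) (by omega)
      (fun i => ((y i).cast : ZMod (2 ^ (L - e)))) (by
        rw [st6b_nu_cast (by (clear * - he hL hbI1; omega)) (by (clear * - hI he hbI1; omega))]; exact hy.1.2.1) hy.1.2.2 (b + 1) hb (by (clear * - he hL hbI hbI1; omega))
    refine (sum_le_sum fun ω _ => ?_).trans (h1.trans (le_of_eq ?_))
    · by_cases hc : (∀ i, walk (ω i) y = 0) ∧ Near ω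
      · rw [if_pos hc, if_pos ⟨fun i => st6b_walk_cast (by (clear * - hI he hbI1; omega)) _ _ (hc.1 i), hc.2⟩]
      · rw [if_neg hc]
        split_ifs <;> (clear * -; positivity)
    · have e1 : L + I - e = (L - e) + I := by omega
      have e2 : ((1 : ℝ) / 2 ^ (L - e)) ^ Fintype.card β =
          (1 / 2 ^ (L + I - e)) ^ Fintype.card β * 2 ^ (I * Fintype.card β) := by
        rw [pow_mul, ← mul_pow]
        congr 1
        rw [e1, pow_add]
        (clear * -; field_simp)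
      rw [hA, e2]
      ring
  have hcard : (((Y.filter (fun y => GoodX I τ y)).card : ℕ) : ℝ) ≤
      ((2 : ℝ) ^ (L + I - e)) ^ Fintype.card α := by
    have : (Y.filter (fun y => GoodX I τ y)).card ≤ (2 ^ (L + I - e)) ^ Fintype.card α := by
      refine (card_le_univ _).trans (le_of_eq ?_)
      rw [Fintype.card_fun, ZMod.card]
    exact_mod_cast this
  have hcount : (((Y.filter (fun y => ¬ GoodX I τ y)).card : ℕ) : ℝ) ≤
      I * κ * ((2 : ℝ) ^ (L + I - e)) ^ Fintype.card α := by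
    have hsub : Y.filter (fun y => ¬ GoodX I τ y) ⊆ (Ioc (L - e) (L + I - e)).biUnion
        (fun j => univ.filter (fun y : α → ZMod (2 ^ (L + I - e)) => δ * Fintype.card α ≤ nu y ∧
          BadL I τ (fun i => ((y i).cast : ZMod (2 ^ j))))) := by
      intro y hy
      rw [mem_filter, hY, mem_filter] at hy
      obtain ⟨⟨_, hy1, hy2⟩, hy3⟩ := hy
      unfold GoodX at hy3
      push Not at hy3
      obtain ⟨j, hj1, hj2, k, hk⟩ := hy3
      rw [mem_biUnion]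
      refine ⟨j, ?_, ?_⟩
      · rw [mem_Ioc]
        refine ⟨?_, hj2⟩
        by_contra hcon
        have h4 := hy2 j hj1 (by omega) k
        have h5 : (fun i => ((((y i).cast : ZMod (2 ^ (L - e)))).cast : ZMod (2 ^ j)) +
            2 ^ (j - I) * k i) = (fun i => ((y i).cast : ZMod (2 ^ j)) + 2 ^ (j - I) * k i) := by
          funext i
          rw [st6b_cast_cast (by omega) (by (clear * - hI he hbI1; omega))]
        rw [h5] at h4
        exact absurd h4 (not_le.2 hk)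
      · rw [mem_filter]
        exact ⟨mem_univ _, hy1, k, hk⟩
    have h1 : (((Y.filter (fun y => ¬ GoodX I τ y)).card : ℕ) : ℝ) ≤
        ∑ j ∈ Ioc (L - e) (L + I - e), ((univ.filter
          (fun y : α → ZMod (2 ^ (L + I - e)) => δ * Fintype.card α ≤ nu y ∧
          BadL I τ (fun i => ((y i).cast : ZMod (2 ^ j))))).card : ℝ) := by
      exact_mod_cast (card_le_card hsub).trans card_biUnion_le
    refine h1.trans ?_
    have h2 : ∀ j ∈ Ioc (L - e) (L + I - e), ((univ.filter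
          (fun y : α → ZMod (2 ^ (L + I - e)) => δ * Fintype.card α ≤ nu y ∧
          BadL I τ (fun i => ((y i).cast : ZMod (2 ^ j))))).card : ℝ) ≤
          κ * ((2 : ℝ) ^ (L + I - e)) ^ Fintype.card α := by
      intro j hj
      rw [mem_Ioc] at hj
      have h5 := st6b_lift (α := α) (I := I) (τ := τ) (u := δ * Fintype.card α) (j := j)
        (L' := L + I - e) (by omega) hj.2
      have h6 := hbad j (by (clear * - he hL hbI1 hj; omega)) (by (clear * - he hL hbI1 hj; omega))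
      calc ((univ.filter
          (fun y : α → ZMod (2 ^ (L + I - e)) => δ * Fintype.card α ≤ nu y ∧
          BadL I τ (fun i => ((y i).cast : ZMod (2 ^ j))))).card : ℝ)
          ≤ ((2 : ℝ) ^ (L + I - e - j)) ^ Fintype.card α *
            ((univ.filter (fun x : α → ZMod (2 ^ j) => δ * Fintype.card α ≤ nu x ∧
              BadL I τ x)).card : ℝ) := by exact_mod_cast h5
        _ ≤ ((2 : ℝ) ^ (L + I - e - j)) ^ Fintype.card α *
            (κ * ((2 : ℝ) ^ j) ^ Fintype.card α) := by (clear * - h6; gcongr)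
        _ = κ * ((2 : ℝ) ^ (L + I - e)) ^ Fintype.card α := by
            have e1 : L + I - e = (L + I - e - j) + j := by (clear * - he hL hbI1 hj; omega)
            have e2 : ((2 : ℝ) ^ (L + I - e)) ^ Fintype.card α =
                ((2 : ℝ) ^ (L + I - e - j)) ^ Fintype.card α *
                  ((2 : ℝ) ^ j) ^ Fintype.card α := by
              rw [← mul_pow, ← pow_add, ← e1]
            rw [e2]
            ring
    refine (sum_le_sum h2).trans (le_of_eq ?_)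
    rw [sum_const, Nat.card_Ioc, nsmul_eq_mul]
    have e1 : L + I - e - (L - e) = I := by omega
    rw [e1]
    ring
  rw [← sum_filter_add_sum_filter_not Y (fun y => GoodX I τ y)]
  have s1 := (sum_le_sum hgood)
  have s2 := (sum_le_sum hbadS)
  rw [sum_const, nsmul_eq_mul] at s1 s2
  have s3 := mul_le_mul_of_nonneg_right hcard hA0
  have s4 := mul_le_mul_of_nonneg_right hcount
    (show 0 ≤ A * 2 ^ (I * Fintype.card β) by positivity)
  calc _ ≤ ((2 : ℝ) ^ (L + I - e)) ^ Fintype.card α * A +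
      I * κ * ((2 : ℝ) ^ (L + I - e)) ^ Fintype.card α * (A * 2 ^ (I * Fintype.card β)) :=
        add_le_add (s1.trans s3) (s2.trans s4)
    _ = _ := by rw [hA]; ring

end Vale.Agent.P160
end
end

section

section

set_option linter.unusedSectionVars false

namespace Vale.Agent.P160

open Finset

lemma st6c_cast_cast {a b c : ℕ} (h1 : b ≤ a) (h2 : c ≤ b) (z : ZMod (2 ^ a)) :
    ((z.cast : ZMod (2 ^ b)).cast : ZMod (2 ^ c)) = (z.cast : ZMod (2 ^ c)) := by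
  have h : (ZMod.castHom (pow_dvd_pow 2 h2) (ZMod (2 ^ c))).comp
      (ZMod.castHom (pow_dvd_pow 2 h1) (ZMod (2 ^ b))) =
      ZMod.castHom (pow_dvd_pow 2 (h2.trans h1)) (ZMod (2 ^ c)) := Subsingleton.elim _ _
  exact RingHom.congr_fun h z

lemma st6c_nu_cast {α : Type} [Fintype α] [DecidableEq α] {k a : ℕ} (hk : 1 ≤ k) (hka : k ≤ a)
    (x : α → ZMod (2 ^ a)) : nu (fun i => ((x i).cast : ZMod (2 ^ k))) = nu x := by
  rw [← wt_eq_nu (j := k) (by omega), ← wt_eq_nu (j := a) (by omega)]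
  congr 1
  funext i
  have h : (ZMod.castHom (dvd_pow_self 2 (by omega : k ≠ 0)) (ZMod 2)).comp
      (ZMod.castHom (pow_dvd_pow 2 hka) (ZMod (2 ^ k))) =
      ZMod.castHom (dvd_pow_self 2 (by omega : a ≠ 0)) (ZMod 2) := Subsingleton.elim _ _
  exact RingHom.congr_fun h (x i)

lemma st6c_good {α : Type} [Fintype α] [DecidableEq α] {I k a : ℕ} {τ : ℝ} (hka : k ≤ a)
    {x : α → ZMod (2 ^ a)} (hx : GoodX I τ x) :
    GoodX I τ (fun i => ((x i).cast : ZMod (2 ^ k))) := by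
  intro j hj hjk s
  have h := hx j hj (hjk.trans hka) s
  have e : (fun i => ((x i).cast : ZMod (2 ^ j)) + 2 ^ (j - I) * s i) =
      fun i => ((((x i).cast : ZMod (2 ^ k)).cast : ZMod (2 ^ j)) + 2 ^ (j - I) * s i) := by
    funext i
    rw [st6c_cast_cast hka hjk]
  rw [e] at h
  exact h

open Classical in
lemma st6c_term {α β : Type} [Fintype α] [DecidableEq α] [Fintype β] [DecidableEq β]
    {I L b : ℕ} (hI : 1 ≤ I) (hIL : I ≤ L) (hLb : L ≤ b * I) (x : α → ZMod (2 ^ L))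
    (ω : β → α → Fin 4) (hx : ∀ i, walk (ω i) x = 0) :
    ((kerN (2 ^ L) (augM x ω)).card : ℝ) ≤ ((kerN (2 ^ I) (hm ω)).card : ℝ) ^ b +
      ∑ e ∈ range I, if (∃ y : α → ZMod (2 ^ (L + I - e)), (∀ i, walk (ω i) y = 0) ∧
        ∀ l, ((y l).cast : ZMod (2 ^ (L - e))) = ((x l).cast : ZMod (2 ^ (L - e)))) then
          ((2 : ℝ) ^ (I - e)) ^ b * ((kerN (2 ^ I) (hm ω)).card : ℝ) ^ b else 0 := by
  obtain ⟨e, he, hc, hy⟩ := aug_cases hI hIL x ω hx
  have h1 : ((kerN (2 ^ L) (augM x ω)).card : ℝ) ≤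
      ((kerN (2 ^ I) (augM x ω)).card : ℝ) ^ b := by
    exact_mod_cast card_kerN_pow_le (augM x ω) hI hLb
  rw [hc] at h1
  push_cast at h1
  rw [mul_pow] at h1
  have hnn : ∀ e' ∈ range I, (0 : ℝ) ≤
      (if (∃ y : α → ZMod (2 ^ (L + I - e')), (∀ i, walk (ω i) y = 0) ∧
        ∀ l, ((y l).cast : ZMod (2 ^ (L - e'))) = ((x l).cast : ZMod (2 ^ (L - e')))) then
          ((2 : ℝ) ^ (I - e')) ^ b * ((kerN (2 ^ I) (hm ω)).card : ℝ) ^ b else 0) := by
    intro e' _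
    split_ifs <;> (clear * -; positivity)
  rcases Nat.eq_or_lt_of_le he with he' | he'
  · rw [he', Nat.sub_self, pow_zero, one_pow, one_mul] at h1
    exact h1.trans (le_add_of_nonneg_right (sum_nonneg hnn))
  · have h2 := single_le_sum hnn (mem_range.2 he')
    rw [if_pos (hy he')] at h2
    exact h1.trans (h2.trans (le_add_of_nonneg_left (by (clear * -; positivity))))

open Classical in
lemma st6c_count {α β : Type} [Fintype α] [DecidableEq α] [Fintype β] [DecidableEq β]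
    {I L e : ℕ} {δ τ : ℝ} (he : e < I) (hL : 2 * I ≤ L) (ω : β → α → Fin 4) :
    ((univ.filter (fun x : α → ZMod (2 ^ L) => δ * Fintype.card α ≤ nu x ∧
      GoodX I τ x)).filter (fun x => (∀ i, walk (ω i) x = 0) ∧
        ∃ y : α → ZMod (2 ^ (L + I - e)), (∀ i, walk (ω i) y = 0) ∧
        ∀ l, ((y l).cast : ZMod (2 ^ (L - e))) = ((x l).cast : ZMod (2 ^ (L - e))))).card ≤
      ((univ.filter (fun y : α → ZMod (2 ^ (L + I - e)) => δ * Fintype.card α ≤ nu y ∧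
        GoodX I τ (fun i => ((y i).cast : ZMod (2 ^ (L - e)))))).filter
          (fun y => ∀ i, walk (ω i) y = 0)).card * (kerN (2 ^ I) (hm ω)).card := by
  refine (card_le_card (t := ((univ.filter (fun y : α → ZMod (2 ^ (L + I - e)) =>
      δ * Fintype.card α ≤ nu y ∧
        GoodX I τ (fun i => ((y i).cast : ZMod (2 ^ (L - e)))))).filter
          (fun y => ∀ i, walk (ω i) y = 0)).biUnion (fun y =>
      univ.filter (fun x : α → ZMod (2 ^ L) => (∀ i, walk (ω i) x = 0) ∧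
      ∀ l, ((x l).cast : ZMod (2 ^ (L - e))) =
        (fun l => ((y l).cast : ZMod (2 ^ (L - e)))) l))) ?_).trans ?_
  · intro x hx
    simp only [mem_filter, mem_univ, true_and] at hx
    obtain ⟨⟨hnu, hgood⟩, h0, y, hy0, hy⟩ := hx
    rw [mem_biUnion]
    have hyx : (fun i => ((y i).cast : ZMod (2 ^ (L - e)))) =
        fun i => ((x i).cast : ZMod (2 ^ (L - e))) := funext hy
    refine ⟨y, ?_, ?_⟩
    · simp only [mem_filter, mem_univ, true_and]
      refine ⟨⟨?_, ?_⟩, hy0⟩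
      · have h1 := st6c_nu_cast (k := L - e) (a := L + I - e) (by omega) (by omega) y
        have h2 := st6c_nu_cast (k := L - e) (a := L) (by omega) (by omega) x
        rw [hyx] at h1
        rw [← h1, h2]
        exact hnu
      · rw [hyx]
        exact st6c_good (by (clear * - he hL; omega)) hgood
    · simp only [mem_filter, mem_univ, true_and]
      exact ⟨h0, fun l => (hy l).symm⟩
  · refine card_biUnion_le.trans ?_
    rw [← smul_eq_mul]
    refine sum_le_card_nsmul _ _ _ fun y _ => ?_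
    exact card_fibre_le (le_of_lt he) (by omega) ω _

open Classical in
lemma st6c_part {α β : Type} [Fintype α] [DecidableEq α] [Fintype β] [DecidableEq β]
    {I L e b : ℕ} {δ τ : ℝ} (he : e < I) (hL : 2 * I ≤ L) (Near : (β → α → Fin 4) → Prop) :
    (∑ x ∈ univ.filter (fun x : α → ZMod (2 ^ L) => δ * Fintype.card α ≤ nu x ∧ GoodX I τ x),
      ∑ ω : β → α → Fin 4, if ((∀ i, walk (ω i) x = 0) ∧ Near ω) ∧
        (∃ y : α → ZMod (2 ^ (L + I - e)), (∀ i, walk (ω i) y = 0) ∧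
        ∀ l, ((y l).cast : ZMod (2 ^ (L - e))) = ((x l).cast : ZMod (2 ^ (L - e)))) then
          ((2 : ℝ) ^ (I - e)) ^ b * ((kerN (2 ^ I) (hm ω)).card : ℝ) ^ b else 0) ≤
    ((2 : ℝ) ^ (I - e)) ^ b *
      ∑ y ∈ univ.filter (fun y : α → ZMod (2 ^ (L + I - e)) => δ * Fintype.card α ≤ nu y ∧
        GoodX I τ (fun i => ((y i).cast : ZMod (2 ^ (L - e))))),
      ∑ ω : β → α → Fin 4, if (∀ i, walk (ω i) y = 0) ∧ Near ω then
          ((kerN (2 ^ I) (hm ω)).card : ℝ) ^ (b + 1) else 0 := by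
  rw [sum_comm]
  conv_rhs => rw [sum_comm, mul_sum]
  refine sum_le_sum fun ω _ => ?_
  by_cases hN : Near ω
  · have hc := st6c_count (δ := δ) (τ := τ) he hL ω
    set K := (kerN (2 ^ I) (hm ω)).card with hK
    set X := univ.filter (fun x : α → ZMod (2 ^ L) => δ * Fintype.card α ≤ nu x ∧
      GoodX I τ x) with hX
    set Y := univ.filter (fun y : α → ZMod (2 ^ (L + I - e)) => δ * Fintype.card α ≤ nu y ∧
        GoodX I τ (fun i => ((y i).cast : ZMod (2 ^ (L - e))))) with hY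
    have e1 : (∑ x ∈ X, if ((∀ i, walk (ω i) x = 0) ∧ Near ω) ∧
        (∃ y : α → ZMod (2 ^ (L + I - e)), (∀ i, walk (ω i) y = 0) ∧
        ∀ l, ((y l).cast : ZMod (2 ^ (L - e))) = ((x l).cast : ZMod (2 ^ (L - e)))) then
          ((2 : ℝ) ^ (I - e)) ^ b * (K : ℝ) ^ b else 0) =
        ((X.filter (fun x => (∀ i, walk (ω i) x = 0) ∧
        ∃ y : α → ZMod (2 ^ (L + I - e)), (∀ i, walk (ω i) y = 0) ∧
        ∀ l, ((y l).cast : ZMod (2 ^ (L - e))) =
          ((x l).cast : ZMod (2 ^ (L - e))))).card : ℝ) *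
          (((2 : ℝ) ^ (I - e)) ^ b * (K : ℝ) ^ b) := by
      rw [← sum_filter, sum_const, nsmul_eq_mul]
      congr 3
      refine filter_congr fun x _ => ?_
      simp only [hN, and_true]
    have e2 : (∑ y ∈ Y, if (∀ i, walk (ω i) y = 0) ∧ Near ω then (K : ℝ) ^ (b + 1) else 0) =
        ((Y.filter (fun y => ∀ i, walk (ω i) y = 0)).card : ℝ) * (K : ℝ) ^ (b + 1) := by
      rw [← sum_filter, sum_const, nsmul_eq_mul]
      congr 3
      refine filter_congr fun x _ => ?_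
      simp only [hN, and_true]
    rw [e1, e2]
    have hc' : ((X.filter (fun x => (∀ i, walk (ω i) x = 0) ∧
        ∃ y : α → ZMod (2 ^ (L + I - e)), (∀ i, walk (ω i) y = 0) ∧
        ∀ l, ((y l).cast : ZMod (2 ^ (L - e))) =
          ((x l).cast : ZMod (2 ^ (L - e))))).card : ℝ) ≤
        ((Y.filter (fun y => ∀ i, walk (ω i) y = 0)).card : ℝ) * K := by
      exact_mod_cast hc
    calc _ ≤ (((Y.filter (fun y => ∀ i, walk (ω i) y = 0)).card : ℝ) * K) *
          (((2 : ℝ) ^ (I - e)) ^ b * (K : ℝ) ^ b) :=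
          mul_le_mul_of_nonneg_right hc' (by (clear * -; positivity))
      _ = _ := by ring
  · simp only [hN, and_false, false_and, if_false, sum_const_zero, mul_zero, le_refl]

open Classical in
/-- Task T6c: the near part of the sum for the augmented matrix. -/
theorem near_aug {α β : Type} [Fintype α] [DecidableEq α] [Fintype β] [DecidableEq β]
    {I L b : ℕ} {δ τ κ : ℝ} (hI : 1 ≤ I) (hL : 2 * I ≤ L)
    (h3 : 3 * (L + I) ≤ 2 * Fintype.card α)
    (hb : 2 * (b + 1) + Fintype.card α ≤ Fintype.card β) (hbI : b * I ≤ L + I)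
    (hLb : L ≤ b * I)
    (Near : (β → α → Fin 4) → Prop)
    (hnear : ∀ J' : ℕ, I ≤ J' → 3 * J' ≤ 2 * Fintype.card α → ∀ x : α → ZMod (2 ^ J'),
      δ * Fintype.card α ≤ nu x → GoodX I τ x →
      ∀ B : ℕ, 2 * B + Fintype.card α ≤ Fintype.card β → B * I ≤ J' + 3 * I →
        (∑ ω : β → α → Fin 4, if (∀ i, walk (ω i) x = 0) ∧ Near ω then
          ((kerN (2 ^ I) (hm ω)).card : ℝ) ^ B else 0) ≤
          8 * ((2 : ℝ) ^ I) ^ B * (1 / 2 ^ J') ^ Fintype.card β *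
            4 ^ (Fintype.card β * Fintype.card α))
    (hκ : 0 ≤ κ)
    (hbad : ∀ j : ℕ, I < j → j ≤ L + I →
      ((univ.filter (fun x : α → ZMod (2 ^ j) => δ * Fintype.card α ≤ nu x ∧
        BadL I τ x)).card : ℝ) ≤ κ * ((2 : ℝ) ^ j) ^ Fintype.card α) :
    (∑ x ∈ univ.filter (fun x : α → ZMod (2 ^ L) => δ * Fintype.card α ≤ nu x ∧ GoodX I τ x),
      ∑ ω : β → α → Fin 4, if (∀ i, walk (ω i) x = 0) ∧ Near ω then
          ((kerN (2 ^ L) (augM x ω)).card : ℝ) else 0) ≤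
      4 ^ (Fintype.card β * Fintype.card α) *
        (8 * ((2 : ℝ) ^ I) ^ b * ((2 : ℝ) ^ L) ^ Fintype.card α *
            (1 / 2 ^ L) ^ Fintype.card β +
          ∑ e ∈ range I, ((2 : ℝ) ^ (I - e)) ^ b * (8 * ((2 : ℝ) ^ I) ^ (b + 1) *
            ((2 : ℝ) ^ (L + I - e)) ^ Fintype.card α * (1 / 2 ^ (L + I - e)) ^ Fintype.card β *
            (1 + I * κ * 2 ^ (I * Fintype.card β)))) := by
  have hIL : I ≤ L := by omega
  set K : (β → α → Fin 4) → ℝ := fun ω => ((kerN (2 ^ I) (hm ω)).card : ℝ) with hK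
  set C := univ.filter (fun x : α → ZMod (2 ^ L) => δ * Fintype.card α ≤ nu x ∧
    GoodX I τ x) with hC
  have step1 : (∑ x ∈ C, ∑ ω : β → α → Fin 4, if (∀ i, walk (ω i) x = 0) ∧ Near ω then
          ((kerN (2 ^ L) (augM x ω)).card : ℝ) else 0) ≤
      (∑ x ∈ C, ∑ ω : β → α → Fin 4, if (∀ i, walk (ω i) x = 0) ∧ Near ω then
          ((kerN (2 ^ I) (hm ω)).card : ℝ) ^ b else 0) +
      ∑ e ∈ range I, ∑ x ∈ C, ∑ ω : β → α → Fin 4,
        if ((∀ i, walk (ω i) x = 0) ∧ Near ω) ∧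
        (∃ y : α → ZMod (2 ^ (L + I - e)), (∀ i, walk (ω i) y = 0) ∧
        ∀ l, ((y l).cast : ZMod (2 ^ (L - e))) = ((x l).cast : ZMod (2 ^ (L - e)))) then
          ((2 : ℝ) ^ (I - e)) ^ b * ((kerN (2 ^ I) (hm ω)).card : ℝ) ^ b else 0 := by
    rw [sum_comm (s := range I), ← sum_add_distrib]
    refine sum_le_sum fun x _ => ?_
    rw [sum_comm (s := range I), ← sum_add_distrib]
    refine sum_le_sum fun ω _ => ?_
    by_cases hA : (∀ i, walk (ω i) x = 0) ∧ Near ω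
    · rw [if_pos hA, if_pos hA]
      refine (st6c_term hI hIL hLb x ω hA.1).trans (le_of_eq ?_)
      congr 1
      exact sum_congr rfl fun e _ => if_congr (and_iff_right hA).symm rfl rfl
    · rw [if_neg hA, if_neg hA, zero_add]
      refine sum_nonneg fun e _ => ?_
      split_ifs <;> (clear * -; positivity)
  have step2 : (∑ x ∈ C, ∑ ω : β → α → Fin 4, if (∀ i, walk (ω i) x = 0) ∧ Near ω then
          ((kerN (2 ^ I) (hm ω)).card : ℝ) ^ b else 0) ≤
      ((2 : ℝ) ^ L) ^ Fintype.card α * (8 * ((2 : ℝ) ^ I) ^ b * (1 / 2 ^ L) ^ Fintype.card β *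
            4 ^ (Fintype.card β * Fintype.card α)) := by
    have h1 : ∀ x ∈ C, (∑ ω : β → α → Fin 4, if (∀ i, walk (ω i) x = 0) ∧ Near ω then
          ((kerN (2 ^ I) (hm ω)).card : ℝ) ^ b else 0) ≤
          8 * ((2 : ℝ) ^ I) ^ b * (1 / 2 ^ L) ^ Fintype.card β *
            4 ^ (Fintype.card β * Fintype.card α) := by
      intro x hx
      rw [hC, mem_filter] at hx
      exact hnear L hIL (by (clear * - hI h3; omega)) x hx.2.1 hx.2.2 b (by omega) (by omega)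
    refine (sum_le_sum h1).trans ?_
    rw [sum_const, nsmul_eq_mul]
    refine mul_le_mul_of_nonneg_right ?_ (by positivity)
    have h2 : C.card ≤ (2 ^ L) ^ Fintype.card α := by
      refine (card_le_univ _).trans (le_of_eq ?_)
      rw [Fintype.card_fun, ZMod.card]
    exact_mod_cast h2
  have step3 : ∀ e ∈ range I, (∑ x ∈ C, ∑ ω : β → α → Fin 4,
        if ((∀ i, walk (ω i) x = 0) ∧ Near ω) ∧
        (∃ y : α → ZMod (2 ^ (L + I - e)), (∀ i, walk (ω i) y = 0) ∧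
        ∀ l, ((y l).cast : ZMod (2 ^ (L - e))) = ((x l).cast : ZMod (2 ^ (L - e)))) then
          ((2 : ℝ) ^ (I - e)) ^ b * ((kerN (2 ^ I) (hm ω)).card : ℝ) ^ b else 0) ≤
      ((2 : ℝ) ^ (I - e)) ^ b * (8 * ((2 : ℝ) ^ I) ^ (b + 1) *
        4 ^ (Fintype.card β * Fintype.card α) *
        ((2 : ℝ) ^ (L + I - e)) ^ Fintype.card α * (1 / 2 ^ (L + I - e)) ^ Fintype.card β *
        (1 + I * κ * 2 ^ (I * Fintype.card β))) := by
    intro e he
    refine (st6c_part (mem_range.1 he) hL Near).trans ?_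
    refine mul_le_mul_of_nonneg_left ?_ (by positivity)
    exact near_e hI (mem_range.1 he) hL h3 hb hbI Near hnear hκ hbad
  refine step1.trans ((add_le_add step2 (sum_le_sum step3)).trans (le_of_eq ?_))
  rw [mul_add, mul_sum]
  congr 1
  · ring
  · refine sum_congr rfl fun e _ => ?_
    ring


end Vale.Agent.P160
end
end

section

section

set_option linter.unusedSectionVars false

namespace Vale.Agent.P160

open Finset

lemma st9_sum_pow_nu {α : Type} [Fintype α] [DecidableEq α] (y : ℝ) :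
    ∑ x : α → ZMod 2, y ^ nu x = (1 + y) ^ Fintype.card α := by
  classical
  have h := Finset.prod_univ_sum (fun _ : α => (univ : Finset (ZMod 2)))
    (fun _ a => if IsUnit a then y else 1)
  rw [Fintype.piFinset_univ] at h
  have h2 : ∑ a : ZMod 2, (if IsUnit a then y else 1) = 1 + y := by
    have hu : (univ : Finset (ZMod 2)) = {0, 1} := by (clear * -; decide)
    rw [hu, sum_pair (by decide)]
    simp only [isUnit_iff_eq_one, zero_ne_one, ↓reduceIte]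
  rw [h2, prod_const, card_univ] at h
  rw [h]
  refine sum_congr rfl fun x _ => ?_
  rw [nu_eq, ← prod_const, prod_filter]

open Classical in
lemma st9_card_sparse_le {α : Type} [Fintype α] [DecidableEq α] (u : ℕ) {A : ℝ} (hA : 1 ≤ A) :
    ((univ.filter (fun x : α → ZMod 2 => nu x < u)).card : ℝ) ≤
      A ^ u * (1 + A⁻¹) ^ Fintype.card α := by
  have hA0 : 0 < A := lt_of_lt_of_le one_pos hA
  have h1 : ∀ x : α → ZMod 2, (if nu x < u then (1 : ℝ) else 0) ≤ A ^ u * A⁻¹ ^ nu x := by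
    intro x
    split_ifs with h
    · have h2 : A⁻¹ ^ u ≤ A⁻¹ ^ nu x :=
        pow_le_pow_of_le_one (inv_nonneg.2 hA0.le) (inv_le_one_of_one_le₀ hA) h.le
      calc (1 : ℝ) = A ^ u * A⁻¹ ^ u := by
            rw [← mul_pow, mul_inv_cancel₀ hA0.ne', one_pow]
        _ ≤ _ := mul_le_mul_of_nonneg_left h2 (by positivity)
    · positivity
  have h2 : ((univ.filter (fun x : α → ZMod 2 => nu x < u)).card : ℝ) =
      ∑ x : α → ZMod 2, if nu x < u then (1 : ℝ) else 0 := by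
    rw [card_filter]
    push_cast
    rfl
  rw [h2]
  refine (sum_le_sum fun x _ => h1 x).trans (le_of_eq ?_)
  rw [← mul_sum, st9_sum_pow_nu]

/-- Task T9: the sparse event. -/
theorem Pb_Ev0_6 {h : ℝ} (hh : 0 < h) : ∃ δ : ℝ, 0 < δ ∧ ∀ (n : ℕ) (D : Finset (Fin n)) (u : ℕ),
    (u : ℝ) ≤ δ * D.card → Pb (Ev0 D u) ≤ 2 * (2 : ℝ) ^ (-(1 - h) * (D.card : ℝ)) := by
  classical
  have hl2 : 0 < Real.log 2 := Real.log_pos (by norm_num)
  obtain ⟨c, hc⟩ : ∃ c : ℝ, c = h / 2 * Real.log 2 := ⟨_, rfl⟩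
  have hc0 : 0 < c := by rw [hc]; positivity
  obtain ⟨A, hA1, hA2⟩ : ∃ A : ℝ, 2 ≤ A ∧ A⁻¹ ≤ c :=
    ⟨max 2 c⁻¹, le_max_left _ _, inv_le_of_inv_le₀ hc0 (le_max_right _ _)⟩
  have hA0 : 0 < A := by linarith only [hA1]
  have hlA : 0 < Real.log A := Real.log_pos (by linarith only [hA1])
  refine ⟨c / Real.log A, by (clear * - hc0 hlA; positivity), fun n D u hu => ?_⟩
  refine (Pb_Ev0_le D u).trans ?_
  have hd : Fintype.card {i // i ∈ D} = D.card := Fintype.card_coe D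
  have h1 := st9_card_sparse_le (α := {i // i ∈ D}) u (A := A) (by linarith only [hA1])
  rw [hd] at h1
  have h2 : A ^ u ≤ Real.exp (c * D.card) := by
    rw [← Real.log_le_iff_le_exp (by positivity), Real.log_pow]
    calc (u : ℝ) * Real.log A ≤ (c / Real.log A * D.card) * Real.log A :=
          mul_le_mul_of_nonneg_right hu hlA.le
      _ = c * D.card := by field_simp
  have h3 : (1 + A⁻¹) ^ D.card ≤ Real.exp (c * D.card) := by
    have h5 : 1 + A⁻¹ ≤ Real.exp c := by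
      have := Real.add_one_le_exp c
      linarith only [hA2, this]
    calc (1 + A⁻¹) ^ D.card ≤ (Real.exp c) ^ D.card :=
          pow_le_pow_left₀ (by (clear * - hA1; positivity)) h5 _
      _ = Real.exp (c * D.card) := by rw [← Real.exp_nat_mul, mul_comm]
  have h4 : (2 : ℝ) ^ (-(1 - h) * (D.card : ℝ)) =
      Real.exp (c * D.card) * Real.exp (c * D.card) / 2 ^ D.card := by
    rw [eq_div_iff (by positivity), ← Real.rpow_natCast 2 D.card,
      Real.rpow_def_of_pos (by (clear * -; norm_num)), Real.rpow_def_of_pos (by norm_num), ← Real.exp_add,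
      ← Real.exp_add, hc]
    congr 1
    ring
  rw [h4, mul_div_assoc]
  refine mul_le_mul_of_nonneg_left ?_ (by norm_num)
  rw [div_le_div_iff_of_pos_right (by positivity)]
  refine le_trans (le_trans (le_of_eq ?_) h1) (mul_le_mul h2 h3 (by (clear * - hA1; positivity)) (by positivity))
  congr!

end Vale.Agent.P160
end
end

section

section

set_option linter.unusedSectionVars false

namespace Vale.Agent.P160

open Finset

/-- The characters at two levels. -/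
lemma sn1_ee_cast {I n : ℕ} (h : I ≤ n) (y : ZMod (2 ^ n)) :
    ee ((y.cast : ZMod (2 ^ I))) = ee (2 ^ (n - I) * y) := by
  obtain ⟨m, rfl⟩ := ZMod.intCast_surjective y
  have hd : 2 ^ I ∣ 2 ^ n := pow_dvd_pow 2 h
  rw [ZMod.cast_intCast hd]
  have e1 : (2 ^ (n - I) * (m : ZMod (2 ^ n)) : ZMod (2 ^ n)) =
      ((2 ^ (n - I) * m : ℤ) : ZMod (2 ^ n)) := by push_cast; rfl
  rw [e1]
  unfold ee
  rw [ZMod.stdAddChar_coe, ZMod.stdAddChar_coe]
  congr 1
  have e2 : (2 : ℂ) ^ n = 2 ^ (n - I) * 2 ^ I := by rw [← pow_add]; congr 1; omega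
  push_cast
  rw [e2]
  have h3 : (2 : ℂ) ^ (n - I) ≠ 0 := pow_ne_zero _ two_ne_zero
  have h4 : (2 : ℂ) ^ I ≠ 0 := pow_ne_zero _ two_ne_zero
  field_simp

/-- The character of order two. -/
lemma sn1_ee_half (J : ℕ) (s : ZMod (2 ^ (J + 1))) :
    ee (s * 2 ^ J) = if s.val % 2 = 1 then -1 else 1 := by
  have h1 : ee ((2 : ZMod (2 ^ (J + 1))) ^ J) = -1 := by
    have e1 : (2 : ZMod (2 ^ (J + 1))) ^ J = ((2 ^ J : ℤ) : ZMod (2 ^ (J + 1))) := by push_cast; rfl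
    rw [e1]
    unfold ee
    rw [ZMod.stdAddChar_coe]
    have e2 : (2 * (Real.pi : ℂ) * Complex.I * ((2 ^ J : ℤ) : ℂ) / ((2 ^ (J + 1) : ℕ) : ℂ)) =
        Real.pi * Complex.I := by
      push_cast
      have h4 : (2 : ℂ) ^ J ≠ 0 := pow_ne_zero _ two_ne_zero
      rw [pow_succ]
      field_simp
    rw [e2, Complex.exp_pi_mul_I]
  have h2 : s = (s.val : ZMod (2 ^ (J + 1))) := (ZMod.natCast_zmod_val s).symm
  have h3 : ee (s * 2 ^ J) = ee ((s.val : ZMod (2 ^ (J + 1))) * 2 ^ J) := by rw [← h2]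
  rw [h3, ee_natCast_mul, h1]
  split_ifs with h
  · exact Odd.neg_one_pow (Nat.odd_iff.2 h)
  · exact Even.neg_one_pow (Nat.even_iff.2 (by omega))

/-- Vanishing at the lower level. -/
lemma sn1_cast_zero (J : ℕ) (w : ZMod (2 ^ (J + 1))) :
    (w.cast : ZMod (2 ^ J)) = 0 ↔ w = 0 ∨ w + 2 ^ J = 0 := by
  have hd : 2 ^ J ∣ 2 ^ (J + 1) := pow_dvd_pow 2 (by omega)
  have hw : w = (w.val : ZMod (2 ^ (J + 1))) := (ZMod.natCast_zmod_val w).symm
  have hlt : w.val < 2 ^ (J + 1) := ZMod.val_lt w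
  constructor
  · intro h
    rw [hw, ZMod.cast_natCast hd, ZMod.natCast_eq_zero_iff] at h
    obtain ⟨c, hc⟩ := h
    have hc2 : c < 2 := by
      rw [hc, pow_succ] at hlt
      exact Nat.lt_of_mul_lt_mul_left hlt
    interval_cases c
    · left
      rw [hw, hc]; simp
    · right
      rw [hw, hc, mul_one]
      have : ((2 ^ J : ℕ) : ZMod (2 ^ (J + 1))) + 2 ^ J = ((2 ^ (J + 1) : ℕ) : ZMod (2 ^ (J + 1))) := by
        rw [pow_succ]; push_cast; ring
      rw [this, ZMod.natCast_self]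
  · rintro (h | h)
    · rw [h]; exact ZMod.cast_zero
    · have h2 := congrArg (ZMod.castHom hd (ZMod (2 ^ J))) h
      rw [map_add, map_pow, map_zero] at h2
      have h3 : (ZMod.castHom hd (ZMod (2 ^ J)) 2 : ZMod (2 ^ J)) ^ J = 0 := by
        have e : (ZMod.castHom hd (ZMod (2 ^ J)) 2 : ZMod (2 ^ J)) = 2 := map_ofNat _ 2
        rw [e]
        have : ((2 ^ J : ℕ) : ZMod (2 ^ J)) = 0 := ZMod.natCast_self _
        push_cast at this
        exact this
      rw [h3, add_zero] at h2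
      exact h2

/-- The sum over the odd frequencies. -/
lemma sn1_odd_sum (J : ℕ) (w : ZMod (2 ^ (J + 1))) :
    ∑ s ∈ univ.filter (fun s : ZMod (2 ^ (J + 1)) => s.val % 2 = 1), ee (s * w) =
      (if w = 0 then (2 : ℂ) ^ (J + 1) else 0) -
        (if (w.cast : ZMod (2 ^ J)) = 0 then (2 : ℂ) ^ J else 0) := by
  have h1 : ∀ s : ZMod (2 ^ (J + 1)), (if s.val % 2 = 1 then ee (s * w) else 0) =
      (ee (s * w) - ee (s * (w + 2 ^ J))) / 2 := by
    intro s
    have h2 := sn1_ee_half J s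
    rw [mul_add, ee_add, h2]
    split_ifs <;> ring
  rw [sum_filter, sum_congr rfl fun s _ => h1 s, ← sum_div, sum_sub_distrib, sum_ee_mul,
    sum_ee_mul]
  have h3 := sn1_cast_zero J w
  have hne : ¬ (w = 0 ∧ w + 2 ^ J = 0) := by
    rintro ⟨h4, h5⟩
    rw [h4, zero_add] at h5
    have h6 : ((2 ^ J : ℕ) : ZMod (2 ^ (J + 1))) = 0 := by push_cast; exact h5
    rw [ZMod.natCast_eq_zero_iff] at h6
    have := Nat.le_of_dvd (by positivity) h6
    rw [pow_succ] at this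
    have : 0 < 2 ^ J := by positivity
    (clear w h1 h3 h4 h5 this; omega)
  by_cases hw : w = 0
  · have h4 : ¬ w + 2 ^ J = 0 := fun h => hne ⟨hw, h⟩
    rw [if_pos hw, if_neg h4, if_pos hw, if_pos (h3.2 (Or.inl hw))]
    push_cast
    rw [pow_succ]; ring
  · by_cases h5 : w + 2 ^ J = 0
    · rw [if_neg hw, if_pos h5, if_neg hw, if_pos (h3.2 (Or.inr h5))]
      push_cast
      rw [pow_succ]; ring
    · have h6 : ¬ (w.cast : ZMod (2 ^ J)) = 0 := by
        rw [h3]; tauto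
      rw [if_neg hw, if_neg h5, if_neg hw, if_neg h6]
      simp

section steps

variable {α : Type} [Fintype α] [DecidableEq α]

/-- The walk and reductions. -/
lemma sn1_walk_cast {m n : ℕ} (h : m ≤ n) (a : α → Fin 4) (v : α → ZMod (2 ^ n)) :
    ((walk a v).cast : ZMod (2 ^ m)) = walk a (fun i => ((v i).cast : ZMod (2 ^ m))) := by
  have hd : 2 ^ m ∣ 2 ^ n := pow_dvd_pow 2 h
  have := map_sum (ZMod.castHom hd (ZMod (2 ^ m))) (fun i => (st (a i) : ZMod (2 ^ n)) * v i) univ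
  unfold walk
  rw [← ZMod.castHom_apply (h := hd), this]
  refine sum_congr rfl fun i _ => ?_
  rw [map_mul, map_intCast, ZMod.castHom_apply]

lemma sn1_walk_add {N : ℕ} (a : α → Fin 4) (u v : α → ZMod N) :
    walk a (u + v) = walk a u + walk a v := by
  unfold walk
  simp only [Pi.add_apply, mul_add, sum_add_distrib]

lemma sn1_walk_smul {N : ℕ} (a : α → Fin 4) (c : ZMod N) (v : α → ZMod N) :
    walk a (fun i => c * v i) = c * walk a v := by
  unfold walk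
  rw [mul_sum]
  refine sum_congr rfl fun i _ => ?_
  ring

open Classical in
/-- The indicator of the orthogonal complement by characters. -/
lemma sn1_orth {I : ℕ} (K : AddSubgroup (α → ZMod (2 ^ I))) (a : α → Fin 4) :
    ∑ k ∈ univ.filter (fun k => k ∈ K), ee (walk a k) =
      if a ∈ orth I K then ((univ.filter (fun k => k ∈ K)).card : ℂ) else 0 := by
  by_cases ha : a ∈ orth I K
  · rw [if_pos ha]
    have h1 : ∀ k ∈ univ.filter (fun k => k ∈ K), ee (walk a k) = 1 := by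
      intro k hk
      rw [mem_filter] at hk
      have := (mem_filter.1 ha).2 k hk.2
      rw [this, ee_zero]
    rw [sum_congr rfl h1]
    simp only [sum_const, nsmul_eq_mul, mul_one]
  · rw [if_neg ha]
    have h1 : ∃ k0 ∈ K, walk a k0 ≠ 0 := by
      by_contra hcon
      push Not at hcon
      exact ha (mem_filter.2 ⟨mem_univ _, hcon⟩)
    obtain ⟨k0, hk0, hne⟩ := h1
    have h2 : ∑ k ∈ univ.filter (fun k => k ∈ K), ee (walk a (k0 + k)) =
        ∑ k ∈ univ.filter (fun k => k ∈ K), ee (walk a k) := by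
      refine sum_bij (fun k _ => k0 + k) ?_ ?_ ?_ ?_
      · intro k hk
        rw [mem_filter] at hk ⊢
        exact ⟨mem_univ _, K.add_mem hk0 hk.2⟩
      · intro k _ k' _ h
        exact add_left_cancel h
      · intro k hk
        rw [mem_filter] at hk
        refine ⟨k - k0, ?_, by abel⟩
        rw [mem_filter]
        exact ⟨mem_univ _, K.sub_mem hk.2 hk0⟩
      · intro k _
        rfl
    simp only [sn1_walk_add, ee_add] at h2
    rw [← mul_sum] at h2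
    have h3 : ee (walk a k0) ≠ 1 := by
      intro h
      apply hne
      have hinj : Function.Injective (ZMod.stdAddChar (N := 2 ^ I)) := ZMod.injective_stdAddChar
      apply hinj
      rw [AddChar.map_zero_eq_one]
      exact h
    have h4 : (ee (walk a k0) - 1) * ∑ k ∈ univ.filter (fun k => k ∈ K), ee (walk a k) = 0 := by
      rw [sub_mul, h2, one_mul, sub_self]
    rcases mul_eq_zero.1 h4 with h5 | h5
    · exact absurd (sub_eq_zero.1 h5) h3
    · exact h5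

/-- Multiplication by an odd number permutes the subgroup. -/
lemma sn1_odd_perm {I : ℕ} (K : AddSubgroup (α → ZMod (2 ^ I))) (m : ℕ) (hm : m % 2 = 1)
    (F : (α → ZMod (2 ^ I)) → ℂ) [DecidablePred (· ∈ K)] :
    ∑ k ∈ univ.filter (fun k => k ∈ K), F (fun i => (m : ZMod (2 ^ I)) * k i) =
      ∑ k ∈ univ.filter (fun k => k ∈ K), F k := by
  have hcop : Nat.Coprime m (2 ^ I) := by
    apply Nat.Coprime.pow_right
    rw [Nat.coprime_comm, Nat.Prime.coprime_iff_not_dvd Nat.prime_two]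
    (clear * - hm; omega)
  have hu : IsUnit (m : ZMod (2 ^ I)) := (ZMod.isUnit_iff_coprime m (2 ^ I)).2 hcop
  obtain ⟨u, hu⟩ := hu
  have hinj : Function.Injective (fun (k : α → ZMod (2 ^ I)) (i : α) =>
      (m : ZMod (2 ^ I)) * k i) := by
    intro k k' h
    funext i
    have := congrFun h i
    simp only [← hu] at this
    exact (Units.mul_right_inj u).1 this
  have hmem : ∀ k ∈ univ.filter (fun k => k ∈ K),
      (fun i => (m : ZMod (2 ^ I)) * k i) ∈ univ.filter (fun k => k ∈ K) := by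
    intro k hk
    rw [mem_filter] at hk ⊢
    refine ⟨mem_univ _, ?_⟩
    have : (fun i => (m : ZMod (2 ^ I)) * k i) = m • k := by
      funext i
      simp [nsmul_eq_mul]
    rw [this]
    exact K.nsmul_mem hk.2 m
  have himg : (univ.filter (fun k => k ∈ K)).image
      (fun (k : α → ZMod (2 ^ I)) (i : α) => (m : ZMod (2 ^ I)) * k i) =
      univ.filter (fun k => k ∈ K) := by
    apply eq_of_subset_of_card_le
    · intro k hk
      obtain ⟨k', hk', rfl⟩ := mem_image.1 hk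
      exact hmem k' hk'
    · rw [card_image_of_injective _ hinj]
  conv_rhs => rw [← himg]
  rw [sum_image fun a _ b _ h => hinj h]

/-- The sum over all seeds. -/
lemma sn1_all {N : ℕ} [NeZero N] (v : α → ZMod N) (s : ZMod N) :
    ∑ a : α → Fin 4, ee (s * walk a v) =
      (((4 : ℝ) ^ Fintype.card α * ∏ i, cf 4 (ee (s * v i)) : ℝ) : ℂ) := by
  have := sum_prod_zpow_st (M := 4) (by norm_num) (fun i => ee (s * v i)) (fun i => norm_ee _)
  rw [sum_congr rfl fun a _ => ee_walk a v s]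
  exact_mod_cast this

open Classical in
/-- The contribution of an odd frequency. -/
lemma sn1_freq {I n : ℕ} (h : I ≤ n) (K : AddSubgroup (α → ZMod (2 ^ I)))
    (x : α → ZMod (2 ^ n)) (s : ZMod (2 ^ n)) (hs : s.val % 2 = 1) :
    ((univ.filter (fun k => k ∈ K)).card : ℂ) * ∑ a ∈ orth I K, ee (s * walk a x) =
      ∑ k ∈ univ.filter (fun k => k ∈ K), (((4 : ℝ) ^ Fintype.card α *
        ∏ i, cf 4 (ee (s * (x i + 2 ^ (n - I) * ((k i).cast : ZMod (2 ^ n))))) : ℝ) : ℂ) := by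
  have hd : 2 ^ I ∣ 2 ^ n := pow_dvd_pow 2 h
  have h1 : ∀ a : α → Fin 4,
      (if a ∈ orth I K then ((univ.filter (fun k => k ∈ K)).card : ℂ) else 0) =
      ∑ k ∈ univ.filter (fun k => k ∈ K),
        ee (s * walk a (fun i => 2 ^ (n - I) * ((k i).cast : ZMod (2 ^ n)))) := by
    intro a
    rw [← sn1_orth K a, ← sn1_odd_perm K s.val hs (fun k => ee (walk a k))]
    refine sum_congr rfl fun k _ => ?_
    rw [sn1_walk_smul, sn1_walk_smul]
    have e1 : s * (2 ^ (n - I) * walk a (fun i => ((k i).cast : ZMod (2 ^ n)))) =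
        2 ^ (n - I) * (s * walk a (fun i => ((k i).cast : ZMod (2 ^ n)))) := by ring
    rw [e1, ← sn1_ee_cast h]
    congr 1
    have e2 : ((s * walk a (fun i => ((k i).cast : ZMod (2 ^ n)))).cast : ZMod (2 ^ I)) =
        (s.cast : ZMod (2 ^ I)) * ((walk a (fun i => ((k i).cast : ZMod (2 ^ n)))).cast) :=
      map_mul (ZMod.castHom hd (ZMod (2 ^ I))) _ _
    rw [e2, sn1_walk_cast h]
    congr 1
    · have e3 : s = (s.val : ZMod (2 ^ n)) := (ZMod.natCast_zmod_val s).symm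
      conv_rhs => rw [e3]
      rw [ZMod.cast_natCast hd]
    · congr 1
      funext i
      have e4 : ((k i).cast : ZMod (2 ^ n)) = ((k i).val : ZMod (2 ^ n)) :=
        (ZMod.natCast_val (k i)).symm
      rw [e4, ZMod.cast_natCast hd, ZMod.natCast_zmod_val]
  have h2 : ((univ.filter (fun k => k ∈ K)).card : ℂ) * ∑ a ∈ orth I K, ee (s * walk a x) =
      ∑ a : α → Fin 4, (if a ∈ orth I K then ((univ.filter (fun k => k ∈ K)).card : ℂ) else 0) *
        ee (s * walk a x) := by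
    rw [mul_sum]
    simp only [ite_mul, zero_mul]
    rw [← sum_filter]
    congr 1
    ext a
    simp only [subset_univ, filter_mem_eq_of_subset]
  rw [h2]
  simp only [h1, sum_mul]
  rw [sum_comm]
  refine sum_congr rfl fun k _ => ?_
  rw [← sn1_all]
  refine sum_congr rfl fun a _ => ?_
  rw [← ee_add, ← mul_add]
  congr 2
  rw [add_comm, ← sn1_walk_add]
  rfl

/-- Comparison of the characteristic functions and the sum over the odd frequencies. -/
lemma sn1_flat {n : ℕ} {τ : ℝ} (v : α → ZMod (2 ^ n)) (hv : Zf 6 v ≤ 1 + τ) :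
    ∑ s ∈ univ.filter (fun s : ZMod (2 ^ n) => s.val % 2 = 1), ∏ i, cf 4 (ee (s * v i)) ≤ τ := by
  have hcf : ∀ z : ℂ, ‖z‖ = 1 → cf 4 z ≤ cf 6 z := by
    intro z hz
    have h1 : z.re ≤ 1 := by
      have := Complex.abs_re_le_norm z
      rw [hz] at this
      exact (abs_le.mp this).2
    unfold cf
    push_cast
    linarith only [h1]
  have h1 : ∑ s ∈ univ.filter (fun s : ZMod (2 ^ n) => s.val % 2 = 1),
      ∏ i, cf 4 (ee (s * v i)) ≤
      ∑ s ∈ univ.filter (fun s : ZMod (2 ^ n) => s.val % 2 = 1), ∏ i, cf 6 (ee (s * v i)) := by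
    refine sum_le_sum fun s _ => prod_le_prod (fun i _ => cf_nonneg (by norm_num) (norm_ee _))
      (fun i _ => hcf _ (norm_ee _))
  have h2 : ∑ s ∈ univ.filter (fun s : ZMod (2 ^ n) => s.val % 2 = 1),
      ∏ i, cf 6 (ee (s * v i)) ≤
      ∑ s ∈ univ.filter (fun s : ZMod (2 ^ n) => s ≠ 0), ∏ i, cf 6 (ee (s * v i)) := by
    refine sum_le_sum_of_subset_of_nonneg ?_ ?_
    · intro s hs
      rw [mem_filter] at hs ⊢
      refine ⟨mem_univ _, ?_⟩
      rintro rfl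
      have := hs.2
      rw [ZMod.val_zero] at this
      (clear * - this; omega)
    · intro s _ _
      exact prod_nonneg fun i _ => cf_nonneg (by norm_num) (norm_ee _)
  have h3 : ∑ s ∈ univ.filter (fun s : ZMod (2 ^ n) => s ≠ 0), ∏ i, cf 6 (ee (s * v i)) =
      Zf 6 v - 1 := by
    rw [Zf_eq (by norm_num), filter_ne', ← add_sum_erase univ _ (mem_univ (0 : ZMod (2 ^ n)))]
    have : ∏ i, cf 6 (ee ((0 : ZMod (2 ^ n)) * v i)) = 1 := by
      refine prod_eq_one fun i _ => ?_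
      rw [zero_mul, ee_zero]
      unfold cf
      norm_num
    rw [this]
    ring
  linarith only [hv, h1, h2, h3]

open Classical in
/-- One level. -/
lemma sn1_step {I J : ℕ} (h : I ≤ J) {τ : ℝ} (x : α → ZMod (2 ^ (J + 1)))
    (K : AddSubgroup (α → ZMod (2 ^ I)))
    (hx : ∀ k : α → ZMod (2 ^ (J + 1)), Zf 6 (fun i => x i + 2 ^ (J + 1 - I) * k i) ≤ 1 + τ) :
    (((orth I K).filter (fun a => walk a x = 0)).card : ℝ) * 2 ^ (J + 1) ≤
      (((orth I K).filter (fun a =>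
        walk a (fun i => ((x i).cast : ZMod (2 ^ J))) = 0)).card : ℝ) * 2 ^ J +
        τ * 4 ^ Fintype.card α := by
  set KK := univ.filter (fun k => k ∈ K) with hKK
  have hKpos : 0 < KK.card := card_pos.2 ⟨0, by rw [hKK, mem_filter]; exact ⟨mem_univ _, K.zero_mem⟩⟩
  set A := ((orth I K).filter (fun a => walk a x = 0)).card with hA
  set B := ((orth I K).filter (fun a =>
        walk a (fun i => ((x i).cast : ZMod (2 ^ J))) = 0)).card with hB
  have h1 : ∑ s ∈ univ.filter (fun s : ZMod (2 ^ (J + 1)) => s.val % 2 = 1),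
      ∑ a ∈ orth I K, ee (s * walk a x) = (A : ℂ) * 2 ^ (J + 1) - (B : ℂ) * 2 ^ J := by
    rw [sum_comm, sum_congr rfl fun a _ => sn1_odd_sum J (walk a x), sum_sub_distrib,
      ← sum_filter, ← sum_filter, sum_const, sum_const, nsmul_eq_mul, nsmul_eq_mul]
    simp only [sn1_walk_cast (show J ≤ J + 1 by omega)]
    rfl
  have h2 : (KK.card : ℂ) * ((A : ℂ) * 2 ^ (J + 1) - (B : ℂ) * 2 ^ J) =
      ((∑ k ∈ KK, (4 : ℝ) ^ Fintype.card α *
        ∑ s ∈ univ.filter (fun s : ZMod (2 ^ (J + 1)) => s.val % 2 = 1),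
          ∏ i, cf 4 (ee (s * (x i + 2 ^ (J + 1 - I) * ((k i).cast : ZMod (2 ^ (J + 1)))))) : ℝ) :
            ℂ) := by
    rw [← h1, mul_sum, sum_congr rfl fun s hs =>
      sn1_freq (show I ≤ J + 1 by omega) K x s (mem_filter.1 hs).2]
    rw [sum_comm, Complex.ofReal_sum]
    refine sum_congr rfl fun k _ => ?_
    rw [mul_sum, Complex.ofReal_sum]
  have h3 : (KK.card : ℝ) * ((A : ℝ) * 2 ^ (J + 1) - (B : ℝ) * 2 ^ J) =
      ∑ k ∈ KK, (4 : ℝ) ^ Fintype.card α *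
        ∑ s ∈ univ.filter (fun s : ZMod (2 ^ (J + 1)) => s.val % 2 = 1),
          ∏ i, cf 4 (ee (s * (x i + 2 ^ (J + 1 - I) * ((k i).cast : ZMod (2 ^ (J + 1)))))) := by
    exact_mod_cast h2
  have h4 : (KK.card : ℝ) * ((A : ℝ) * 2 ^ (J + 1) - (B : ℝ) * 2 ^ J) ≤
      KK.card * (4 ^ Fintype.card α * τ) := by
    rw [h3, ← nsmul_eq_mul, ← sum_const]
    refine sum_le_sum fun k _ => ?_
    refine mul_le_mul_of_nonneg_left ?_ (by positivity)
    exact sn1_flat (fun i => x i + 2 ^ (J + 1 - I) *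
      ((k i).cast : ZMod (2 ^ (J + 1)))) (hx _)
  have h5 := le_of_mul_le_mul_left h4 (by exact_mod_cast hKpos)
  linarith only [h5]

end steps

open Classical in
/-- Task N1: the row bound. -/
theorem row_bound {α : Type} [Fintype α] [DecidableEq α] {I J : ℕ} (hI : 1 ≤ I) (hIJ : I ≤ J)
    {τ : ℝ} (hτ : 0 ≤ τ) (x : α → ZMod (2 ^ J)) (hx : GoodX I τ x)
    (K : AddSubgroup (α → ZMod (2 ^ I))) (hK : (fun i => ((x i).cast : ZMod (2 ^ I))) ∈ K) :
    (((orth I K).filter (fun a => walk a x = 0)).card : ℝ) * 2 ^ J ≤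
      2 ^ I * (orth I K).card + J * τ * 4 ^ Fintype.card α := by
  induction J, hIJ using Nat.le_induction with
  | base =>
    have h1 : (((orth I K).filter (fun a => walk a x = 0)).card : ℝ) ≤ (orth I K).card := by
      exact_mod_cast card_filter_le _ _
    have h2 : 0 ≤ I * τ * 4 ^ Fintype.card α := by positivity
    have h3 : (0 : ℝ) < 2 ^ I := by positivity
    nlinarith
  | succ J hJ ih =>
    have hcc : ∀ j, j ≤ J → ∀ i, ((((x i).cast : ZMod (2 ^ J))).cast : ZMod (2 ^ j)) =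
        ((x i).cast : ZMod (2 ^ j)) := by
      intro j hj i
      have e3 : x i = ((x i).val : ZMod (2 ^ (J + 1))) := (ZMod.natCast_zmod_val _).symm
      rw [e3, ZMod.cast_natCast (pow_dvd_pow 2 (by omega)),
        ZMod.cast_natCast (pow_dvd_pow 2 hj), ZMod.cast_natCast (pow_dvd_pow 2 (by omega))]
    have h1 := ih (fun i => ((x i).cast : ZMod (2 ^ J))) (by
      intro j hj hj2 k
      have := hx j hj (by omega) k
      simp only [hcc j hj2]
      exact this) (by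
      simp only [hcc I hJ]
      exact hK)
    have h2 := sn1_step hJ x K (τ := τ) (by
      intro k
      have := hx (J + 1) (by omega) le_rfl k
      simpa only [ZMod.cast_id] using this)
    push_cast
    (clear * - h1 h2; linarith)

end Vale.Agent.P160
end
end

section

section

namespace Vale.Agent.P160

open Finset

/-- one factor: a small additive error costs at most a factor 2 -/
theorem sn7_pow {b : ℕ} {z τ p : ℝ} (hz : 0 < z) (hτ : 0 ≤ τ) (hb : (b : ℝ) * (τ / z) ≤ Real.log 2)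
    (hp0 : 0 ≤ p) (hp : p ≤ z + τ) : p ^ b ≤ 2 * z ^ b := by
  have h1 : z + τ = z * (1 + τ / z) := by field_simp
  have h2 : 0 ≤ τ / z := div_nonneg hτ hz.le
  have h3 : 1 + τ / z ≤ Real.exp (τ / z) := by
    have := Real.add_one_le_exp (τ / z); linarith only [this]
  calc p ^ b ≤ (z + τ) ^ b := pow_le_pow_left₀ hp0 hp b
    _ = z ^ b * (1 + τ / z) ^ b := by rw [h1, mul_pow]
    _ ≤ z ^ b * (Real.exp (τ / z)) ^ b := by gcongr
    _ = z ^ b * Real.exp (b * (τ / z)) := by rw [← Real.exp_nat_mul]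
    _ ≤ z ^ b * 2 := by
        gcongr
        calc Real.exp (b * (τ / z)) ≤ Real.exp (Real.log 2) := Real.exp_le_exp.mpr hb
          _ = 2 := Real.exp_log (by norm_num)
    _ = 2 * z ^ b := by ring

/-- the rounded quotient -/
def sn7_rho (I A : ℕ) : ℕ := (A + I - 1) / I

theorem sn7_rho_ge {I : ℕ} (hI : 1 ≤ I) (A : ℕ) : A ≤ I * sn7_rho I A := by
  have h := Nat.lt_mul_div_succ (A + I - 1) (show 0 < I by omega)
  unfold sn7_rho
  rw [mul_add, mul_one] at h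
  omega

theorem sn7_rho_le {I : ℕ} (hI : 1 ≤ I) {A ρ : ℕ} (h : A ≤ I * ρ) : sn7_rho I A ≤ ρ := by
  unfold sn7_rho
  rw [← Nat.lt_succ_iff, Nat.div_lt_iff_lt_mul (by omega)]
  have : (ρ.succ) * I = I * ρ + I := by rw [Nat.succ_mul, mul_comm]
  omega

theorem sn7_rho_le_self {I : ℕ} (hI : 1 ≤ I) (A : ℕ) : sn7_rho I A ≤ A :=
  sn7_rho_le hI (by nlinarith)

/-- the row probability of a kernel -/
theorem sn7_p {α : Type} [Fintype α] [DecidableEq α] {I : ℕ} (hI : 1 ≤ I) {q : ℝ} (hq0 : 0 < q)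
    {w Λ A : ℕ} {K : AddSubgroup (α → ZMod (2 ^ I))}
    (horth : ((orth I K).card : ℝ) * Nat.card K ≤
      Nat.card (spars I w K) * (orth I (spars I w K)).card +
      Nat.card K * q ^ w * 4 ^ Fintype.card α)
    (hK : Nat.card K = 2 ^ (I + Λ)) (hA : Nat.card (spars I w K) = 2 ^ A) :
    2 ^ I * ((orth I K).card / 4 ^ Fintype.card α : ℝ) ≤
      (2 : ℝ) ^ ((A : ℝ) - Λ - sn7_rho I A) + 2 ^ I * q ^ w := by
  obtain ⟨ρ, hρ⟩ := exists_tors_pow (spars I w K)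
  have h1 := orth_tors I hI (spars I w K)
  have h2 := card_le_tors (spars I w K)
  rw [hA, hρ, ← pow_mul] at h2
  have h3 : A ≤ I * ρ := by
    have := (Nat.pow_le_pow_iff_right (show 1 < 2 by norm_num)).mp h2
    rwa [mul_comm] at this
  have h4 := sn7_rho_le hI h3
  rw [hρ] at h1
  have h1R : ((orth I (spars I w K)).card : ℝ) * 2 ^ ρ ≤ 4 ^ Fintype.card α := by
    exact_mod_cast h1
  rw [hK, hA] at horth
  push_cast at horth
  set D : ℝ := 4 ^ Fintype.card α with hD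
  have hDpos : 0 < D := by positivity
  set r := sn7_rho I A with hr
  have e1 : (2 : ℝ) ^ ((A : ℝ) - Λ - r) = 2 ^ A / (2 ^ Λ * 2 ^ r) := by
    rw [Real.rpow_sub (by norm_num), Real.rpow_sub (by norm_num), Real.rpow_natCast,
      Real.rpow_natCast, Real.rpow_natCast, div_div]
  rw [e1]
  have h5 : (2 : ℝ) ^ r ≤ 2 ^ ρ := pow_le_pow_right₀ (by norm_num) h4
  have h6 : ((orth I (spars I w K)).card : ℝ) * 2 ^ r ≤ D :=
    le_trans (mul_le_mul_of_nonneg_left h5 (Nat.cast_nonneg _)) h1R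
  have h7 : ((orth I K).card : ℝ) / D ≤ 2 ^ A / (2 ^ (I + Λ) * 2 ^ r) + q ^ w := by
    rw [div_le_iff₀ hDpos]
    have p1 : (0 : ℝ) < 2 ^ (I + Λ) := by positivity
    have p2 : (0 : ℝ) < 2 ^ r := by positivity
    have h8 : ((orth I K).card : ℝ) ≤
        (2 ^ A * (orth I (spars I w K)).card + 2 ^ (I + Λ) * q ^ w * D) / 2 ^ (I + Λ) := by
      rw [le_div_iff₀ p1]; exact horth
    refine h8.trans ?_
    have h9 : ((orth I (spars I w K)).card : ℝ) ≤ D / 2 ^ r := by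
      rw [le_div_iff₀ p2]; exact h6
    calc (2 ^ A * ((orth I (spars I w K)).card : ℝ) + 2 ^ (I + Λ) * q ^ w * D) / 2 ^ (I + Λ)
        ≤ (2 ^ A * (D / 2 ^ r) + 2 ^ (I + Λ) * q ^ w * D) / 2 ^ (I + Λ) := by (clear * - h9; gcongr)
      _ = (2 ^ A / (2 ^ (I + Λ) * 2 ^ r) + q ^ w) * D := by field_simp
  calc 2 ^ I * (((orth I K).card : ℝ) / D)
      ≤ 2 ^ I * (2 ^ A / (2 ^ (I + Λ) * 2 ^ r) + q ^ w) := by (clear * - h7; gcongr)
    _ = 2 ^ A / (2 ^ Λ * 2 ^ r) + 2 ^ I * q ^ w := by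
        rw [pow_add]; field_simp

/-- the exponents of the final sum -/
theorem sn7_G {d b I Λ A : ℕ} (hI : 1 ≤ I) (hd : 1 ≤ d) (hdb : d ≤ b) (hA : 1 ≤ A) :
    (2 : ℝ) ^ (-((Λ - A : ℕ) : ℝ) * ((b : ℝ) - d) / 2 - (sn7_rho I A : ℝ) * d / 8) ≤
      ((2 : ℝ) ^ (-((b : ℝ) - d) * Λ / 4) + (2 : ℝ) ^ (-(d : ℝ) * Λ / (32 * I))) *
        (2 : ℝ) ^ (-(d : ℝ) / (16 * I)) := by
  have hIR : (1 : ℝ) ≤ I := by exact_mod_cast hI
  have hI0 : (0 : ℝ) < I := by linarith only [hIR]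
  have hdR : (1 : ℝ) ≤ d := by exact_mod_cast hd
  have hbd : (0 : ℝ) ≤ (b : ℝ) - d := by
    have : (d : ℝ) ≤ b := by exact_mod_cast hdb
    linarith only [this]
  have hAR : (1 : ℝ) ≤ A := by exact_mod_cast hA
  have hρ : (A : ℝ) / I ≤ sn7_rho I A := by
    rw [div_le_iff₀ hI0]
    have := sn7_rho_ge hI A
    have h2 : (A : ℝ) ≤ (I : ℝ) * sn7_rho I A := by exact_mod_cast this
    linarith only [h2]
  have hsub : (0 : ℝ) ≤ ((Λ - A : ℕ) : ℝ) := Nat.cast_nonneg _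
  have hAd : (A : ℝ) * d / (8 * I) ≤ (sn7_rho I A : ℝ) * d / 8 := by
    have := mul_le_mul_of_nonneg_right hρ (show (0 : ℝ) ≤ d / 8 by positivity)
    calc (A : ℝ) * d / (8 * I) = (A : ℝ) / I * (d / 8) := by field_simp
      _ ≤ _ := this
      _ = _ := by ring
  by_cases hc : 2 * A ≤ Λ
  · have h1 : (Λ : ℝ) / 2 ≤ ((Λ - A : ℕ) : ℝ) := by
      rw [Nat.cast_sub (by (clear * - hA hc; omega))]
      have : 2 * (A : ℝ) ≤ Λ := by exact_mod_cast hc
      linarith only [this]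
    have h2 : -((Λ - A : ℕ) : ℝ) * ((b : ℝ) - d) / 2 - (sn7_rho I A : ℝ) * d / 8 ≤
        -((b : ℝ) - d) * Λ / 4 + -(d : ℝ) / (16 * I) := by
      have h3 := mul_le_mul_of_nonneg_right h1 hbd
      have h4 : (d : ℝ) / (16 * I) ≤ (A : ℝ) * d / (8 * I) := by
        rw [div_le_div_iff₀ (by positivity) (by positivity)]
        have : (d : ℝ) * I ≤ A * (d * I) := by
          have := mul_le_mul_of_nonneg_right hAR (show (0 : ℝ) ≤ d * I by positivity)
          linarith only [this]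
        nlinarith only [this]
      have e : -(d : ℝ) / (16 * I) = -((d : ℝ) / (16 * I)) := by ring
      rw [e]
      linarith
    calc _ ≤ (2 : ℝ) ^ (-((b : ℝ) - d) * Λ / 4 + -(d : ℝ) / (16 * I)) :=
          Real.rpow_le_rpow_of_exponent_le (by norm_num) h2
      _ = (2 : ℝ) ^ (-((b : ℝ) - d) * Λ / 4) * (2 : ℝ) ^ (-(d : ℝ) / (16 * I)) :=
          Real.rpow_add (by norm_num) _ _
      _ ≤ _ := by
          gcongr
          have : (0 : ℝ) < (2 : ℝ) ^ (-(d : ℝ) * Λ / (32 * I)) := Real.rpow_pos_of_pos (by norm_num) _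
          linarith only [this]
  · push Not at hc
    have h1 : (Λ : ℝ) ≤ 2 * A := by exact_mod_cast hc.le
    have h2 : -((Λ - A : ℕ) : ℝ) * ((b : ℝ) - d) / 2 - (sn7_rho I A : ℝ) * d / 8 ≤
        -(d : ℝ) * Λ / (32 * I) + -(d : ℝ) / (16 * I) := by
      have h3 : 0 ≤ ((Λ - A : ℕ) : ℝ) * ((b : ℝ) - d) := mul_nonneg hsub hbd
      have h4 : (d : ℝ) / (16 * I) + (d : ℝ) * Λ / (32 * I) ≤ (A : ℝ) * d / (8 * I) := by
        have e : (d : ℝ) / (16 * I) + (d : ℝ) * Λ / (32 * I) =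
            (d / (32 * I)) * (2 + Λ) := by field_simp; ring
        have e2 : (A : ℝ) * d / (8 * I) = (d / (32 * I)) * (4 * A) := by field_simp; ring
        rw [e, e2]
        apply mul_le_mul_of_nonneg_left _ (by positivity)
        linarith only [hAR, h1]
      have e : -(d : ℝ) / (16 * I) = -((d : ℝ) / (16 * I)) := by ring
      have e' : -(d : ℝ) * Λ / (32 * I) = -((d : ℝ) * Λ / (32 * I)) := by ring
      rw [e, e']
      linarith only [hAd, h3, h4]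
    calc _ ≤ (2 : ℝ) ^ (-(d : ℝ) * Λ / (32 * I) + -(d : ℝ) / (16 * I)) :=
          Real.rpow_le_rpow_of_exponent_le (by norm_num) h2
      _ = (2 : ℝ) ^ (-(d : ℝ) * Λ / (32 * I)) * (2 : ℝ) ^ (-(d : ℝ) / (16 * I)) :=
          Real.rpow_add (by norm_num) _ _
      _ ≤ _ := by
          gcongr
          have : (0 : ℝ) < (2 : ℝ) ^ (-((b : ℝ) - d) * Λ / 4) := Real.rpow_pos_of_pos (by norm_num) _
          linarith only [this]

theorem sn7_ev1 {c' Q : ℝ} (hc : 0 < c') :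
    ∀ᶠ n : ℕ in Filter.atTop, 4 * (n : ℝ) * Q * Real.exp (-(c' / 2) * n) ≤ Real.log 2 := by
  have hr : |Real.exp (-(c' / 2))| < 1 := by
    rw [abs_of_pos (Real.exp_pos _), Real.exp_lt_one_iff]; linarith only [hc]
  have h1 := tendsto_pow_const_mul_const_pow_of_abs_lt_one 1 hr
  have h2 := h1.const_mul (4 * Q)
  rw [mul_zero] at h2
  have h3 := h2.eventually (ge_mem_nhds (show (0 : ℝ) < Real.log 2 by positivity))
  filter_upwards [h3] with n hn
  have e : Real.exp (-(c' / 2) * n) = Real.exp (-(c' / 2)) ^ n := by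
    rw [← Real.exp_nat_mul]; congr 1; ring
  rw [e]
  calc 4 * (n : ℝ) * Q * Real.exp (-(c' / 2)) ^ n
      = 4 * Q * ((n : ℝ) ^ 1 * Real.exp (-(c' / 2)) ^ n) := by ring
    _ ≤ Real.log 2 := hn

theorem sn7_ev2 {I : ℕ} (hI : 1 ≤ I) :
    ∀ᶠ n : ℕ in Filter.atTop, ((n : ℝ) + I) * (2 : ℝ) ^ (-(n : ℝ) / (16 * I)) ≤ 1 / 4 := by
  have hIR : (1 : ℝ) ≤ I := by exact_mod_cast hI
  set r : ℝ := (2 : ℝ) ^ (-(1 : ℝ) / (16 * I)) with hr
  have hr0 : 0 < r := Real.rpow_pos_of_pos (by norm_num) _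
  have hr1 : |r| < 1 := by
    rw [abs_of_pos hr0]
    apply Real.rpow_lt_one_of_one_lt_of_neg (by norm_num)
    apply div_neg_of_neg_of_pos (by norm_num) (by positivity)
  have h1 := tendsto_pow_const_mul_const_pow_of_abs_lt_one 1 hr1
  have h2 := (tendsto_pow_const_mul_const_pow_of_abs_lt_one 0 hr1).const_mul (I : ℝ)
  have h3 := h1.add h2
  rw [mul_zero, add_zero] at h3
  have h4 := h3.eventually (ge_mem_nhds (show (0 : ℝ) < 1 / 4 by norm_num))
  filter_upwards [h4] with n hn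
  have e : (2 : ℝ) ^ (-(n : ℝ) / (16 * I)) = r ^ n := by
    rw [hr, ← Real.rpow_natCast, ← Real.rpow_mul (by norm_num)]
    congr 1
    ring
  rw [e]
  calc ((n : ℝ) + I) * r ^ n = (n : ℝ) ^ 1 * r ^ n + I * ((n : ℝ) ^ 0 * r ^ n) := by ring
    _ ≤ 1 / 4 := hn

/-- the contribution of the kernels with sparse part of size `2 ^ A` -/
theorem sn7_class {α : Type} [Fintype α] [DecidableEq α] {I : ℕ} (hI : 1 ≤ I) {δ ω : ℝ}
    (hω : 0 < ω) (hωδ : ω * (60 * (I : ℝ) ^ 2) ≤ δ) {w b B J Λ A N E : ℕ}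
    (hw : (w : ℝ) ≤ ω * Fintype.card α) (hd : 72 * I ≤ Fintype.card α)
    (hdb : Fintype.card α ≤ b) (hb4 : b ≤ 4 * Fintype.card α)
    (hJ : 3 * J ≤ 2 * Fintype.card α) (hB : 2 * B + Fintype.card α ≤ b) (hBI : B * I ≤ J + 3 * I)
    (xb : α → ZMod (2 ^ I)) (hxb : δ * Fintype.card α ≤ nu xb)
    (hE : (E : ℝ) ≤ (2 : ℝ) ^ ((1 / (24 * (I : ℝ))) * Fintype.card α))
    (h1 : A ≤ Λ + I ∧ N ≤ E ^ A * 2 ^ (Fintype.card α * (Λ + I - A)))
    (h2 : A * w < nu xb → A ≤ Λ ∧ N ≤ E ^ A * 2 ^ (Fintype.card α * (Λ - A))) :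
    (N : ℝ) * ((2 : ℝ) ^ ((A : ℝ) - Λ - sn7_rho I A)) ^ b * ((2 : ℝ) ^ (I + Λ)) ^ B ≤
      ((2 : ℝ) ^ I) ^ B * (2 : ℝ) ^ (-((Λ - A : ℕ) : ℝ) * ((b : ℝ) - Fintype.card α) / 2 -
        (sn7_rho I A : ℝ) * Fintype.card α / 8) := by
  have hI0 : (0 : ℝ) < I := by exact_mod_cast (show 0 < I by omega)
  have hd0 : (0 : ℝ) < Fintype.card α := by exact_mod_cast (show 0 < Fintype.card α by omega)
  have eb : ((2 : ℝ) ^ ((A : ℝ) - Λ - sn7_rho I A)) ^ b =
      (2 : ℝ) ^ (((A : ℝ) - Λ - sn7_rho I A) * b) := by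
    rw [← Real.rpow_natCast, ← Real.rpow_mul (by norm_num)]
  have eB : ((2 : ℝ) ^ (I + Λ)) ^ B = (2 : ℝ) ^ (((I : ℝ) + Λ) * B) := by
    rw [Real.rpow_mul (by norm_num), Real.rpow_natCast]
    congr 1
    rw [← Real.rpow_natCast]; push_cast; rfl
  have eI : ((2 : ℝ) ^ I) ^ B = (2 : ℝ) ^ ((I : ℝ) * B) := by
    rw [Real.rpow_mul (by norm_num), Real.rpow_natCast, Real.rpow_natCast]
  rw [eb, eB, eI]
  by_cases hc : A * w < nu xb
  · obtain ⟨hA, hN⟩ := h2 hc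
    have hNR : (N : ℝ) ≤ (E : ℝ) ^ A * (2 : ℝ) ^ ((Fintype.card α : ℝ) * ((Λ : ℝ) - A)) := by
      have h3 : (N : ℝ) ≤ (E : ℝ) ^ A * (2 : ℝ) ^ (Fintype.card α * (Λ - A)) := by
        exact_mod_cast hN
      have e : (2 : ℝ) ^ ((Fintype.card α : ℝ) * ((Λ : ℝ) - A)) =
          (2 : ℝ) ^ (Fintype.card α * (Λ - A)) := by
        rw [← Real.rpow_natCast]; congr 1
        push_cast [Nat.cast_sub hA]; ring
      rw [e]; exact h3
    have main := term_bound1 (Λ := Λ) hI hd hdb hJ hB hBI (sn7_rho_ge hI A)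
      (sn7_rho_le_self hI A) hA (Nat.cast_nonneg E) hE
    refine le_trans ?_ main
    (clear * - hNR; gcongr)
  · push Not at hc
    obtain ⟨hA, hN⟩ := h1
    have hNR : (N : ℝ) ≤ (E : ℝ) ^ A * (2 : ℝ) ^ ((Fintype.card α : ℝ) * ((Λ : ℝ) + I - A)) := by
      have h3 : (N : ℝ) ≤ (E : ℝ) ^ A * (2 : ℝ) ^ (Fintype.card α * (Λ + I - A)) := by
        exact_mod_cast hN
      have e : (2 : ℝ) ^ ((Fintype.card α : ℝ) * ((Λ : ℝ) + I - A)) =
          (2 : ℝ) ^ (Fintype.card α * (Λ + I - A)) := by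
        rw [← Real.rpow_natCast]; congr 1
        push_cast [Nat.cast_sub hA]; ring
      rw [e]; exact h3
    have hA60 : 60 * (I : ℝ) ^ 2 ≤ A := by
      have h3 : (nu xb : ℝ) ≤ A * w := by exact_mod_cast hc
      have h4 : (A : ℝ) * w ≤ A * (ω * Fintype.card α) := by (clear * - hw; gcongr)
      have h5 : δ * Fintype.card α ≤ A * (ω * Fintype.card α) := by linarith only [hxb, h3, h4]
      have h6 : δ ≤ A * ω := by
        have : δ * Fintype.card α ≤ (A * ω) * Fintype.card α := by linarith only [hxb, h3, h4]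
        exact le_of_mul_le_mul_right this hd0
      have h7 : ω * (60 * (I : ℝ) ^ 2) ≤ ω * A := by linarith only [hωδ, h6]
      exact le_of_mul_le_mul_left h7 hω
    have hρI : 60 * I ≤ sn7_rho I A := by
      have h3 := sn7_rho_ge hI A
      have h4 : 60 * I ^ 2 ≤ A := by exact_mod_cast hA60
      have h5 : I * (60 * I) ≤ I * sn7_rho I A := by
        calc I * (60 * I) = 60 * I ^ 2 := by ring
          _ ≤ A := h4
          _ ≤ _ := h3
      exact Nat.le_of_mul_le_mul_left h5 (by omega)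
    have main := term_bound2 (Λ := Λ) hI hd hdb hb4 hJ hB hBI (sn7_rho_ge hI A)
      (sn7_rho_le_self hI A) hA hρI (Nat.cast_nonneg E) hE
    refine le_trans ?_ main
    (clear * - hNR; gcongr)

/-- the final sum over `A` -/
theorem sn7_final {d b I Λ : ℕ} (hI : 1 ≤ I) (hd1 : 1 ≤ d) (hdb : d ≤ b) {T : ℝ} (hT0 : 0 < T)
    (hΛ1 : (Λ : ℝ) ≤ d) (g2 : ((d : ℝ) + I) * (2 : ℝ) ^ (-(d : ℝ) / (16 * I)) ≤ 1 / 4) :
    ∑ A ∈ range (Λ + I + 1), 2 * (T * (2 : ℝ) ^ (-((Λ - A : ℕ) : ℝ) * ((b : ℝ) - d) / 2 -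
        (sn7_rho I A : ℝ) * d / 8)) ≤
      3 * T * ((2 : ℝ) ^ (-((b : ℝ) - d) * Λ / 4) + (2 : ℝ) ^ (-(d : ℝ) * Λ / (32 * I))) := by
  obtain ⟨X, hX⟩ : ∃ X : ℝ, X = (2 : ℝ) ^ (-((b : ℝ) - d) * Λ / 4) := ⟨_, rfl⟩
  obtain ⟨Y, hY⟩ : ∃ Y : ℝ, Y = (2 : ℝ) ^ (-(d : ℝ) * Λ / (32 * I)) := ⟨_, rfl⟩
  obtain ⟨R, hR⟩ : ∃ R : ℝ, R = (2 : ℝ) ^ (-(d : ℝ) / (16 * I)) := ⟨_, rfl⟩
  have hX0 : 0 < X := by rw [hX]; exact Real.rpow_pos_of_pos (by norm_num) _
  have hY0 : 0 < Y := by rw [hY]; exact Real.rpow_pos_of_pos (by norm_num) _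
  have hR0 : 0 < R := by rw [hR]; exact Real.rpow_pos_of_pos (by norm_num) _
  rw [sum_range_succ']
  have hzero : 2 * (T * (2 : ℝ) ^ (-((Λ - 0 : ℕ) : ℝ) * ((b : ℝ) - d) / 2 -
      (sn7_rho I 0 : ℝ) * d / 8)) ≤ 2 * (T * X) := by
    have hbd : (0 : ℝ) ≤ (b : ℝ) - d := by
      have : (d : ℝ) ≤ b := by exact_mod_cast hdb
      linarith only [this]
    have h1 : (0 : ℝ) ≤ (sn7_rho I 0 : ℝ) * d / 8 := by (clear * - hd1; positivity)
    have h2 : (0 : ℝ) ≤ ((b : ℝ) - d) * Λ := by (clear * - hbd; positivity)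
    have h3 : -((Λ - 0 : ℕ) : ℝ) * ((b : ℝ) - d) / 2 - (sn7_rho I 0 : ℝ) * d / 8 ≤
        -((b : ℝ) - d) * Λ / 4 := by
      rw [Nat.sub_zero]
      linarith only [h1, h2]
    rw [hX]
    have := Real.rpow_le_rpow_of_exponent_le (show (1 : ℝ) ≤ 2 by norm_num) h3
    (clear * - this hT0; gcongr)
  have hsucc : ∑ A ∈ range (Λ + I), 2 * (T * (2 : ℝ) ^ (-((Λ - (A + 1) : ℕ) : ℝ) *
      ((b : ℝ) - d) / 2 - (sn7_rho I (A + 1) : ℝ) * d / 8)) ≤ (T * (X + Y)) / 2 := by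
    have h1 : ∀ A ∈ range (Λ + I), 2 * (T * (2 : ℝ) ^ (-((Λ - (A + 1) : ℕ) : ℝ) *
        ((b : ℝ) - d) / 2 - (sn7_rho I (A + 1) : ℝ) * d / 8)) ≤ 2 * (T * ((X + Y) * R)) := by
      intro A _
      have := sn7_G (Λ := Λ) (A := A + 1) hI hd1 hdb (by (clear * -; omega))
      rw [← hX, ← hY, ← hR] at this
      (clear * - this hT0; gcongr)
    refine (sum_le_card_nsmul _ _ _ h1).trans ?_
    rw [nsmul_eq_mul, card_range]
    have h2 : ((Λ + I : ℕ) : ℝ) * R ≤ 1 / 4 := by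
      refine le_trans ?_ g2
      rw [← hR]
      push_cast
      (clear * - hΛ1 hR0; gcongr)
    calc ((Λ + I : ℕ) : ℝ) * (2 * (T * ((X + Y) * R)))
        = 2 * (T * (X + Y)) * (((Λ + I : ℕ) : ℝ) * R) := by ring
      _ ≤ 2 * (T * (X + Y)) * (1 / 4) := by
          apply mul_le_mul_of_nonneg_left h2 (by positivity)
      _ = (T * (X + Y)) / 2 := by ring
  rw [← hX, ← hY]
  have hTX : 0 < T * X := by (clear * - hT0 hX0; positivity)
  have hTY : 0 < T * Y := by positivity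
  calc _ ≤ (T * (X + Y)) / 2 + 2 * (T * X) := add_le_add hsucc hzero
    _ ≤ 3 * T * (X + Y) := by nlinarith only [hTX, hTY]

/-- the error term -/
theorem sn7_err {d w I : ℕ} {q ω L0 c c' : ℝ} (hqe : q = Real.exp (-L0)) (hL0 : 0 < L0)
    (hw2 : ω * d - 1 ≤ w) (hc'1 : c' ≤ c) (hc'2 : c' ≤ ω * L0) :
    2 ^ I * q ^ w + Real.exp (-c * d) ≤ (2 ^ I / q + 1) * Real.exp (-c' * d) := by
  have hd : (0 : ℝ) ≤ d := Nat.cast_nonneg d
  have e1 : q ^ w ≤ 1 / q * Real.exp (-c' * d) := by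
    rw [hqe, ← Real.exp_nat_mul, one_div, ← Real.exp_neg, ← Real.exp_add]
    apply Real.exp_le_exp.mpr
    have h1 : (ω * d - 1) * L0 ≤ w * L0 := mul_le_mul_of_nonneg_right hw2 hL0.le
    have h2 : c' * d ≤ ω * L0 * d := mul_le_mul_of_nonneg_right hc'2 hd
    linarith
  have e2 : Real.exp (-c * d) ≤ Real.exp (-c' * d) := by
    apply Real.exp_le_exp.mpr
    have := mul_le_mul_of_nonneg_right hc'1 hd
    linarith only [this]
  calc 2 ^ I * q ^ w + Real.exp (-c * d)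
      ≤ 2 ^ I * (1 / q * Real.exp (-c' * d)) + Real.exp (-c' * d) := by (clear * - e1 e2; gcongr)
    _ = (2 ^ I / q + 1) * Real.exp (-c' * d) := by ring

/-- the relative error -/
theorem sn7_rel {d b I Λ A : ℕ} {Q c' τ : ℝ} (hI : 1 ≤ I) (hc' : 0 < c') (hQ : 0 < Q)
    (hτ0 : 0 ≤ τ) (hτ : τ ≤ Q * Real.exp (-c' * d)) (hb4 : b ≤ 4 * d) (hΛ : (Λ : ℝ) ≤ c' / 2 * d)
    (g1 : 4 * (d : ℝ) * Q * Real.exp (-(c' / 2) * d) ≤ Real.log 2) :
    (b : ℝ) * (τ / (2 : ℝ) ^ ((A : ℝ) - Λ - sn7_rho I A)) ≤ Real.log 2 := by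
  obtain ⟨z, hz⟩ : ∃ z : ℝ, z = (2 : ℝ) ^ ((A : ℝ) - Λ - sn7_rho I A) := ⟨_, rfl⟩
  have hz0 : 0 < z := by rw [hz]; exact Real.rpow_pos_of_pos (by norm_num) _
  have hd : (0 : ℝ) ≤ d := Nat.cast_nonneg d
  have hzinv : 1 / z ≤ Real.exp (c' / 2 * d) := by
    rw [hz, one_div, ← Real.rpow_neg (by norm_num)]
    have h1 : -((A : ℝ) - Λ - sn7_rho I A) ≤ c' / 2 * d := by
      have : (sn7_rho I A : ℝ) ≤ A := by exact_mod_cast sn7_rho_le_self hI A
      linarith only [hΛ, this]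
    calc (2 : ℝ) ^ (-((A : ℝ) - Λ - sn7_rho I A)) ≤ (2 : ℝ) ^ (c' / 2 * d) :=
          Real.rpow_le_rpow_of_exponent_le (by norm_num) h1
      _ ≤ (Real.exp 1) ^ (c' / 2 * d) := by
          apply Real.rpow_le_rpow (by norm_num) _ (by (clear * - hc'; positivity))
          have := Real.add_one_le_exp 1
          linarith only [this]
      _ = Real.exp (c' / 2 * d) := by rw [← Real.exp_mul, one_mul]
  have hb4R : (b : ℝ) ≤ 4 * d := by exact_mod_cast hb4
  rw [← hz]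
  calc (b : ℝ) * (τ / z) = b * (τ * (1 / z)) := by ring
    _ ≤ (4 * d) * ((Q * Real.exp (-c' * d)) * Real.exp (c' / 2 * d)) := by (clear * - hb4R hτ hzinv hz0 hQ hτ0; gcongr)
    _ = 4 * (d : ℝ) * Q * Real.exp (-(c' / 2) * d) := by
        have : Real.exp (-(c' / 2) * d) = Real.exp (-c' * d) * Real.exp (c' / 2 * d) := by
          rw [← Real.exp_add]; congr 1; ring
        rw [this]; ring
    _ ≤ Real.log 2 := g1

/-- the sum over one class -/
theorem sn7_cls {α : Type} [Fintype α] [DecidableEq α] {I : ℕ} (hI : 1 ≤ I) {q c : ℝ}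
    (hq0 : 0 < q) {w b B Λ A : ℕ} {T G τ : ℝ}
    (S : Finset (AddSubgroup (α → ZMod (2 ^ I))))
    (hS : ∀ K ∈ S, Nat.card K = 2 ^ (I + Λ) ∧ Nat.card (spars I w K) = 2 ^ A)
    (horth : ∀ K : AddSubgroup (α → ZMod (2 ^ I)), ((orth I K).card : ℝ) * Nat.card K ≤
      Nat.card (spars I w K) * (orth I (spars I w K)).card +
      Nat.card K * q ^ w * 4 ^ Fintype.card α)
    (hτ : τ = 2 ^ I * q ^ w + Real.exp (-c * Fintype.card α))
    (hrel : (b : ℝ) * (τ / (2 : ℝ) ^ ((A : ℝ) - Λ - sn7_rho I A)) ≤ Real.log 2)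
    (hG : (S.card : ℝ) * ((2 : ℝ) ^ ((A : ℝ) - Λ - sn7_rho I A)) ^ b *
      ((2 : ℝ) ^ (I + Λ)) ^ B ≤ T * G) :
    ∑ K ∈ S, (2 ^ I * ((orth I K).card / 4 ^ Fintype.card α : ℝ) +
      Real.exp (-c * Fintype.card α)) ^ b * ((2 : ℝ) ^ (I + Λ)) ^ B ≤ 2 * (T * G) := by
  obtain ⟨z, hz⟩ : ∃ z : ℝ, z = (2 : ℝ) ^ ((A : ℝ) - Λ - sn7_rho I A) := ⟨_, rfl⟩
  have hz0 : 0 < z := by rw [hz]; exact Real.rpow_pos_of_pos (by norm_num) _
  have hτ0 : 0 ≤ τ := by rw [hτ]; positivity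
  rw [← hz] at hrel hG
  have hterm : ∀ K ∈ S,
      (2 ^ I * ((orth I K).card / 4 ^ Fintype.card α : ℝ) +
      Real.exp (-c * Fintype.card α)) ^ b * ((2 : ℝ) ^ (I + Λ)) ^ B ≤
      2 * z ^ b * ((2 : ℝ) ^ (I + Λ)) ^ B := by
    intro K hK
    have hp := sn7_p hI hq0 (horth K) (hS K hK).1 (hS K hK).2
    have hp' : 2 ^ I * ((orth I K).card / 4 ^ Fintype.card α : ℝ) +
        Real.exp (-c * Fintype.card α) ≤ z + τ := by
      rw [hτ, hz]
      linarith
    have h0 : 0 ≤ 2 ^ I * ((orth I K).card / 4 ^ Fintype.card α : ℝ) +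
        Real.exp (-c * Fintype.card α) :=
      add_nonneg (mul_nonneg (by positivity) (div_nonneg (Nat.cast_nonneg _) (by positivity)))
        (Real.exp_pos _).le
    have := sn7_pow hz0 hτ0 hrel h0 hp'
    exact mul_le_mul_of_nonneg_right this (by positivity)
  refine (sum_le_card_nsmul _ _ _ hterm).trans ?_
  rw [nsmul_eq_mul]
  calc _ = 2 * ((S.card : ℝ) * z ^ b * ((2 : ℝ) ^ (I + Λ)) ^ B) := by ring
    _ ≤ _ := mul_le_mul_of_nonneg_left hG (by norm_num)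

/-- Task N7: the sum over the possible kernels mod `2 ^ I`. -/
theorem sum_K_bound (I : ℕ) (hI : 1 ≤ I) {θ δ c : ℝ} (hθ : 0 < θ) (hδ : 0 < δ) (hc : 0 < c) :
    ∃ c3 : ℝ, 0 < c3 ∧ ∃ d0 : ℕ, ∀ (α : Type) [Fintype α] [DecidableEq α],
      d0 ≤ Fintype.card α → ∀ b B J Λ : ℕ,
      (1 + θ) * Fintype.card α ≤ b → b ≤ 4 * Fintype.card α →
      3 * J ≤ 2 * Fintype.card α → 2 * B + Fintype.card α ≤ b → B * I ≤ J + 3 * I →
      (Λ : ℝ) ≤ c3 * Fintype.card α →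
      ∀ xb : α → ZMod (2 ^ I), δ * Fintype.card α ≤ nu xb →
      ∀ S : Finset (AddSubgroup (α → ZMod (2 ^ I))),
      (∀ K ∈ S, xb ∈ K ∧ Nat.card K = 2 ^ (I + Λ)) →
      ∑ K ∈ S, (2 ^ I * ((orth I K).card / 4 ^ Fintype.card α : ℝ) +
          Real.exp (-c * Fintype.card α)) ^ b * ((2 : ℝ) ^ (I + Λ)) ^ B ≤
        3 * ((2 : ℝ) ^ I) ^ B * ((2 : ℝ) ^ (-((b : ℝ) - Fintype.card α) * Λ / 4) +
          (2 : ℝ) ^ (-(Fintype.card α : ℝ) * Λ / (32 * I))) := by
  classical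
  obtain ⟨q, hq0, hq1, horth⟩ := orth_le I hI
  have hIR : (1 : ℝ) ≤ I := by exact_mod_cast hI
  have hI0 : (0 : ℝ) < I := by linarith only [hIR]
  obtain ⟨ω₁, hω₁, hcs⟩ := card_sparse I (h := 1 / (24 * (I : ℝ))) (by positivity)
  obtain ⟨ω, hωdef⟩ : ∃ ω, ω = min ω₁ (δ / (60 * (I : ℝ) ^ 2)) := ⟨_, rfl⟩
  have hω : 0 < ω := by rw [hωdef]; exact lt_min hω₁ (by positivity)
  have hω1 : ω ≤ ω₁ := by rw [hωdef]; exact min_le_left _ _
  have hωδ : ω * (60 * (I : ℝ) ^ 2) ≤ δ := by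
    have : ω ≤ δ / (60 * (I : ℝ) ^ 2) := by rw [hωdef]; exact min_le_right _ _
    rwa [le_div_iff₀ (by positivity)] at this
  obtain ⟨L0, hL0def⟩ : ∃ L0, L0 = -Real.log q := ⟨_, rfl⟩
  have hL0 : 0 < L0 := by rw [hL0def]; exact neg_pos.mpr (Real.log_neg hq0 hq1)
  have hqe : q = Real.exp (-L0) := by rw [hL0def, neg_neg, Real.exp_log hq0]
  obtain ⟨c', hc'def⟩ : ∃ c', c' = min c (ω * L0) := ⟨_, rfl⟩
  have hc' : 0 < c' := by rw [hc'def]; exact lt_min hc (by (clear * - hω hL0; positivity))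
  have hc'1 : c' ≤ c := by rw [hc'def]; exact min_le_left _ _
  have hc'2 : c' ≤ ω * L0 := by rw [hc'def]; exact min_le_right _ _
  have hQ : 0 < (2 : ℝ) ^ I / q + 1 := by positivity
  obtain ⟨d0, hd0⟩ := Filter.eventually_atTop.1
    (((sn7_ev1 (Q := (2 : ℝ) ^ I / q + 1) hc').and (sn7_ev2 hI)).and
      (Filter.eventually_ge_atTop (72 * I)))
  refine ⟨min (c' / 2) 1, lt_min (by linarith only [hc']) one_pos, d0, ?_⟩
  intro α _ _ hd b B J Λ hb1 hb4 hJ hB hBI hΛ xb hxb S hS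
  obtain ⟨⟨g1, g2⟩, g3⟩ := hd0 (Fintype.card α) hd
  have hd1 : 1 ≤ Fintype.card α := by omega
  have hdR : (1 : ℝ) ≤ Fintype.card α := by exact_mod_cast hd1
  have hdb : Fintype.card α ≤ b := by
    have h : (Fintype.card α : ℝ) ≤ b := by
      have : 0 ≤ θ * Fintype.card α := by positivity
      linarith only [hb1, this]
    exact_mod_cast h
  have hΛ1 : (Λ : ℝ) ≤ Fintype.card α := by
    refine hΛ.trans ?_
    have := mul_le_mul_of_nonneg_right (min_le_right (c' / 2) 1)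
      (show (0 : ℝ) ≤ Fintype.card α by linarith only [])
    linarith only [this]
  have hΛ2 : (Λ : ℝ) ≤ c' / 2 * Fintype.card α :=
    hΛ.trans (mul_le_mul_of_nonneg_right (min_le_left (c' / 2) 1) (by linarith only []))
  -- the threshold
  obtain ⟨w, hwdef⟩ : ∃ w, w = ⌊ω * Fintype.card α⌋₊ := ⟨_, rfl⟩
  have hw1 : (w : ℝ) ≤ ω * Fintype.card α := by rw [hwdef]; exact Nat.floor_le (by (clear * - hω hd1; positivity))
  have hw2 : ω * Fintype.card α - 1 ≤ w := by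
    rw [hwdef]; have := Nat.lt_floor_add_one (ω * (Fintype.card α : ℝ)); linarith only [this]
  have hw3 : (w : ℝ) ≤ ω₁ * Fintype.card α :=
    hw1.trans (mul_le_mul_of_nonneg_right hω1 (by linarith only []))
  -- the error
  obtain ⟨τ, hτdef⟩ : ∃ τ : ℝ, τ = 2 ^ I * q ^ w + Real.exp (-c * Fintype.card α) := ⟨_, rfl⟩
  have hτ0 : 0 ≤ τ := by rw [hτdef]; positivity
  have hτ1 : τ ≤ ((2 : ℝ) ^ I / q + 1) * Real.exp (-c' * Fintype.card α) := by
    rw [hτdef]; exact sn7_err hqe hL0 hw2 hc'1 hc'2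
  have hE := hcs α w hw3
  -- the function `A`
  choose a ha using fun K : AddSubgroup (α → ZMod (2 ^ I)) =>
    exists_card_pow (spars I w K)
  have hnu : 1 ≤ nu xb := by
    have h1 : (0 : ℝ) < nu xb := lt_of_lt_of_le (by (clear * - hδ hd1; positivity)) hxb
    exact_mod_cast h1
  have hrange : ∀ K ∈ S, a K ∈ range (Λ + I + 1) := by
    intro K hK
    have := (count_K hI xb hnu w Λ (a K) S hS ⟨K, hK, ha K⟩).1.1
    rw [mem_range]; omega
  rw [← sum_fiberwise_of_maps_to hrange]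
  have hT0 : (0 : ℝ) < ((2 : ℝ) ^ I) ^ B := by positivity
  refine le_trans (sum_le_sum fun A _ => ?_)
    (sn7_final hI hd1 hdb hT0 hΛ1 g2)
  have hfil : S.filter (fun K => a K = A) =
      S.filter (fun K => Nat.card (spars I w K) = 2 ^ A) := by
    ext K
    rw [mem_filter, mem_filter, ha K]
    constructor
    · rintro ⟨k1, k2⟩; exact ⟨k1, by rw [k2]⟩
    · rintro ⟨k1, k2⟩; exact ⟨k1, Nat.pow_right_injective (le_refl 2) k2⟩
  rw [hfil]
  by_cases hne : (S.filter (fun K => Nat.card (spars I w K) = 2 ^ A)).Nonempty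
  · obtain ⟨K0, hK0⟩ := hne
    rw [mem_filter] at hK0
    have hcnt := count_K hI xb hnu w Λ A S hS ⟨K0, hK0.1, hK0.2⟩
    refine sn7_cls (A := A) hI hq0 _ (fun K hK => ?_) (horth α w) hτdef
      (sn7_rel (A := A) hI hc' hQ hτ0 hτ1 hb4 hΛ2 g1) ?_
    · rw [mem_filter] at hK
      exact ⟨(hS K hK.1).2, hK.2⟩
    · exact sn7_class hI hω hωδ hw1 g3 hdb hb4 hJ hB hBI xb hxb hE hcnt.1 hcnt.2
  · rw [not_nonempty_iff_eq_empty] at hne
    rw [hne, sum_empty]
    positivity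

end Vale.Agent.P160
end
end

section

section

namespace Vale.Agent.P160

open Finset

/-! ### auxiliary lemmas -/

theorem sn8_isUnit_cast {I J : ℕ} (hI : 1 ≤ I) (hIJ : I ≤ J) (y : ZMod (2 ^ J)) :
    IsUnit (y.cast : ZMod (2 ^ I)) ↔ IsUnit y := by
  have h1 : (y.cast : ZMod (2 ^ I)) = ((y.val : ℕ) : ZMod (2 ^ I)) := (ZMod.natCast_val y).symm
  have h2 : y = ((y.val : ℕ) : ZMod (2 ^ J)) := (ZMod.natCast_zmod_val y).symm
  rw [h1, ZMod.isUnit_iff_coprime]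
  conv_rhs => rw [h2, ZMod.isUnit_iff_coprime]
  rw [Nat.coprime_pow_right_iff (by omega), Nat.coprime_pow_right_iff (by omega)]

theorem sn8_nu_cast {α : Type} [Fintype α] {I J : ℕ} (hI : 1 ≤ I) (hIJ : I ≤ J)
    (x : α → ZMod (2 ^ J)) : nu (fun i => ((x i).cast : ZMod (2 ^ I))) = nu x := by
  unfold nu
  congr 1
  ext i
  simp only [mem_filter, mem_univ, true_and]
  exact sn8_isUnit_cast hI hIJ (x i)

theorem sn8_walk_cast {α : Type} [Fintype α] {I J : ℕ} (hIJ : I ≤ J) (a : α → Fin 4)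
    (x : α → ZMod (2 ^ J)) (h : walk a x = 0) :
    walk a (fun i => ((x i).cast : ZMod (2 ^ I))) = 0 := by
  have h1 := congrArg (ZMod.castHom (pow_dvd_pow 2 hIJ) (ZMod (2 ^ I))) h
  rw [map_zero] at h1
  unfold walk at h1
  rw [map_sum] at h1
  unfold walk
  rw [← h1]
  refine sum_congr rfl fun i _ => ?_
  rw [map_mul, map_intCast]
  rfl

theorem sn8_card_ker {α β : Type} [Fintype α] [Fintype β] [DecidableEq α] (I : ℕ)
    (ω : β → α → Fin 4) : Nat.card (kerG I ω) = (kerN (2 ^ I) (hm ω)).card := by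
  refine Nat.subtype_card _ fun u => ?_
  unfold kerN
  rw [mem_filter]
  exact ⟨fun h => h.2, fun h => ⟨mem_univ _, h⟩⟩

theorem sn8_order {α : Type} [Fintype α] {I : ℕ} (xb : α → ZMod (2 ^ I)) (h : 0 < nu xb) :
    Nat.card (AddSubgroup.zmultiples xb) = 2 ^ I := by
  rw [Nat.card_zmultiples]
  apply Nat.dvd_antisymm
  · apply addOrderOf_dvd_of_nsmul_eq_zero
    funext i
    simp
  · unfold nu at h
    obtain ⟨i, hi⟩ := card_pos.1 h
    replace hi : IsUnit (xb i) := by simpa only [mem_filter, mem_univ, true_and] using hi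
    have h1 := addOrderOf_nsmul_eq_zero xb
    have h2 := congrFun h1 i
    rw [Pi.smul_apply, Pi.zero_apply, nsmul_eq_mul] at h2
    have h3 := (hi.mul_left_eq_zero).1 h2
    exact (ZMod.natCast_eq_zero_iff _ _).1 h3

open Classical in
/-- number of matrices with all rows orthogonal to `K` and to `x` -/
theorem sn8_rows {α β : Type} [Fintype α] [DecidableEq α] [Fintype β] [DecidableEq β] {I J : ℕ}
    (x : α → ZMod (2 ^ J)) (K : AddSubgroup (α → ZMod (2 ^ I)))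
    (W : Finset (β → α → Fin 4)) (hW : ∀ ω ∈ W, ∀ i, ω i ∈ orth I K ∧ walk (ω i) x = 0) :
    W.card ≤ ((orth I K).filter (fun a => walk a x = 0)).card ^ Fintype.card β := by
  have hsub : W ⊆ Fintype.piFinset
      (fun _ : β => (orth I K).filter (fun a => walk a x = 0)) := by
    intro ω hω
    rw [Fintype.mem_piFinset]
    intro i
    rw [mem_filter]
    exact hW ω hω i
  calc W.card ≤ (Fintype.piFinset
      (fun _ : β => (orth I K).filter (fun a => walk a x = 0))).card := card_le_card hsub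
    _ = _ := by rw [Fintype.card_piFinset, prod_const, card_univ]

/-- the function whose powers are summed in `sum_K_bound` -/
noncomputable def sn8_g (c : ℝ) {α : Type} [Fintype α] [DecidableEq α] (I : ℕ)
    (K : AddSubgroup (α → ZMod (2 ^ I))) : ℝ :=
  2 ^ I * ((orth I K).card / 4 ^ Fintype.card α : ℝ) + Real.exp (-(c / 2) * Fintype.card α)

open Classical in
theorem sn8_rows_le {α β : Type} [Fintype α] [DecidableEq α] [Fintype β] [DecidableEq β]
    {I J : ℕ} (hI : 1 ≤ I) (hIJ : I ≤ J) {c : ℝ}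
    (hJ : (J : ℝ) * Real.exp (-c * Fintype.card α) ≤ Real.exp (-(c / 2) * Fintype.card α))
    (x : α → ZMod (2 ^ J)) (hx : GoodX I (Real.exp (-c * Fintype.card α)) x)
    (S : Finset (AddSubgroup (α → ZMod (2 ^ I))))
    (hS : ∀ K ∈ S, (fun i => ((x i).cast : ZMod (2 ^ I))) ∈ K)
    (W : Finset (β → α → Fin 4)) (κ : (β → α → Fin 4) → AddSubgroup (α → ZMod (2 ^ I)))
    (hκ : ∀ ω ∈ W, κ ω ∈ S)
    (hW : ∀ ω ∈ W, ∀ i, ω i ∈ orth I (κ ω) ∧ walk (ω i) x = 0) :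
    (W.card : ℝ) ≤ (1 / 2 ^ J) ^ Fintype.card β * 4 ^ (Fintype.card β * Fintype.card α) *
      ∑ K ∈ S, sn8_g c I K ^ Fintype.card β := by
  have h1 : W.card = ∑ K ∈ S, (W.filter fun ω => κ ω = K).card :=
    card_eq_sum_card_fiberwise fun ω hω => hκ ω hω
  rw [h1, Nat.cast_sum, mul_sum]
  refine sum_le_sum fun K hK => ?_
  have h2 := sn8_rows x K (W.filter fun ω => κ ω = K) (by
    intro ω hω i
    rw [mem_filter] at hω
    have := hW ω hω.1 i
    rwa [hω.2] at this)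
  have h3 := row_bound hI hIJ (Real.exp_pos _).le x hx K (hS K hK)
  set R : ℕ := ((orth I K).filter (fun a => walk a x = 0)).card with hR
  have h4 : (R : ℝ) ≤ 1 / 2 ^ J * 4 ^ Fintype.card α * sn8_g c I K := by
    have hp : (0 : ℝ) < 2 ^ J := by (clear * -; positivity)
    have h4p : (0 : ℝ) < 4 ^ Fintype.card α := by positivity
    have e1 : (1 / 2 ^ J * 4 ^ Fintype.card α * sn8_g c I K : ℝ)
        = (2 ^ I * (orth I K).card + Real.exp (-(c / 2) * Fintype.card α) * 4 ^ Fintype.card α)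
          / 2 ^ J := by
      unfold sn8_g
      (clear * -; field_simp)
    rw [e1, le_div_iff₀ hp]
    refine h3.trans ?_
    have := mul_le_mul_of_nonneg_right hJ h4p.le
    linarith only [this]
  calc ((W.filter fun ω => κ ω = K).card : ℝ) ≤ ((R ^ Fintype.card β : ℕ) : ℝ) := by
        exact_mod_cast h2
    _ = (R : ℝ) ^ Fintype.card β := by push_cast; rfl
    _ ≤ (1 / 2 ^ J * 4 ^ Fintype.card α * sn8_g c I K) ^ Fintype.card β :=
        pow_le_pow_left₀ (Nat.cast_nonneg _) h4 _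
    _ = _ := by
        rw [mul_pow, mul_pow, ← pow_mul, mul_comm (Fintype.card α)]

theorem sn8_geom {r : ℝ} (h0 : 0 ≤ r) (h1 : r ≤ 1 / 7) (n : ℕ) :
    ∑ k ∈ range n, r ^ k ≤ 7 / 6 := by
  have h2 : r < 1 := by (clear * - h1; linarith)
  calc ∑ k ∈ range n, r ^ k ≤ (1 - r)⁻¹ := by
        rw [← tsum_geometric_of_lt_one h0 h2]
        exact (summable_geometric_of_lt_one h0 h2).sum_le_tsum _ fun k _ => pow_nonneg h0 k
    _ ≤ 7 / 6 := by
        rw [inv_le_comm₀ (by linarith only [h1]) (by norm_num)]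
        linarith only [h1]

theorem sn8_two_rpow {y : ℝ} (h : 3 ≤ y) : (2 : ℝ) ^ (-y) ≤ 1 / 8 := by
  have h1 : (2 : ℝ) ^ (-y) ≤ (2 : ℝ) ^ (-3 : ℝ) :=
    Real.rpow_le_rpow_of_exponent_le (by norm_num) (by linarith)
  have h2 : (2 : ℝ) ^ (-3 : ℝ) = 1 / 8 := by
    rw [Real.rpow_neg (by norm_num)]
    norm_num
  exact h1.trans h2.le

set_option linter.unusedSectionVars false

section main

variable {α β : Type} [Fintype α] [DecidableEq α] [Fintype β] [DecidableEq β]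

theorem sn8_mem {I J : ℕ} (hIJ : I ≤ J) (x : α → ZMod (2 ^ J)) (ω : β → α → Fin 4)
    (h : ∀ i, walk (ω i) x = 0) : (fun i => ((x i).cast : ZMod (2 ^ I))) ∈ kerG I ω :=
  fun i => sn8_walk_cast hIJ (ω i) x (h i)

theorem sn8_orth {I : ℕ} (ω : β → α → Fin 4) (K : AddSubgroup (α → ZMod (2 ^ I)))
    (hK : K ≤ kerG I ω) (i : β) : ω i ∈ orth I K := by
  classical
  unfold orth
  exact mem_filter.2 ⟨mem_univ _, fun k hk => hK hk i⟩

theorem sn8_exists {I : ℕ} (xb : α → ZMod (2 ^ I)) (hnu : 0 < nu xb) (ω : β → α → Fin 4)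
    (h : xb ∈ kerG I ω) : ∃ Λ : ℕ, (kerN (2 ^ I) (hm ω)).card = 2 ^ (I + Λ) := by
  obtain ⟨A, hA⟩ := exists_card_pow (kerG I ω)
  have h1 : AddSubgroup.zmultiples xb ≤ kerG I ω := by
    rw [AddSubgroup.zmultiples_le]; exact h
  have h2 := AddSubgroup.card_dvd_of_le h1
  rw [sn8_order xb hnu, hA] at h2
  have h3 : I ≤ A := (Nat.pow_dvd_pow_iff_le_right (by norm_num)).1 h2
  refine ⟨A - I, ?_⟩
  rw [← sn8_card_ker, hA, Nat.add_sub_cancel' h3]

/-- the conclusion of `sum_K_bound` for one `α` -/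
def SN8H (α : Type) [Fintype α] [DecidableEq α] (I : ℕ) (c : ℝ) (xb : α → ZMod (2 ^ I))
    (b B Λ : ℕ) : Prop :=
  ∀ S : Finset (AddSubgroup (α → ZMod (2 ^ I))),
    (∀ K ∈ S, xb ∈ K ∧ Nat.card K = 2 ^ (I + Λ)) →
    ∑ K ∈ S, sn8_g c I K ^ b * ((2 : ℝ) ^ (I + Λ)) ^ B ≤
      3 * ((2 : ℝ) ^ I) ^ B * ((2 : ℝ) ^ (-((b : ℝ) - Fintype.card α) * Λ / 4) +
        (2 : ℝ) ^ (-(Fintype.card α : ℝ) * Λ / (32 * I)))

open Classical in
theorem sn8_near_one {I J : ℕ} (hI : 1 ≤ I) (hIJ : I ≤ J) {c : ℝ}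
    (hJ : (J : ℝ) * Real.exp (-c * Fintype.card α) ≤ Real.exp (-(c / 2) * Fintype.card α))
    (x : α → ZMod (2 ^ J)) (hx : GoodX I (Real.exp (-c * Fintype.card α)) x) (B Λ : ℕ)
    (H : SN8H α I c (fun i => ((x i).cast : ZMod (2 ^ I))) (Fintype.card β) B Λ) :
    ((univ.filter (fun ω : β → α → Fin 4 => (∀ i, walk (ω i) x = 0) ∧
        (kerN (2 ^ I) (hm ω)).card = 2 ^ (I + Λ))).card : ℝ) * ((2 : ℝ) ^ (I + Λ)) ^ B ≤
      (1 / 2 ^ J) ^ Fintype.card β * 4 ^ (Fintype.card β * Fintype.card α) *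
        (3 * ((2 : ℝ) ^ I) ^ B * ((2 : ℝ) ^ (-((Fintype.card β : ℝ) - Fintype.card α) * Λ / 4) +
          (2 : ℝ) ^ (-(Fintype.card α : ℝ) * Λ / (32 * I)))) := by
  set W : Finset (β → α → Fin 4) := univ.filter (fun ω => (∀ i, walk (ω i) x = 0) ∧
        (kerN (2 ^ I) (hm ω)).card = 2 ^ (I + Λ)) with hW
  have hWm : ∀ ω ∈ W, (∀ i, walk (ω i) x = 0) ∧
        (kerN (2 ^ I) (hm ω)).card = 2 ^ (I + Λ) := fun ω hω => by
    rw [hW, mem_filter] at hω; exact hω.2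
  clear_value W
  set S : Finset (AddSubgroup (α → ZMod (2 ^ I))) := W.image (kerG I) with hS
  have hSprop : ∀ K ∈ S, (fun i => ((x i).cast : ZMod (2 ^ I))) ∈ K ∧
      Nat.card K = 2 ^ (I + Λ) := by
    intro K hK
    rw [hS, mem_image] at hK
    obtain ⟨ω, hω, rfl⟩ := hK
    exact ⟨sn8_mem hIJ x ω (hWm ω hω).1, by rw [sn8_card_ker]; exact (hWm ω hω).2⟩
  have h1 := sn8_rows_le (β := β) hI hIJ hJ x hx S (fun K hK => (hSprop K hK).1)
    W (kerG I) (fun ω hω => mem_image_of_mem _ hω) (fun ω hω i =>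
      ⟨sn8_orth ω _ le_rfl i, (hWm ω hω).1 i⟩)
  have h2 := H S hSprop
  calc (W.card : ℝ) * ((2 : ℝ) ^ (I + Λ)) ^ B
      ≤ ((1 / 2 ^ J) ^ Fintype.card β * 4 ^ (Fintype.card β * Fintype.card α) *
          ∑ K ∈ S, sn8_g c I K ^ Fintype.card β)
        * ((2 : ℝ) ^ (I + Λ)) ^ B := mul_le_mul_of_nonneg_right h1 (by positivity)
    _ = (1 / 2 ^ J) ^ Fintype.card β * 4 ^ (Fintype.card β * Fintype.card α) *
        ∑ K ∈ S, sn8_g c I K ^ Fintype.card β * ((2 : ℝ) ^ (I + Λ)) ^ B := by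
        rw [← sum_mul]; ring
    _ ≤ _ := mul_le_mul_of_nonneg_left h2 (by positivity)

open Classical in
theorem sn8_split {I J : ℕ} (x : α → ZMod (2 ^ J)) (B L : ℕ)
    (hex : ∀ ω : β → α → Fin 4, (∀ i, walk (ω i) x = 0) →
      ∃ Λ : ℕ, (kerN (2 ^ I) (hm ω)).card = 2 ^ (I + Λ)) :
    (∑ ω : β → α → Fin 4, if (∀ i, walk (ω i) x = 0) ∧
            (kerN (2 ^ I) (hm ω)).card < 2 ^ (I + L) then
          ((kerN (2 ^ I) (hm ω)).card : ℝ) ^ B else 0) ≤
      ∑ Λ ∈ range L, ((univ.filter (fun ω : β → α → Fin 4 => (∀ i, walk (ω i) x = 0) ∧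
        (kerN (2 ^ I) (hm ω)).card = 2 ^ (I + Λ))).card : ℝ) * ((2 : ℝ) ^ (I + Λ)) ^ B := by
  have h1 : ∀ Λ, ((univ.filter (fun ω : β → α → Fin 4 => (∀ i, walk (ω i) x = 0) ∧
        (kerN (2 ^ I) (hm ω)).card = 2 ^ (I + Λ))).card : ℝ) * ((2 : ℝ) ^ (I + Λ)) ^ B
      = ∑ ω : β → α → Fin 4, if (∀ i, walk (ω i) x = 0) ∧
        (kerN (2 ^ I) (hm ω)).card = 2 ^ (I + Λ) then ((2 : ℝ) ^ (I + Λ)) ^ B else 0 := by
    intro Λ
    rw [← sum_filter, sum_const, nsmul_eq_mul]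
  simp only [h1]
  rw [sum_comm]
  refine sum_le_sum fun ω _ => ?_
  have hnn : ∀ Λ ∈ range L, 0 ≤ (if (∀ i, walk (ω i) x = 0) ∧
        (kerN (2 ^ I) (hm ω)).card = 2 ^ (I + Λ) then ((2 : ℝ) ^ (I + Λ)) ^ B else 0) := by
    intro Λ _
    split_ifs
    · positivity
    · exact le_rfl
  by_cases hω : (∀ i, walk (ω i) x = 0) ∧ (kerN (2 ^ I) (hm ω)).card < 2 ^ (I + L)
  · rw [if_pos hω]
    obtain ⟨Λ, hΛ⟩ := hex ω hω.1
    have h2 : Λ < L := by
      have h3 := hω.2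
      rw [hΛ] at h3
      have := (Nat.pow_lt_pow_iff_right (by norm_num : 1 < 2)).1 h3
      omega
    refine le_trans ?_ (single_le_sum hnn (mem_range.2 h2))
    rw [if_pos ⟨hω.1, hΛ⟩, hΛ]
    push_cast
    exact le_rfl
  · rw [if_neg hω]
    exact sum_nonneg hnn

theorem sn8_near {I J : ℕ} (hI : 1 ≤ I) (hIJ : I ≤ J) {c : ℝ}
    (hJ : (J : ℝ) * Real.exp (-c * Fintype.card α) ≤ Real.exp (-(c / 2) * Fintype.card α))
    (x : α → ZMod (2 ^ J)) (hx : GoodX I (Real.exp (-c * Fintype.card α)) x) (B L : ℕ)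
    (hnu : 0 < nu (fun i => ((x i).cast : ZMod (2 ^ I))))
    (H : ∀ Λ < L, SN8H α I c (fun i => ((x i).cast : ZMod (2 ^ I))) (Fintype.card β) B Λ)
    (hr1 : (2 : ℝ) ^ (-((Fintype.card β : ℝ) - Fintype.card α) / 4) ≤ 1 / 7)
    (hr2 : (2 : ℝ) ^ (-(Fintype.card α : ℝ) / (32 * I)) ≤ 1 / 7) :
    (∑ ω : β → α → Fin 4, if (∀ i, walk (ω i) x = 0) ∧
            (kerN (2 ^ I) (hm ω)).card < 2 ^ (I + L) then
          ((kerN (2 ^ I) (hm ω)).card : ℝ) ^ B else 0) ≤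
          8 * ((2 : ℝ) ^ I) ^ B * (1 / 2 ^ J) ^ Fintype.card β *
            4 ^ (Fintype.card β * Fintype.card α) := by
  classical
  have h0 := sn8_split (I := I) (β := β) x B L fun ω hω =>
    sn8_exists _ hnu ω (sn8_mem hIJ x ω hω)
  have h1 : ∀ Λ ∈ range L, _ := fun Λ hΛ =>
    sn8_near_one (β := β) hI hIJ hJ x hx B Λ (H Λ (mem_range.1 hΛ))
  have hg1 : ∑ Λ ∈ range L, (2 : ℝ) ^ (-((Fintype.card β : ℝ) - Fintype.card α) * Λ / 4)
      ≤ 7 / 6 := by
    refine le_trans (le_of_eq (sum_congr rfl fun Λ _ => ?_)) (sn8_geom (by positivity) hr1 L)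
    rw [← Real.rpow_natCast, ← Real.rpow_mul (by norm_num)]
    congr 1
    ring
  have hg2 : ∑ Λ ∈ range L, (2 : ℝ) ^ (-(Fintype.card α : ℝ) * Λ / (32 * I)) ≤ 7 / 6 := by
    refine le_trans (le_of_eq (sum_congr rfl fun Λ _ => ?_)) (sn8_geom (by positivity) hr2 L)
    rw [← Real.rpow_natCast, ← Real.rpow_mul (by norm_num)]
    congr 1
    ring
  have h2 := h0.trans (sum_le_sum h1)
  rw [← mul_sum, ← mul_sum, sum_add_distrib] at h2
  refine h2.trans ?_
  have hpos : (0 : ℝ) ≤ (1 / 2 ^ J) ^ Fintype.card β *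
    4 ^ (Fintype.card β * Fintype.card α) * (3 * ((2 : ℝ) ^ I) ^ B) := by positivity
  have h3 := mul_le_mul_of_nonneg_left (add_le_add hg1 hg2) hpos
  have hpos2 : (0 : ℝ) ≤ (1 / 2 ^ J) ^ Fintype.card β *
    4 ^ (Fintype.card β * Fintype.card α) * ((2 : ℝ) ^ I) ^ B := by positivity
  calc _ = (1 / 2 ^ J) ^ Fintype.card β * 4 ^ (Fintype.card β * Fintype.card α) *
        (3 * ((2 : ℝ) ^ I) ^ B) *
        (∑ Λ ∈ range L, (2 : ℝ) ^ (-((Fintype.card β : ℝ) - Fintype.card α) * Λ / 4) +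
          ∑ Λ ∈ range L, (2 : ℝ) ^ (-(Fintype.card α : ℝ) * Λ / (32 * I))) := by ring
    _ ≤ _ := h3
    _ = 7 * ((1 / 2 ^ J) ^ Fintype.card β *
          4 ^ (Fintype.card β * Fintype.card α) * ((2 : ℝ) ^ I) ^ B) := by ring
    _ ≤ 8 * ((1 / 2 ^ J) ^ Fintype.card β *
          4 ^ (Fintype.card β * Fintype.card α) * ((2 : ℝ) ^ I) ^ B) := by linarith only [hpos]
    _ = _ := by ring

theorem sn8_tail {I J : ℕ} (hI : 1 ≤ I) (hIJ : I ≤ J) {c : ℝ}
    (hJ : (J : ℝ) * Real.exp (-c * Fintype.card α) ≤ Real.exp (-(c / 2) * Fintype.card α))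
    (x : α → ZMod (2 ^ J)) (hx : GoodX I (Real.exp (-c * Fintype.card α)) x) (L : ℕ)
    (hnu : 0 < nu (fun i => ((x i).cast : ZMod (2 ^ I))))
    (H : SN8H α I c (fun i => ((x i).cast : ZMod (2 ^ I))) (Fintype.card β) 0 L) :
    ((univ.filter (fun ω : β → α → Fin 4 => (∀ i, walk (ω i) x = 0) ∧
          2 ^ (I + L) ≤ (kerN (2 ^ I) (hm ω)).card)).card : ℝ) ≤
      (1 / 2 ^ J) ^ Fintype.card β * 4 ^ (Fintype.card β * Fintype.card α) *
        (3 * ((2 : ℝ) ^ (-((Fintype.card β : ℝ) - Fintype.card α) * L / 4) +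
          (2 : ℝ) ^ (-(Fintype.card α : ℝ) * L / (32 * I)))) := by
  classical
  set xb : α → ZMod (2 ^ I) := fun i => ((x i).cast : ZMod (2 ^ I)) with hxb
  have hord := sn8_order xb hnu
  set W : Finset (β → α → Fin 4) := univ.filter (fun ω => (∀ i, walk (ω i) x = 0) ∧
          2 ^ (I + L) ≤ (kerN (2 ^ I) (hm ω)).card) with hW
  have hWm : ∀ ω ∈ W, (∀ i, walk (ω i) x = 0) ∧
        2 ^ (I + L) ≤ (kerN (2 ^ I) (hm ω)).card := fun ω hω => by
    rw [hW, mem_filter] at hω; exact hω.2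
  clear_value W
  have hch : ∀ ω : β → α → Fin 4, ∃ K' : AddSubgroup (α → ZMod (2 ^ I)), ω ∈ W →
      (xb ∈ K' ∧ K' ≤ kerG I ω ∧ Nat.card K' = 2 ^ (I + L)) := by
    intro ω
    by_cases hω : ω ∈ W
    · have h1 : AddSubgroup.zmultiples xb ≤ kerG I ω := by
        rw [AddSubgroup.zmultiples_le]; exact sn8_mem hIJ x ω (hWm ω hω).1
      obtain ⟨K', h2, h3, h4⟩ := exists_between _ _ h1 L (by
        rw [hord, sn8_card_ker, ← pow_add, add_comm L I]; exact (hWm ω hω).2)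
      refine ⟨K', fun _ => ⟨h2 (AddSubgroup.mem_zmultiples xb), h3, ?_⟩⟩
      rw [h4, hord, ← pow_add, add_comm L I]
    · exact ⟨⊥, fun h => absurd h hω⟩
  choose κ hκ using hch
  set S : Finset (AddSubgroup (α → ZMod (2 ^ I))) := W.image κ with hS
  have hSprop : ∀ K ∈ S, xb ∈ K ∧ Nat.card K = 2 ^ (I + L) := by
    intro K hK
    rw [hS, mem_image] at hK
    obtain ⟨ω, hω, rfl⟩ := hK
    exact ⟨(hκ ω hω).1, (hκ ω hω).2.2⟩
  have h1 := sn8_rows_le (β := β) hI hIJ hJ x hx S (fun K hK => (hSprop K hK).1)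
    W κ (fun ω hω => mem_image_of_mem _ hω) (fun ω hω i =>
      ⟨sn8_orth ω _ (hκ ω hω).2.1 i, (hWm ω hω).1 i⟩)
  have h2 := H S hSprop
  simp only [pow_zero, mul_one] at h2
  exact h1.trans (mul_le_mul_of_nonneg_left h2 (by positivity))

end main

/-- the numerical estimate for the tail -/
theorem sn8_num {I : ℕ} (hI : 1 ≤ I) {θ c3 c8 b d L : ℝ} (hθ : 0 < θ) (hc3 : 0 < c3)
    (hc8 : c8 = min (c3 * θ / 16) (c3 / (128 * I))) (hc8p : 0 < c8) (hd : 1 ≤ d)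
    (hbd : θ * d ≤ b - d) (hL : c3 * d / 2 ≤ L) (h5 : 3 / c8 ≤ d) :
    3 * ((2 : ℝ) ^ (-(b - d) * L / 4) + (2 : ℝ) ^ (-d * L / (32 * I))) ≤
        (2 : ℝ) ^ (-c8 * d ^ 2) := by
  have hI0 : (0 : ℝ) < I := by exact_mod_cast hI
  have hd0 : 0 ≤ d := by linarith only [hd]
  have a1 : 2 * c8 * d ^ 2 ≤ (b - d) * L / 4 := by
    have h4 : c8 ≤ c3 * θ / 16 := hc8 ▸ min_le_left _ _
    have h5 : θ * d * (c3 * d / 2) ≤ (b - d) * L :=
      mul_le_mul hbd hL (by positivity) (le_trans (by positivity) hbd)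
    have h6 : c8 * d ^ 2 ≤ c3 * θ / 16 * d ^ 2 :=
      mul_le_mul_of_nonneg_right h4 (by positivity)
    have h7 : 2 * (c3 * θ / 16 * d ^ 2) = θ * d * (c3 * d / 2) / 4 := by ring
    linarith only [h5, h6]
  have a2 : 2 * c8 * d ^ 2 ≤ d * L / (32 * I) := by
    have h4 : c8 ≤ c3 / (128 * I) := hc8 ▸ min_le_right _ _
    have h5 : d * (c3 * d / 2) ≤ d * L := mul_le_mul_of_nonneg_left hL hd0
    have h6 : c8 * d ^ 2 ≤ c3 / (128 * I) * d ^ 2 :=
      mul_le_mul_of_nonneg_right h4 (by positivity)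
    have h7 : d * (c3 * d / 2) / (32 * I) ≤ d * L / (32 * I) :=
      div_le_div_of_nonneg_right h5 (by (clear * - hI; positivity))
    have h8 : 2 * (c3 / (128 * I) * d ^ 2) = d * (c3 * d / 2) / (32 * I) := by
      field_simp
      ring
    linarith only [h6, h7, h8]
  have b1 : (2 : ℝ) ^ (-(b - d) * L / 4) ≤ (2 : ℝ) ^ (-(2 * c8 * d ^ 2)) := by
    apply Real.rpow_le_rpow_of_exponent_le (by norm_num)
    have : -(b - d) * L / 4 = -((b - d) * L / 4) := by ring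
    rw [this]; linarith only [a1]
  have b2 : (2 : ℝ) ^ (-d * L / (32 * I)) ≤ (2 : ℝ) ^ (-(2 * c8 * d ^ 2)) := by
    apply Real.rpow_le_rpow_of_exponent_le (by norm_num)
    have : -d * L / (32 * I) = -(d * L / (32 * I)) := by ring
    rw [this]; linarith only [a2]
  have b3 : (2 : ℝ) ^ (-(2 * c8 * d ^ 2)) = (2 : ℝ) ^ (-c8 * d ^ 2) *
      (2 : ℝ) ^ (-(c8 * d ^ 2)) := by
    rw [← Real.rpow_add (by norm_num)]; congr 1; ring
  have b4 : (2 : ℝ) ^ (-(c8 * d ^ 2)) ≤ 1 / 8 := by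
    apply sn8_two_rpow
    rw [div_le_iff₀ hc8p] at h5
    have : d * c8 * 1 ≤ d * c8 * d := mul_le_mul_of_nonneg_left hd (by positivity)
    nlinarith only [h5, this]
  have b5 : (0 : ℝ) < (2 : ℝ) ^ (-c8 * d ^ 2) := by positivity
  have b6 := mul_le_mul_of_nonneg_left b4 b5.le
  rw [← b3] at b6
  linarith only [b1, b2, b5, b6]

theorem sn8_Jexp {c d J : ℝ} (hc : 0 < c) (hJ : J ≤ d) (hd : 0 ≤ d) (h : 8 / c ^ 2 ≤ d) :
    J * Real.exp (-c * d) ≤ Real.exp (-(c / 2) * d) := by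
  have h2 : d ≤ Real.exp ((c / 2) * d) := by
    have h3 := Real.quadratic_le_exp_of_nonneg (x := (c / 2) * d) (by (clear * - hc hd; positivity))
    have h4 : 8 ≤ c ^ 2 * d := by
      rw [div_le_iff₀ (by positivity)] at h
      linarith only [h]
    have h5 : d ≤ (c / 2 * d) ^ 2 / 2 := by
      have h6 : d * 8 ≤ d * (c ^ 2 * d) := mul_le_mul_of_nonneg_left h4 hd
      have h7 : (c / 2 * d) ^ 2 / 2 = d * (c ^ 2 * d) / 8 := by ring
      linarith only [h6]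
    have h8 : 0 ≤ c / 2 * d := by positivity
    linarith only [h3, h5, h8]
  have h6 : Real.exp (-(c / 2) * d) = Real.exp ((c / 2) * d) * Real.exp (-c * d) := by
    rw [← Real.exp_add]; congr 1; ring
  rw [h6]
  exact mul_le_mul_of_nonneg_right (hJ.trans h2) (Real.exp_pos _).le

/-- Task N8: near part and tail bound. -/
theorem near_tail (I : ℕ) (hI : 1 ≤ I) {θ δ c : ℝ} (hθ : 0 < θ) (hδ : 0 < δ) (hc : 0 < c) :
    ∃ c3 : ℝ, 0 < c3 ∧ ∃ c8 : ℝ, 0 < c8 ∧ ∃ d0 : ℕ, ∀ (α β : Type) [Fintype α] [DecidableEq α]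
      [Fintype β] [DecidableEq β], d0 ≤ Fintype.card α →
      (1 + θ) * Fintype.card α ≤ Fintype.card β → Fintype.card β ≤ 4 * Fintype.card α →
      ∀ J : ℕ, I ≤ J → 3 * J ≤ 2 * Fintype.card α → ∀ x : α → ZMod (2 ^ J),
      δ * Fintype.card α ≤ nu x → GoodX I (Real.exp (-c * Fintype.card α)) x →
      (∀ B : ℕ, 2 * B + Fintype.card α ≤ Fintype.card β → B * I ≤ J + 3 * I →
        (∑ ω : β → α → Fin 4, if (∀ i, walk (ω i) x = 0) ∧
            (kerN (2 ^ I) (hm ω)).card < 2 ^ (I + ⌊c3 * Fintype.card α⌋₊) then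
          ((kerN (2 ^ I) (hm ω)).card : ℝ) ^ B else 0) ≤
          8 * ((2 : ℝ) ^ I) ^ B * (1 / 2 ^ J) ^ Fintype.card β *
            4 ^ (Fintype.card β * Fintype.card α)) ∧
      ((univ.filter (fun ω : β → α → Fin 4 => (∀ i, walk (ω i) x = 0) ∧
          2 ^ (I + ⌊c3 * Fintype.card α⌋₊) ≤ (kerN (2 ^ I) (hm ω)).card)).card : ℝ) ≤
        (2 : ℝ) ^ (-c8 * (Fintype.card α : ℝ) ^ 2) * (1 / 2 ^ J) ^ Fintype.card β *
          4 ^ (Fintype.card β * Fintype.card α) := by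
  obtain ⟨c3, hc3, d0', hd0'⟩ := sum_K_bound I hI hθ hδ (half_pos hc)
  have hI0 : (0 : ℝ) < I := by exact_mod_cast hI
  obtain ⟨c8, hc8⟩ : ∃ c8 : ℝ, c8 = min (c3 * θ / 16) (c3 / (128 * I)) := ⟨_, rfl⟩
  have hc8p : 0 < c8 := by rw [hc8]; exact lt_min (by positivity) (by positivity)
  refine ⟨c3, hc3, c8, hc8p, max d0' (max (⌈8 / c ^ 2⌉₊) (max (⌈12 / θ⌉₊)
    (max (96 * I) (max (⌈2 / c3⌉₊) (max (⌈3 / c8⌉₊) 1))))), ?_⟩
  intro α β _ _ _ _ hd hb1 hb2 J hIJ hJd x hnu hgood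
  simp only [max_le_iff] at hd
  obtain ⟨e0, e1, e2, e3, e4, e5, e6⟩ := hd
  have e1' : 8 / c ^ 2 ≤ (Fintype.card α : ℝ) := (Nat.le_ceil _).trans (by exact_mod_cast e1)
  have e2' : 12 / θ ≤ (Fintype.card α : ℝ) := (Nat.le_ceil _).trans (by exact_mod_cast e2)
  have e3' : (96 * I : ℝ) ≤ Fintype.card α := by exact_mod_cast e3
  have e4' : 2 / c3 ≤ (Fintype.card α : ℝ) := (Nat.le_ceil _).trans (by exact_mod_cast e4)
  have e5' : 3 / c8 ≤ (Fintype.card α : ℝ) := (Nat.le_ceil _).trans (by exact_mod_cast e5)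
  have e6' : (1 : ℝ) ≤ Fintype.card α := by exact_mod_cast e6
  have hJr : (3 * J : ℝ) ≤ 2 * Fintype.card α := by exact_mod_cast hJd
  have hb2r : Fintype.card β ≤ 4 * Fintype.card α := hb2
  have hJexp := sn8_Jexp (J := (J : ℝ)) hc (d := (Fintype.card α : ℝ)) (by
    have : (0 : ℝ) ≤ J := Nat.cast_nonneg J
    linarith only [hJr]) (by linarith only []) e1'
  have hnub : δ * Fintype.card α ≤ nu (fun i => ((x i).cast : ZMod (2 ^ I))) := by
    rw [sn8_nu_cast hI hIJ]; exact hnu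
  have hnub0 : 0 < nu (fun i => ((x i).cast : ZMod (2 ^ I))) := by
    have : (0 : ℝ) < nu (fun i => ((x i).cast : ZMod (2 ^ I))) :=
      lt_of_lt_of_le (by positivity) hnub
    exact_mod_cast this
  have hbd : θ * Fintype.card α ≤ (Fintype.card β : ℝ) - Fintype.card α := by linarith only [hb1]
  have hfl : (⌊c3 * Fintype.card α⌋₊ : ℝ) ≤ c3 * Fintype.card α :=
    Nat.floor_le (by (clear * - hc3 e6; positivity))
  have hfl2 : c3 * Fintype.card α / 2 ≤ (⌊c3 * Fintype.card α⌋₊ : ℝ) := by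
    have h1 := Nat.lt_floor_add_one (c3 * Fintype.card α)
    have h2 : 2 ≤ c3 * Fintype.card α := by
      rw [div_le_iff₀ hc3] at e4'
      linarith only [e4']
    linarith only [h1, h2]
  have hab : Fintype.card α ≤ Fintype.card β := by
    have : (Fintype.card α : ℝ) ≤ Fintype.card β := by
      have : 0 ≤ θ * Fintype.card α := by (clear * - hθ e6; positivity)
      linarith only [hb1, this]
    exact_mod_cast this
  constructor
  · intro B hB1 hB2
    refine sn8_near hI hIJ hJexp x hgood B _ hnub0 (fun Λ hΛ S hS => ?_) ?_ ?_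
    · exact hd0' α e0 _ B J Λ hb1 hb2r hJd hB1 hB2
        (le_trans (by exact_mod_cast hΛ.le) hfl) _ hnub S hS
    · have h1 : (3 : ℝ) ≤ ((Fintype.card β : ℝ) - Fintype.card α) / 4 := by
        rw [div_le_iff₀ hθ] at e2'
        linarith only [hb1, e2']
      have := sn8_two_rpow h1
      rw [neg_div]
      linarith only [this]
    · have h1 : (3 : ℝ) ≤ (Fintype.card α : ℝ) / (32 * I) := by
        rw [le_div_iff₀ (by positivity)]
        linarith only [e3']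
      have := sn8_two_rpow h1
      rw [neg_div]
      linarith only [this]
  · have h1 := sn8_tail (β := β) hI hIJ hJexp x hgood ⌊c3 * Fintype.card α⌋₊ hnub0
      (fun S hS => hd0' α e0 _ 0 J _ hb1 hb2r hJd (by (clear * - hab; omega)) (by (clear * - hI; omega)) hfl _ hnub S hS)
    have h2 := sn8_num hI hθ hc3 hc8 hc8p e6' hbd hfl2 e5'
    refine h1.trans ((mul_le_mul_of_nonneg_left h2 (by positivity)).trans (le_of_eq ?_))
    ring

end Vale.Agent.P160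
end
end

section

section

set_option linter.unusedSectionVars false

namespace Vale.Agent.P160

open Finset

/-- The index set of the family: subsets of size `a ^ 2 - a` of `2 a ^ 2` blocks. -/
abbrev TTa (a : ℕ) : Type := {t : Finset (Fin (2 * a ^ 2)) // t.card = a ^ 2 - a}

/-- The block pattern. -/
def DDa (a n q : ℕ) (t : TTa a) : Finset (Fin n) :=
  univ.filter (fun i : Fin n => i.val < 2 * a ^ 2 * q ∧
    ∃ h : i.val % (2 * a ^ 2) < 2 * a ^ 2, (⟨i.val % (2 * a ^ 2), h⟩ : Fin (2 * a ^ 2)) ∈ t.1)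

lemma st8_card_TTa (a : ℕ) : Fintype.card (TTa a) = (2 * a ^ 2).choose (a ^ 2 - a) := by
  have h : Fintype.card (TTa a) =
      (powersetCard (a ^ 2 - a) (univ : Finset (Fin (2 * a ^ 2)))).card := by
    rw [Fintype.card_subtype]
    congr 1
    ext t
    simp only [univ_filter_card_eq, mem_powersetCard, subset_univ, true_and]
  rw [h, card_powersetCard, card_univ, Fintype.card_fin]

/-- Task T8 -/
theorem nonempty_TTa (a : ℕ) : Nonempty (TTa a) := by
  rw [← Fintype.card_pos_iff, st8_card_TTa]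
  apply Nat.choose_pos
  omega

lemma st8_mem {a n q : ℕ} (ha : 0 < 2 * a ^ 2) {t : TTa a} {i : Fin n} :
    i ∈ DDa a n q t ↔ i.val < 2 * a ^ 2 * q ∧
    (⟨i.val % (2 * a ^ 2), Nat.mod_lt _ ha⟩ : Fin (2 * a ^ 2)) ∈ t.1 := by
  unfold DDa
  rw [mem_filter]
  constructor
  · rintro ⟨_, h1, h2, h3⟩
    exact ⟨h1, h3⟩
  · rintro ⟨h1, h2⟩
    exact ⟨mem_univ _, h1, Nat.mod_lt _ ha, h2⟩

lemma st8_aux (R q x k : ℕ) (hx : x < R) (hk : k < q) : R * k + x < R * q := by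
  have h1 : R * k + R ≤ R * q := by
    have h2 : R * (k + 1) ≤ R * q := Nat.mul_le_mul_left R hk
    linarith only [h2]
  omega

/-- Task T8 -/
theorem card_DDa {a n q : ℕ} (ha : 3 ≤ a) (h : 2 * a ^ 2 * q ≤ n) (t : TTa a) :
    (DDa a n q t).card = (a ^ 2 - a) * q := by
  have hR : 0 < 2 * a ^ 2 := by positivity
  have h1 : DDa a n q t = (t.1 ×ˢ (univ : Finset (Fin q))).image (fun p =>
      (⟨2 * a ^ 2 * p.2.val + p.1.val,
        lt_of_lt_of_le (st8_aux _ _ _ _ p.1.2 p.2.2) h⟩ : Fin n)) := by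
    ext i
    rw [st8_mem hR, mem_image]
    constructor
    · rintro ⟨h1, h2⟩
      refine ⟨(⟨i.val % (2 * a ^ 2), Nat.mod_lt _ hR⟩, ⟨i.val / (2 * a ^ 2), ?_⟩), ?_, ?_⟩
      · exact (Nat.div_lt_iff_lt_mul hR).2 (by rw [mul_comm]; exact h1)
      · rw [mem_product]
        exact ⟨h2, mem_univ _⟩
      · apply Fin.ext
        show 2 * a ^ 2 * (i.val / (2 * a ^ 2)) + i.val % (2 * a ^ 2) = i.val
        exact Nat.div_add_mod _ _
    · rintro ⟨⟨b, k⟩, hp, rfl⟩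
      rw [mem_product] at hp
      have hb := b.2
      have hk := k.2
      refine ⟨?_, ?_⟩
      · show 2 * a ^ 2 * k.val + b.val < 2 * a ^ 2 * q
        exact st8_aux _ _ _ _ hb hk
      · have : (⟨(2 * a ^ 2 * k.val + b.val) % (2 * a ^ 2), Nat.mod_lt _ hR⟩ :
            Fin (2 * a ^ 2)) = b := by
          apply Fin.ext
          show (2 * a ^ 2 * k.val + b.val) % (2 * a ^ 2) = b.val
          rw [Nat.mul_add_mod, Nat.mod_eq_of_lt hb]
        show (⟨(2 * a ^ 2 * k.val + b.val) % (2 * a ^ 2), Nat.mod_lt _ hR⟩ :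
            Fin (2 * a ^ 2)) ∈ t.1
        rw [this]
        exact hp.1
  rw [h1, card_image_of_injective, card_product, t.2, card_univ, Fintype.card_fin]
  rintro ⟨b, k⟩ ⟨b', k'⟩ h
  simp only [Fin.mk.injEq] at h
  have hb := b.2
  have hb' := b'.2
  have h2 : b.val = b'.val := by
    have h3 := congrArg (fun z => z % (2 * a ^ 2)) h
    simp only [Nat.mul_add_mod] at h3
    rwa [Nat.mod_eq_of_lt hb, Nat.mod_eq_of_lt hb'] at h3
  have h3 : k.val = k'.val := by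
    rw [h2] at h
    exact Nat.eq_of_mul_eq_mul_left hR (Nat.add_right_cancel h)
  exact Prod.ext (Fin.ext h2) (Fin.ext h3)

lemma st8_pair {R s : ℕ} {a b : Fin R} (hab : a ≠ b) :
    (univ.filter (fun t : {t : Finset (Fin R) // t.card = s} => a ∈ t.1 ∧ b ∉ t.1)).card ≤
      (R - 2).choose (s - 1) := by
  have h1 : (powersetCard (s - 1) ((univ.erase a).erase b)).card = (R - 2).choose (s - 1) := by
    rw [card_powersetCard, card_erase_of_mem, card_erase_of_mem (mem_univ _), card_univ,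
      Fintype.card_fin]
    · rfl
    · rw [mem_erase]
      exact ⟨hab.symm, mem_univ _⟩
  rw [← h1]
  refine Finset.card_le_card_of_injOn (fun t => t.1.erase a) ?_ ?_
  · intro t ht
    rw [mem_coe, mem_filter] at ht
    rw [mem_coe, mem_powersetCard]
    refine ⟨?_, ?_⟩
    · intro x hx
      rw [mem_erase] at hx
      rw [mem_erase, mem_erase]
      refine ⟨?_, hx.1, mem_univ _⟩
      rintro rfl
      exact ht.2.2 hx.2
    · rw [card_erase_of_mem ht.2.1, t.2]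
  · intro t ht t' ht' h
    rw [mem_coe, mem_filter] at ht ht'
    apply Subtype.ext
    rw [← insert_erase ht.2.1, ← insert_erase ht'.2.1]
    exact congrArg (insert a) h

lemma st8_one {R s : ℕ} (a : Fin R) :
    (univ.filter (fun t : {t : Finset (Fin R) // t.card = s} => a ∈ t.1)).card ≤
      (R - 1).choose (s - 1) := by
  have h1 : (powersetCard (s - 1) ((univ : Finset (Fin R)).erase a)).card =
      (R - 1).choose (s - 1) := by
    rw [card_powersetCard, card_erase_of_mem (mem_univ _), card_univ, Fintype.card_fin]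
  rw [← h1]
  refine Finset.card_le_card_of_injOn (fun t => t.1.erase a) ?_ ?_
  · intro t ht
    rw [mem_coe, mem_filter] at ht
    rw [mem_coe, mem_powersetCard]
    refine ⟨?_, ?_⟩
    · intro x hx
      rw [mem_erase] at hx
      rw [mem_erase]
      exact ⟨hx.1, mem_univ _⟩
    · rw [card_erase_of_mem ht.2, t.2]
  · intro t ht t' ht' h
    rw [mem_coe, mem_filter] at ht ht'
    apply Subtype.ext
    rw [← insert_erase ht.2, ← insert_erase ht'.2]
    exact congrArg (insert a) h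

lemma st8_le_choose (n : ℕ) : ∀ k, 1 ≤ k → k < n → n ≤ n.choose k := by
  induction n with
  | zero => intro k _ hk; omega
  | succ n ih =>
    intro k hk hkn
    obtain ⟨k, rfl⟩ : ∃ j, k = j + 1 := ⟨k - 1, by omega⟩
    rw [Nat.choose_succ_succ']
    by_cases h : k + 1 = n
    · subst h
      rw [Nat.choose_self, Nat.choose_succ_self_right]
    · have h1 := ih (k + 1) (by omega) (by omega)
      have h2 : 0 < n.choose k := Nat.choose_pos (by omega)
      omega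

/-- the two numerical inequalities -/
lemma st8_num {a : ℕ} (ha : 3 ≤ a) :
    4 * (2 * a ^ 2 - 2).choose (a ^ 2 - a - 1) + 4 ≤ (2 * a ^ 2).choose (a ^ 2 - a) ∧
    2 * (2 * a ^ 2 - 1).choose (a ^ 2 - a - 1) + 4 ≤ (2 * a ^ 2).choose (a ^ 2 - a) := by
  have hsq : a ^ 2 = a * a := sq a
  have hge : 3 * a ≤ a * a := Nat.mul_le_mul_right a ha
  obtain ⟨s, hs⟩ : ∃ s, a ^ 2 = s + 1 + a := ⟨a ^ 2 - a - 1, by omega⟩
  obtain ⟨R, hR⟩ : ∃ R, 2 * a ^ 2 = R + 2 := ⟨2 * a ^ 2 - 2, by omega⟩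
  have e1 : a ^ 2 - a - 1 = s := by (clear * - hsq hs; omega)
  have e2 : a ^ 2 - a = s + 1 := by omega
  have e3 : 2 * a ^ 2 - 2 = R := by omega
  have e4 : 2 * a ^ 2 - 1 = R + 1 := by omega
  rw [e1, e2, e3, e4, hR]
  set C := (R + 2).choose (s + 1) with hC
  set Y := (R + 1).choose s with hY
  set X := R.choose s with hX
  have hX1 : R ≤ X := st8_le_choose R s (by omega) (by (clear * - ha hsq hge hs hR e1 e2; omega))
  have i1 : (R + 2) * Y = C * (s + 1) := Nat.add_one_mul_choose_eq (R + 1) s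
  have i2 : X * (R + 1) = Y * (R + 1 - s) := Nat.choose_mul_succ_eq R s
  have e5 : R + 1 - s = a ^ 2 + a := by (clear * - ha hsq hge hs hR e1 e2; omega)
  rw [e5] at i2

  have z1 : (2 * (a : ℤ) ^ 2) * Y = C * ((a : ℤ) ^ 2 - a) := by
    have h1 : ((R + 2 : ℕ) : ℤ) = 2 * (a : ℤ) ^ 2 := by rw [← hR]; push_cast; ring
    have h2 : ((s + 1 : ℕ) : ℤ) = (a : ℤ) ^ 2 - a := by
      have h3 : ((a ^ 2 : ℕ) : ℤ) = ((s + 1 + a : ℕ) : ℤ) := by rw [hs]
      push_cast at h3 ⊢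
      linarith only [h3]
    rw [← h1, ← h2]
    exact_mod_cast i1
  have z2 : (X : ℤ) * (2 * (a : ℤ) ^ 2 - 1) = Y * ((a : ℤ) ^ 2 + a) := by
    have h1 : ((R + 1 : ℕ) : ℤ) = 2 * (a : ℤ) ^ 2 - 1 := by
      have h3 : ((2 * a ^ 2 : ℕ) : ℤ) = ((R + 2 : ℕ) : ℤ) := by rw [hR]
      push_cast at h3 ⊢
      linarith only [h3]
    rw [← h1]
    exact_mod_cast i2
  have z3 : 2 * ((a : ℤ) ^ 2 - 1) ≤ X := by
    have h3 : ((2 * a ^ 2 : ℕ) : ℤ) = ((R + 2 : ℕ) : ℤ) := by rw [hR]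
    push_cast at h3
    have h4 : (R : ℤ) ≤ X := by exact_mod_cast hX1
    linarith only [h3, h4]
  have ha0 : (3 : ℤ) ≤ a := by exact_mod_cast ha
  have ha1 : (0 : ℤ) < a := by linarith only [ha0]
  have w1 : 2 * (a : ℤ) * Y = C * (a - 1) := by
    have h1 : (a : ℤ) * (2 * a * Y) = a * (C * (a - 1)) := by linear_combination z1
    exact mul_left_cancel₀ ha1.ne' h1
  have w2 : ((C : ℤ) - 4 * X) * ((a : ℤ) ^ 2 - 1) = 2 * X := by
    linear_combination (-(a : ℤ) - 1) * w1 - 2 * z2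
  have hp : (0 : ℤ) < (a : ℤ) ^ 2 - 1 := by nlinarith only [ha0]
  have w3 : (4 : ℤ) ≤ C - 4 * X := by
    have h1 : 4 * ((a : ℤ) ^ 2 - 1) ≤ ((C : ℤ) - 4 * X) * ((a : ℤ) ^ 2 - 1) := by
      rw [w2]; linarith only [z3]
    exact le_of_mul_le_mul_right h1 hp
  have w4 : ((C : ℤ) - 2 * Y) * a = C := by linear_combination -w1
  have w5 : (4 : ℤ) ≤ C - 2 * Y := by
    have h1 : 4 * (a : ℤ) ≤ ((C : ℤ) - 2 * Y) * a := by
      rw [w4]
      nlinarith only [w3, z3, ha0]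
    exact le_of_mul_le_mul_right h1 ha1
  constructor
  · have : (4 * X + 4 : ℤ) ≤ C := by linarith only [w3]
    exact_mod_cast this
  · have : (2 * Y + 4 : ℤ) ≤ C := by linarith only [w5]
    exact_mod_cast this

/-- Task T8 -/
theorem Sep4_DDa {a : ℕ} (ha : 3 ≤ a) (n q : ℕ) : Sep4 (DDa a n q) := by
  have hR : 0 < 2 * a ^ 2 := by positivity
  have hs0 : 0 < a ^ 2 - a := by
    have hsq : a ^ 2 = a * a := sq a
    have hge : 3 * a ≤ a * a := Nat.mul_le_mul_right a ha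
    omega
  obtain ⟨num1, num2⟩ := st8_num ha
  intro i j _
  rw [st8_card_TTa]
  set b : Fin (2 * a ^ 2) := ⟨i.val % (2 * a ^ 2), Nat.mod_lt _ hR⟩ with hb
  set c : Fin (2 * a ^ 2) := ⟨j.val % (2 * a ^ 2), Nat.mod_lt _ hR⟩ with hc
  have hsplit : (univ.filter (fun t : TTa a => (i ∈ DDa a n q t ∧ j ∉ DDa a n q t) ∨
      (i ∉ DDa a n q t ∧ j ∈ DDa a n q t))).card ≤
      (univ.filter (fun t : TTa a => i ∈ DDa a n q t ∧ j ∉ DDa a n q t)).card +
      (univ.filter (fun t : TTa a => j ∈ DDa a n q t ∧ i ∉ DDa a n q t)).card := by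
    rw [filter_or]
    refine (card_union_le _ _).trans ?_
    apply Nat.add_le_add_left
    apply card_le_card
    intro t ht
    rw [mem_filter] at ht ⊢
    exact ⟨mem_univ _, ht.2.2, ht.2.1⟩

  have hone : ∀ (i j : Fin n) (b c : Fin (2 * a ^ 2)),
      b = (⟨i.val % (2 * a ^ 2), Nat.mod_lt _ hR⟩ : Fin (2 * a ^ 2)) →
      c = (⟨j.val % (2 * a ^ 2), Nat.mod_lt _ hR⟩ : Fin (2 * a ^ 2)) → j.val < 2 * a ^ 2 * q →
      (univ.filter (fun t : TTa a => i ∈ DDa a n q t ∧ j ∉ DDa a n q t)).card ≤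
        (2 * a ^ 2 - 2).choose (a ^ 2 - a - 1) := by
    intro i j b c hb hc hj
    by_cases hbc : b = c
    · have : univ.filter (fun t : TTa a => i ∈ DDa a n q t ∧ j ∉ DDa a n q t) = ∅ := by
        apply filter_eq_empty_iff.2
        rintro t _ ⟨h1, h2⟩
        rw [st8_mem hR] at h1 h2
        apply h2
        refine ⟨hj, ?_⟩
        rw [← hc, ← hbc, hb]
        exact h1.2
      rw [this]
      simp only [card_empty, zero_le]
    · refine le_trans (card_le_card ?_) (st8_pair hbc)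
      intro t ht
      rw [mem_filter] at ht ⊢
      obtain ⟨_, h1, h2⟩ := ht
      rw [st8_mem hR] at h1 h2
      refine ⟨mem_univ _, hb ▸ h1.2, fun h3 => h2 ⟨hj, hc ▸ h3⟩⟩
  have hout : ∀ (i j : Fin n), ¬ i.val < 2 * a ^ 2 * q →
      (univ.filter (fun t : TTa a => i ∈ DDa a n q t ∧ j ∉ DDa a n q t)).card = 0 := by
    intro i j hi
    rw [card_eq_zero]
    apply filter_eq_empty_iff.2
    rintro t _ ⟨h1, _⟩
    rw [st8_mem hR] at h1
    exact hi h1.1
  have hin : ∀ (i j : Fin n),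
      (univ.filter (fun t : TTa a => i ∈ DDa a n q t ∧ j ∉ DDa a n q t)).card ≤
        (2 * a ^ 2 - 1).choose (a ^ 2 - a - 1) := by
    intro i j
    refine le_trans (card_le_card ?_)
      (st8_one (⟨i.val % (2 * a ^ 2), Nat.mod_lt _ hR⟩ : Fin (2 * a ^ 2)))
    intro t ht
    rw [mem_filter] at ht ⊢
    obtain ⟨_, h1, _⟩ := ht
    rw [st8_mem hR] at h1
    exact ⟨mem_univ _, h1.2⟩
  by_cases hi : i.val < 2 * a ^ 2 * q
  · by_cases hj : j.val < 2 * a ^ 2 * q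
    · have h1 := hone i j b c hb hc hj
      have h2 := hone j i c b hc hb hi
      omega
    · have h1 := hin i j
      have h2 := hout j i hj
      (clear * - hR num2 hsplit h1 h2; omega)
  · have h1 := hout i j hi
    have h2 := hin j i
    omega

end Vale.Agent.P160
end
end

section

section

set_option linter.unusedSectionVars false

namespace Vale.Agent.P160

open Finset

open Classical in
/-- Task T3: the structured event, given the block estimate. -/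
theorem Pb_EvA6_le {n : ℕ} {T : Type} [Fintype T] [DecidableEq T] [Nonempty T]
    (D : T → Finset (Fin n)) (hD : Sep4 D) {I u : ℕ} {τ : ℝ} (j : ℕ) (t₀ : T)
    {d : ℕ} (hd : ∀ t, Fintype.card {i // i ∈ D t} = d) {κ Λ X Y : ℝ} (hκ0 : 0 ≤ κ)
    (hΛ : 1 ≤ Λ) (hX : 0 ≤ X) (hY : 0 ≤ Y)
    (hκ : ((univ.filter (fun x : {i // i ∈ D t₀} → ZMod (2 ^ (j + 1)) =>
      u ≤ nu x ∧ BadL I τ x)).card : ℝ) ≤ κ * ((2 : ℝ) ^ (j + 1)) ^ d)
    (hblock : ∀ t, ∀ C : Finset ({i // i ∈ D t} → ZMod (2 ^ (j + 1))),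
      (∀ x ∈ C, u ≤ nu x ∧ GoodX I τ (fun i => ((x i).cast : ZMod (2 ^ j)))) →
      ∑ x ∈ C, ∑ z : {i // i ∉ D t} → ZMod (2 ^ (j + 1)), Bpr 4 x z ≤
        X * ((C.card : ℝ) / ((2 : ℝ) ^ (j + 1)) ^ d) + Y) :
    Pb (EvA6 D I u τ j t₀) ≤ (2 : ℝ) ^ (j + 1) *
      (Λ ^ Fintype.card T * (X * κ + Y) + Λ⁻¹ * (X + Y)) := by
  have hΛ0 : 0 < Λ := by linarith only [hΛ]
  have hN0 : (0 : ℝ) < ((2 : ℝ) ^ (j + 1)) ^ d := by positivity
  set C : Finset (Fin n → ZMod (2 ^ (j + 1))) := univ.filter (fun v =>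
    (∀ t, u ≤ nu (fun i : {i // i ∈ D t} => v i)) ∧
    BadL I τ (fun i : {i // i ∈ D t₀} => v i) ∧
    ∀ t, GoodX I τ (fun i : {i // i ∈ D t} => ((v i).cast : ZMod (2 ^ j)))) with hC
  set s : Finset ((Fin n → ZMod (2 ^ (j + 1))) × ZMod (2 ^ (j + 1))) := C ×ˢ univ with hs
  set w : T → ℝ := fun t => if t = t₀ then Λ ^ Fintype.card T else Λ⁻¹ with hw
  have hw0 : ∀ t, 0 ≤ w t := by
    intro t
    rw [hw]
    simp only
    split_ifs <;> positivity
  have h1 : Pb (EvA6 D I u τ j t₀) ≤ Pb (fun b => ∃ p ∈ s, smul2 b p.1 = fun _ => p.2) := by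
    apply Pb_mono
    rintro b ⟨v, c, hv, h⟩
    refine ⟨(v, c), ?_, h⟩
    rw [hs, mem_product]
    refine ⟨?_, mem_univ _⟩
    rw [hC, mem_filter]
    exact ⟨mem_univ _, hv⟩
  have h2 : ∀ p ∈ s, Pb (fun b => smul2 b p.1 = fun _ => p.2) ≤
      (∑ t, w t * Bpr 4 (fun j : {i // i ∈ D t} => p.1 j) (fun i : {i // i ∉ D t} => p.1 i)) /
        Fintype.card T := by
    intro p _
    rw [Pb_eq_Spr, Spr_eq_bpr]
    exact bpr_symc_le D hD.sep p.1 w hw0 (prod_weights hΛ t₀) _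
  have h3 := (h1.trans (Pb_exists s _)).trans (sum_le_sum h2)
  refine h3.trans ?_
  rw [hs, sum_product]
  simp only [sum_const, nsmul_eq_mul, card_univ, ZMod.card]
  rw [← mul_sum]
  push_cast
  refine mul_le_mul_of_nonneg_left ?_ (by positivity)
  rw [← sum_div, sum_comm]
  have hT : (0 : ℝ) < Fintype.card T := by exact_mod_cast Fintype.card_pos
  rw [div_le_iff₀ hT]
  have hXκ : 0 ≤ X * κ + Y := by (clear * - hX hκ0 hY; positivity)
  have h4 : ∀ t, ∑ v ∈ C, w t * Bpr 4 (fun j : {i // i ∈ D t} => v j)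
      (fun i : {i // i ∉ D t} => v i) ≤
      Λ ^ Fintype.card T * (X * κ + Y) + Λ⁻¹ * (X + Y) := by
    intro t
    rw [← mul_sum]
    by_cases ht : t = t₀
    · subst ht
      set C₁ : Finset ({i // i ∈ D t} → ZMod (2 ^ (j + 1))) := univ.filter (fun x =>
        u ≤ nu x ∧ BadL I τ x ∧ GoodX I τ (fun i => ((x i).cast : ZMod (2 ^ j)))) with hC₁
      have h5 := sum_restrict_le (D t) C C₁ (fun v hv => by
        rw [hC, mem_filter] at hv
        rw [hC₁, mem_filter]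
        exact ⟨mem_univ _, hv.2.1 t, hv.2.2.1, hv.2.2.2 t⟩) (fun x z => Bpr 4 x z)
        (fun x z => Bpr_nonneg 4 x z)
      have h6 := hblock t C₁ (fun x hx => by
        rw [hC₁, mem_filter] at hx
        exact ⟨hx.2.1, hx.2.2.2⟩)
      have h7 : (C₁.card : ℝ) / ((2 : ℝ) ^ (j + 1)) ^ d ≤ κ := by
        rw [div_le_iff₀ hN0]
        refine le_trans ?_ hκ
        exact_mod_cast card_le_card fun x hx => by
          rw [hC₁, mem_filter] at hx
          rw [mem_filter]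
          exact ⟨mem_univ _, hx.2.1, hx.2.2.1⟩
      have h8 := mul_le_mul_of_nonneg_left h7 hX
      have hwt : w t = Λ ^ Fintype.card T := by rw [hw]; simp only [↓reduceIte]
      rw [hwt]
      have h9 : 0 ≤ Λ⁻¹ * (X + Y) := by (clear * - hΛ hX hY; positivity)
      have h10 := mul_le_mul_of_nonneg_left (h5.trans (h6.trans (add_le_add_left h8 Y)))
        (show 0 ≤ Λ ^ Fintype.card T by positivity)
      linarith only [h9, h10]
    · set C₁ : Finset ({i // i ∈ D t} → ZMod (2 ^ (j + 1))) := univ.filter (fun x =>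
        u ≤ nu x ∧ GoodX I τ (fun i => ((x i).cast : ZMod (2 ^ j)))) with hC₁
      have h5 := sum_restrict_le (D t) C C₁ (fun v hv => by
        rw [hC, mem_filter] at hv
        rw [hC₁, mem_filter]
        exact ⟨mem_univ _, hv.2.1 t, hv.2.2.2 t⟩) (fun x z => Bpr 4 x z)
        (fun x z => Bpr_nonneg 4 x z)
      have h6 := hblock t C₁ (fun x hx => by
        rw [hC₁, mem_filter] at hx
        exact ⟨hx.2.1, hx.2.2⟩)
      have h7 : (C₁.card : ℝ) / ((2 : ℝ) ^ (j + 1)) ^ d ≤ 1 := by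
        rw [div_le_one hN0]
        have : C₁.card ≤ (2 ^ (j + 1)) ^ d := by
          refine (card_le_univ _).trans (le_of_eq ?_)
          rw [Fintype.card_fun, ZMod.card, hd]
        exact_mod_cast this
      have h8 := mul_le_mul_of_nonneg_left h7 hX
      rw [mul_one] at h8
      have hwt : w t = Λ⁻¹ := by rw [hw]; simp [ht]
      rw [hwt]
      have h9 : 0 ≤ Λ ^ Fintype.card T * (X * κ + Y) := by (clear * - hΛ hX hκ0 hY; positivity)
      have h10 := mul_le_mul_of_nonneg_left (h5.trans (h6.trans (add_le_add_left h8 Y)))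
        (show 0 ≤ Λ⁻¹ by positivity)
      linarith only [h9, h10]
  refine (sum_le_sum fun t _ => h4 t).trans (le_of_eq ?_)
  rw [sum_const, card_univ, nsmul_eq_mul, mul_comm]

end Vale.Agent.P160
end
end

section

section

set_option linter.unusedSectionVars false

namespace Vale.Agent.P160

open Finset

/-- the fibres of the reduction have at most `2 ^ d` elements -/
theorem st4_fiber {α : Type} [Fintype α] [DecidableEq α] {j : ℕ}
    (C : Finset (α → ZMod (2 ^ (j + 1)))) (y : α → ZMod (2 ^ j)) :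
    (C.filter fun x => (fun i => ((x i).cast : ZMod (2 ^ j))) = y).card ≤
      2 ^ Fintype.card α := by
  have hlt : ∀ a : ZMod (2 ^ (j + 1)), a.val / 2 ^ j < 2 := by
    intro a
    have h1 : a.val < 2 ^ (j + 1) := ZMod.val_lt a
    rw [Nat.div_lt_iff_lt_mul (by positivity)]
    calc a.val < 2 ^ (j + 1) := h1
      _ = 2 * 2 ^ j := by ring
  have h2 : (univ : Finset (α → Fin 2)).card = 2 ^ Fintype.card α := by
    rw [card_univ, Fintype.card_pi, prod_const, Fintype.card_fin, card_univ]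
  rw [← h2]
  refine Finset.card_le_card_of_injOn (fun x i => (⟨(x i).val / 2 ^ j, hlt _⟩ : Fin 2))
    (fun _ _ => by simp) ?_
  intro x hx x' hx' h
  rw [Finset.mem_coe, mem_filter] at hx hx'
  funext i
  have e1 := congrArg Fin.val (congrFun h i)
  simp only at e1
  have e2 := congrFun (hx.2.trans hx'.2.symm) i
  have e3 : ∀ a : ZMod (2 ^ (j + 1)), (a.cast : ZMod (2 ^ j)).val = a.val % 2 ^ j := by
    intro a
    rw [← ZMod.natCast_val, ZMod.val_natCast]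
  have e4 := congrArg ZMod.val e2
  simp only [e3] at e4
  apply ZMod.val_injective
  rw [← Nat.div_add_mod (x i).val (2 ^ j), ← Nat.div_add_mod (x' i).val (2 ^ j), e1, e4]

theorem st4_fiber_sum {α : Type} [Fintype α] [DecidableEq α] {j : ℕ}
    (C : Finset (α → ZMod (2 ^ (j + 1)))) (F : (α → ZMod (2 ^ j)) → ℝ) (hF : ∀ y, 0 ≤ F y) :
    ∑ x ∈ C, F (fun i => ((x i).cast : ZMod (2 ^ j))) ≤ (2 : ℝ) ^ Fintype.card α *
      ∑ y ∈ C.image (fun x i => ((x i).cast : ZMod (2 ^ j))), F y := by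
  classical
  rw [← Finset.sum_fiberwise_of_maps_to (g := fun x i => ((x i).cast : ZMod (2 ^ j)))
    (t := C.image (fun x i => ((x i).cast : ZMod (2 ^ j))))
    (fun x hx => mem_image_of_mem _ hx), mul_sum]
  refine sum_le_sum fun y _ => ?_
  have h1 : ∀ x ∈ C.filter (fun x => (fun i => ((x i).cast : ZMod (2 ^ j))) = y),
      F (fun i => ((x i).cast : ZMod (2 ^ j))) = F y := by
    intro x hx
    rw [mem_filter] at hx
    rw [hx.2]
  rw [sum_congr rfl h1, sum_const, nsmul_eq_mul]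
  refine mul_le_mul_of_nonneg_right ?_ (hF y)
  exact_mod_cast st4_fiber C y

/-- the arithmetic of `B` -/
theorem st4_B {I j d m : ℕ} {θ : ℝ} (hI : 1 ≤ I) (hθ : 0 < θ) (hθI : 4 ≤ θ * I)
    (hm : (1 + θ) * d ≤ m) (hj : 2 * j ≤ d) (hd : 8 / θ ≤ d) :
    2 * ((j + I - 1) / I) + d ≤ m ∧ ((j + I - 1) / I) * I ≤ j + I ∧ j ≤ ((j + I - 1) / I) * I := by
  set B := (j + I - 1) / I with hB
  have h1 : B * I ≤ j + I - 1 := Nat.div_mul_le_self _ _
  have h2 : j + I - 1 < (B + 1) * I := by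
    rw [hB, Nat.add_mul, one_mul]
    have := Nat.div_add_mod (j + I - 1) I
    have h3 := Nat.mod_lt (j + I - 1) (show 0 < I by omega)
    nlinarith only [this, h3]
  have h3 : j ≤ B * I := by
    rw [Nat.add_mul, one_mul] at h2
    (clear * - hI h2; omega)
  refine ⟨?_, by (clear * - hI h1; omega), h3⟩
  have h4 : (B : ℝ) * I ≤ j + I := by
    have : B * I ≤ j + I := by (clear * - hI h1; omega)
    exact_mod_cast this
  have hIr : (1 : ℝ) ≤ I := by exact_mod_cast hI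
  have h5 : (2 : ℝ) * j ≤ d := by exact_mod_cast hj
  have h6 : (2 : ℝ) * B ≤ θ * d := by
    rw [div_le_iff₀ hθ] at hd
    have h7 : (2 : ℝ) * B * I ≤ θ * d * I := by
      have h8 : (d : ℝ) * 4 ≤ d * (θ * I) :=
        mul_le_mul_of_nonneg_left hθI (Nat.cast_nonneg _)
      have h9 : (8 : ℝ) * I ≤ d * θ * I := mul_le_mul_of_nonneg_right hd (by linarith only [])
      (clear * - h4 hIr h5 h8 h9; nlinarith)
    exact le_of_mul_le_mul_right h7 (by (clear * - hIr; linarith))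
  have h7 : ((2 * B + d : ℕ) : ℝ) ≤ m := by
    push_cast
    linarith only [hm, h6]
  exact_mod_cast h7

section main

variable {α β : Type} [Fintype α] [DecidableEq α] [Fintype β] [DecidableEq β]

/-- one vector: reduction to level `j` and splitting into the near and the far part -/
theorem st4_split {j : ℕ} (x : α → ZMod (2 ^ (j + 1))) (I L B : ℕ) (hI : 1 ≤ I)
    (hB : j ≤ B * I) :
    (∑ ω : β → α → Fin 4, if (∀ i, walk (ω i) x = 0) then
        ((kerN (2 ^ (j + 1)) (hm ω)).card : ℝ) else 0) ≤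
      (2 : ℝ) ^ Fintype.card α * ((∑ ω : β → α → Fin 4,
          if (∀ i, walk (ω i) (fun i => ((x i).cast : ZMod (2 ^ j))) = 0) ∧
            (kerN (2 ^ I) (hm ω)).card < L then
          ((kerN (2 ^ I) (hm ω)).card : ℝ) ^ B else 0) +
        ∑ ω : β → α → Fin 4,
          if (∀ i, walk (ω i) (fun i => ((x i).cast : ZMod (2 ^ j))) = 0) ∧
            L ≤ (kerN (2 ^ I) (hm ω)).card then
          ((kerN (2 ^ j) (hm ω)).card : ℝ) else 0) := by
  rw [← sum_add_distrib, mul_sum]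
  refine sum_le_sum fun ω _ => ?_
  have hnn : (0 : ℝ) ≤ (2 : ℝ) ^ Fintype.card α := by positivity
  by_cases h : ∀ i, walk (ω i) x = 0
  · rw [if_pos h]
    have h' : ∀ i, walk (ω i) (fun i => ((x i).cast : ZMod (2 ^ j))) = 0 := fun i =>
      sn8_walk_cast (Nat.le_succ j) (ω i) x (h i)
    have h1 : ((kerN (2 ^ (j + 1)) (hm ω)).card : ℝ) ≤
        (2 : ℝ) ^ Fintype.card α * (kerN (2 ^ j) (hm ω)).card := by
      exact_mod_cast card_kerN_succ_le (hm ω) j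
    by_cases hL : (kerN (2 ^ I) (hm ω)).card < L
    · rw [if_pos ⟨h', hL⟩, if_neg (fun hh => absurd hh.2 (not_le.2 hL)), add_zero]
      refine h1.trans (mul_le_mul_of_nonneg_left ?_ hnn)
      exact_mod_cast card_kerN_pow_le (hm ω) hI hB
    · rw [if_neg (fun hh => hL hh.2), if_pos ⟨h', not_lt.1 hL⟩, zero_add]
      exact h1
  · rw [if_neg h]
    refine mul_nonneg hnn (add_nonneg ?_ ?_) <;>
    · split_ifs <;> positivity

end main

/-- Task T4: block estimate for the structured event. -/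
theorem sumA6 (I : ℕ) (hI : 1 ≤ I) {θ δ c : ℝ} (hθ : 0 < θ) (hθI : 4 ≤ θ * I) (hδ : 0 < δ)
    (hc : 0 < c) :
    ∃ c7 : ℝ, 0 < c7 ∧ ∃ d0 : ℕ, ∀ (α β : Type) [Fintype α] [DecidableEq α]
      [Fintype β] [DecidableEq β], d0 ≤ Fintype.card α →
      (1 + θ) * Fintype.card α ≤ Fintype.card β → Fintype.card β ≤ 4 * Fintype.card α →
      ∀ j : ℕ, I ≤ j → 2 * j ≤ Fintype.card α → ∀ C : Finset (α → ZMod (2 ^ (j + 1))),
      (∀ x ∈ C, δ * Fintype.card α ≤ nu x ∧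
        GoodX I (Real.exp (-c * Fintype.card α)) (fun i => ((x i).cast : ZMod (2 ^ j)))) →
      ∑ x ∈ C, ∑ z : β → ZMod (2 ^ (j + 1)), Bpr 4 x z ≤
        (2 : ℝ) ^ (Fintype.card β + Fintype.card α + j + I + 3) *
          ((C.card : ℝ) / ((2 : ℝ) ^ (j + 1)) ^ Fintype.card α) +
        (2 : ℝ) ^ ((Fintype.card β : ℝ) + Fintype.card α - c7 * (Fintype.card α : ℝ) ^ 2) := by
  obtain ⟨c3, hc3, c8, hc8, d1, hnt⟩ := near_tail I hI hθ hδ hc
  obtain ⟨c7, hc7, d2, hfar⟩ := far_part hθ hc8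
  refine ⟨c7, hc7, max d1 (max d2 ⌈8 / θ⌉₊), ?_⟩
  intro α β _ _ _ _ hd hm1 hm2 j hIj hj C hC
  simp only [max_le_iff] at hd
  obtain ⟨hd1, hd2, hd3⟩ := hd
  have hd3' : 8 / θ ≤ (Fintype.card α : ℝ) := (Nat.le_ceil _).trans (by exact_mod_cast hd3)
  obtain ⟨hB1, hB2, hB3⟩ := st4_B hI hθ hθI hm1 hj hd3'
  set B := (j + I - 1) / I with hB
  set d := Fintype.card α with hdd
  set m := Fintype.card β with hmm
  set L := 2 ^ (I + ⌊c3 * d⌋₊) with hL
  clear_value L B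
  have hj1 : 1 ≤ j := hI.trans hIj
  -- the estimates for one vector
  have hx1 : ∀ x ∈ C, (∑ ω : β → α → Fin 4,
        if (∀ i, walk (ω i) (fun i => ((x i).cast : ZMod (2 ^ j))) = 0) ∧
            (kerN (2 ^ I) (hm ω)).card < L then
          ((kerN (2 ^ I) (hm ω)).card : ℝ) ^ B else 0) ≤
          8 * (2 : ℝ) ^ (j + I) * (1 / 2 ^ j) ^ m * 4 ^ (m * d) := by
    intro x hx
    obtain ⟨hx2, hx3⟩ := hC x hx
    have h1 := (hnt α β hd1 hm1 hm2 j hIj (by omega)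
      (fun i => ((x i).cast : ZMod (2 ^ j))) (by
        rw [sn8_nu_cast hj1 (Nat.le_succ j)]; exact hx2) hx3).1 B hB1 (by (clear * - hB2 hB3; omega))
    rw [← hL] at h1
    refine h1.trans ?_
    have h2 : ((2 : ℝ) ^ I) ^ B ≤ 2 ^ (j + I) := by
      rw [← pow_mul, mul_comm]
      exact pow_le_pow_right₀ (by norm_num) hB2
    gcongr
  have hx2 : ∀ y ∈ C.image (fun x i => ((x i).cast : ZMod (2 ^ j))),
      ((univ.filter (fun ω : β → α → Fin 4 => (∀ i, walk (ω i) y = 0) ∧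
          L ≤ (kerN (2 ^ I) (hm ω)).card)).card : ℝ) ≤
        (2 : ℝ) ^ (-c8 * (d : ℝ) ^ 2) * (1 / 2 ^ j) ^ m * 4 ^ (m * d) := by
    intro y hy
    rw [mem_image] at hy
    obtain ⟨x, hx, rfl⟩ := hy
    obtain ⟨hx2, hx3⟩ := hC x hx
    have h1 := (hnt α β hd1 hm1 hm2 j hIj (by (clear * - hj; omega))
      (fun i => ((x i).cast : ZMod (2 ^ j))) (by
        rw [sn8_nu_cast hj1 (Nat.le_succ j)]; exact hx2) hx3).2
    rw [← hL] at h1
    exact h1
  have hf := hfar α β hd2 hm1 j hj (fun ω => L ≤ (kerN (2 ^ I) (hm ω)).card)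
    (C.image (fun x i => ((x i).cast : ZMod (2 ^ j)))) (by
      intro y hy
      convert hx2 y hy)
  -- summation
  have hmain : ((2 : ℝ) ^ (j + 1)) ^ d * ∑ x ∈ C, ∑ z : β → ZMod (2 ^ (j + 1)), Bpr 4 x z ≤
      ((2 : ℝ) ^ (j + 1)) ^ m / 4 ^ (m * d) * (2 ^ d *
        (C.card * (8 * (2 : ℝ) ^ (j + I) * (1 / 2 ^ j) ^ m * 4 ^ (m * d)) +
          2 ^ d * ((2 : ℝ) ^ (-c7 * (d : ℝ) ^ 2) * (2 ^ j) ^ d *
          (1 / 2 ^ j) ^ m * 4 ^ (m * d)))) := by
    rw [mul_sum]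
    have h1 : ∀ x ∈ C, ((2 : ℝ) ^ (j + 1)) ^ d * ∑ z : β → ZMod (2 ^ (j + 1)), Bpr 4 x z ≤
        ((2 : ℝ) ^ (j + 1)) ^ m / 4 ^ (m * d) * ((2 : ℝ) ^ d *
          (8 * (2 : ℝ) ^ (j + I) * (1 / 2 ^ j) ^ m * 4 ^ (m * d) +
          ∑ ω : β → α → Fin 4,
          if (∀ i, walk (ω i) (fun i => ((x i).cast : ZMod (2 ^ j))) = 0) ∧
            L ≤ (kerN (2 ^ I) (hm ω)).card then
          ((kerN (2 ^ j) (hm ω)).card : ℝ) else 0)) := by
      intro x hx
      rw [sum_Bpr_eq6 x, mul_div_assoc', div_mul_eq_mul_div]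
      refine div_le_div_of_nonneg_right ?_ (by positivity)
      refine mul_le_mul_of_nonneg_left ?_ (by positivity)
      refine (st4_split (β := β) x I L B hI hB3).trans ?_
      refine mul_le_mul_of_nonneg_left ?_ (by positivity)
      exact add_le_add (hx1 x hx) le_rfl
    refine (sum_le_sum h1).trans ?_
    rw [← mul_sum, ← mul_sum, sum_add_distrib, sum_const, nsmul_eq_mul]
    refine mul_le_mul_of_nonneg_left ?_ (by positivity)
    refine mul_le_mul_of_nonneg_left ?_ (by positivity)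
    refine add_le_add le_rfl ?_
    have h2 := st4_fiber_sum C (fun y => ∑ ω : β → α → Fin 4,
          if (∀ i, walk (ω i) y = 0) ∧ L ≤ (kerN (2 ^ I) (hm ω)).card then
          ((kerN (2 ^ j) (hm ω)).card : ℝ) else 0) (fun y => sum_nonneg fun ω _ => by
            split_ifs <;> (clear * -; positivity))
    refine h2.trans (mul_le_mul_of_nonneg_left ((le_of_eq ?_).trans hf) (by positivity))
    refine sum_congr rfl fun y _ => sum_congr rfl fun ω _ => ?_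
    by_cases hh : (∀ i, walk (ω i) y = 0) ∧ L ≤ (kerN (2 ^ I) (hm ω)).card
    · rw [if_pos hh, if_pos hh]
    · rw [if_neg hh, if_neg hh]
  have hP : (0 : ℝ) < ((2 : ℝ) ^ (j + 1)) ^ d := by positivity
  have h4 : (4 : ℝ) ^ (m * d) ≠ 0 := by positivity
  have e1 : (2 : ℝ) ^ ((m : ℝ) + d - c7 * (d : ℝ) ^ 2) =
      2 ^ m * 2 ^ d * (2 : ℝ) ^ (-c7 * (d : ℝ) ^ 2) := by
    rw [show (m : ℝ) + d - c7 * (d : ℝ) ^ 2 = (m : ℝ) + d + (-c7 * (d : ℝ) ^ 2) by ring,
      Real.rpow_add (by norm_num), Real.rpow_add (by norm_num), Real.rpow_natCast,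
      Real.rpow_natCast]
  rw [e1]
  refine le_of_mul_le_mul_left (hmain.trans (le_of_eq ?_)) hP
  set R := (2 : ℝ) ^ (-c7 * (d : ℝ) ^ 2) with hR
  clear_value R
  have e2 : ((2 : ℝ) ^ (j + 1)) ^ m * (1 / 2 ^ j) ^ m = 2 ^ m := by
    rw [← mul_pow]
    congr 1
    rw [pow_succ]
    field_simp
  have e3 : ((2 : ℝ) ^ (j + 1)) ^ d = (2 ^ j) ^ d * 2 ^ d := by
    rw [pow_succ, mul_pow]
  have e4 : (2 : ℝ) ^ (m + d + j + I + 3) = 8 * 2 ^ (j + I) * 2 ^ m * 2 ^ d := by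
    rw [show m + d + j + I + 3 = 3 + (j + I) + m + d by ring, pow_add, pow_add, pow_add]
    norm_num
  calc ((2 : ℝ) ^ (j + 1)) ^ m / 4 ^ (m * d) * (2 ^ d *
        (C.card * (8 * (2 : ℝ) ^ (j + I) * (1 / 2 ^ j) ^ m * 4 ^ (m * d)) +
          2 ^ d * (R * (2 ^ j) ^ d * (1 / 2 ^ j) ^ m * 4 ^ (m * d))))
      = (((2 : ℝ) ^ (j + 1)) ^ m * (1 / 2 ^ j) ^ m) * (2 ^ d *
        (C.card * (8 * (2 : ℝ) ^ (j + I)) + 2 ^ d * (R * (2 ^ j) ^ d))) := by
        (clear * - h4; field_simp)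
    _ = 2 ^ m * (2 ^ d * (C.card * (8 * (2 : ℝ) ^ (j + I)) + 2 ^ d * (R * (2 ^ j) ^ d))) := by
        rw [e2]
    _ = _ := by
        have e5 : ∀ X : ℝ, ((2 : ℝ) ^ (j + 1)) ^ d * (X * ((C.card : ℝ) / ((2 : ℝ) ^ (j + 1)) ^ d)) =
            X * C.card := by
          intro X
          (clear * -; field_simp)
        rw [e4, mul_add (((2 : ℝ) ^ (j + 1)) ^ d), e5, e3]
        ring

end Vale.Agent.P160
end
end

section

section

set_option linter.unusedSectionVars false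

namespace Vale.Agent.P160

open Finset

lemma st5_good_mul {α : Type*} [Fintype α] [DecidableEq α] {I : ℕ} {τ : ℝ} {J : ℕ}
    {s : ZMod (2 ^ J)} (hs : IsUnit s) {x : α → ZMod (2 ^ J)} (h : GoodX I τ x) :
    GoodX I τ (fun i => s * x i) := by
  intro j hIj hjJ k
  have hd : 2 ^ j ∣ 2 ^ J := pow_dvd_pow 2 hjJ
  obtain ⟨φ, hφ⟩ : ∃ φ : ZMod (2 ^ J) →+* ZMod (2 ^ j), ∀ a : ZMod (2 ^ J),
      (a.cast : ZMod (2 ^ j)) = φ a := ⟨ZMod.castHom hd (ZMod (2 ^ j)), fun _ => rfl⟩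
  have hs' : IsUnit (φ s) := hs.map φ
  obtain ⟨w, hw⟩ := hs'
  have e : (fun i => ((s * x i).cast : ZMod (2 ^ j)) + 2 ^ (j - I) * k i) =
      fun i => φ s * (((x i).cast : ZMod (2 ^ j)) +
        2 ^ (j - I) * (((w⁻¹ : (ZMod (2 ^ j))ˣ) : ZMod (2 ^ j)) * k i)) := by
    funext i
    rw [hφ, hφ, map_mul, mul_add, ← hw, mul_left_comm (w : ZMod (2 ^ j)),
      Units.mul_inv_cancel_left]
  rw [e]
  have h1 := h j hIj hjJ (fun i => ((w⁻¹ : (ZMod (2 ^ j))ˣ) : ZMod (2 ^ j)) * k i)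
  unfold Zf at h1 ⊢
  rw [pr_unit_mul (hs.map φ)]
  exact h1

lemma st5_pr_le {α : Type*} [Fintype α] [DecidableEq α] {I : ℕ} {τ : ℝ} {J : ℕ} (hIJ : I ≤ J)
    {x : α → ZMod (2 ^ (J + 1))} (h : GoodX I τ x) :
    pr 6 x 0 ≤ (1 + τ) / 2 ^ (J + 1) := by
  have h1 := h (J + 1) (by omega) le_rfl (fun _ => 0)
  have e : (fun i => ((x i).cast : ZMod (2 ^ (J + 1))) + 2 ^ (J + 1 - I) * (0 : ZMod (2 ^ (J + 1))))
      = x := by
    funext i
    rw [mul_zero, add_zero, ZMod.cast_id', id]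
  rw [e] at h1
  rw [le_div_iff₀ (by positivity), mul_comm]
  unfold Zf at h1
  push_cast at h1
  exact h1

open Classical in
/-- Task T5: the unstructured event, given the block estimate. -/
theorem Pb_EvB6_le {n : ℕ} {T : Type} [Fintype T] [DecidableEq T] [Nonempty T]
    (D : T → Finset (Fin n)) (hD : Sep4 D) {I u : ℕ} (hu : Fintype.card T ≤ u) {τ : ℝ}
    (hτ : 0 ≤ τ) (J : ℕ) (hIJ : I ≤ J) {X : ℝ}
    (hblock : ∀ t, ∑ x ∈ univ.filter (fun x : {i // i ∈ D t} → ZMod (2 ^ (J + 1)) =>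
        u ≤ nu x ∧ GoodX I τ x),
      ∑ z : {i // i ∉ D t} → ZMod (2 ^ (J + 1)), Bq x z ≤ X) :
    Pb (EvB6 D I u τ J) ≤ 24 * (1 + τ) * X / ((2 : ℝ) ^ (J + 1)) ^ 2 := by
  have hT0 : 0 < Fintype.card T := Fintype.card_pos
  have hu0 : 0 < u := by omega
  set V : Finset (Fin n → ZMod (2 ^ (J + 1))) := univ.filter (fun v =>
    ∀ t, u ≤ nu (fun i : {i // i ∈ D t} => v i) ∧
      GoodX I τ (fun i : {i // i ∈ D t} => v i)) with hV
  set s : Finset (Σ _v : Fin n → ZMod (2 ^ (J + 1)), ZMod (2 ^ (J + 1))) :=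
    V.sigma (fun v => univ.filter (fun c => 2 * c = ∑ i, v i)) with hs
  have hmem : ∀ (v : Fin n → ZMod (2 ^ (J + 1))) (c : ZMod (2 ^ (J + 1))),
      (⟨v, c⟩ : Σ _v : Fin n → ZMod (2 ^ (J + 1)), ZMod (2 ^ (J + 1))) ∈ s ↔
      (∀ t, u ≤ nu (fun i : {i // i ∈ D t} => v i) ∧
      GoodX I τ (fun i : {i // i ∈ D t} => v i)) ∧ 2 * c = ∑ i, v i := by
    intro v c
    rw [hs, mem_sigma, hV, mem_filter, mem_filter]
    simp only [mem_univ, true_and]
  have t₁ : T := Classical.arbitrary T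
  have h3 := Pb_markov s (fun p b => Kev p.1 p.2 b) (2 ^ J) (EvB6 D I u τ J) (by
    rintro b ⟨g, c, hg, hc, hv⟩
    obtain ⟨i₀, hi₀⟩ := exists_unit_of_nu_pos
      (fun i : {i // i ∈ D t₁} => (g i : ZMod (2 ^ (J + 1)))) (by have := (hv t₁).1; omega)
    refine ⟨univ.image (fun τ : (ZMod (2 ^ (J + 1)))ˣ =>
      (⟨fun i => (τ : ZMod (2 ^ (J + 1))) * (g i : ZMod (2 ^ (J + 1))),
        (τ : ZMod (2 ^ (J + 1))) * (c : ZMod (2 ^ (J + 1)))⟩ :
        Σ _v : Fin n → ZMod (2 ^ (J + 1)), ZMod (2 ^ (J + 1)))), ?_, ?_, ?_⟩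
    · intro p hp
      rw [mem_image] at hp
      obtain ⟨τ', _, rfl⟩ := hp
      rw [hmem]
      refine ⟨fun t => ⟨?_, ?_⟩, ?_⟩
      · rw [nu_unit_mul τ'.isUnit (fun i : {i // i ∈ D t} => (g i : ZMod (2 ^ (J + 1))))]
        exact (hv t).1
      · exact st5_good_mul τ'.isUnit (hv t).2
      · rw [← mul_sum, ← Int.cast_sum, ← hc]
        push_cast
        ring
    · rw [Finset.card_image_of_injective, card_univ, card_units_two_pow]
      intro τ τ' ht
      simp only [Sigma.mk.injEq] at ht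
      have h4 : (τ : ZMod (2 ^ (J + 1))) * (g i₀ : ZMod (2 ^ (J + 1))) =
          τ' * (g i₀ : ZMod (2 ^ (J + 1))) := congrFun (by simpa using ht.1) i₀.1
      exact Units.ext (hi₀.mul_right_cancel h4)
    · intro p hp
      rw [mem_image] at hp
      obtain ⟨τ, _, rfl⟩ := hp
      have h4 := Kev_of_int (N := 2 ^ (J + 1)) b
        (fun i => ((τ : ZMod (2 ^ (J + 1))).val : ℤ) * g i)
        (((τ : ZMod (2 ^ (J + 1))).val : ℤ) * c) (by
          rw [smul2_mul_left, hg]) (by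
          rw [← mul_sum, ← hc]; ring)
      have h5 : (((τ : ZMod (2 ^ (J + 1))).val : ℤ) : ZMod (2 ^ (J + 1))) =
          (τ : ZMod (2 ^ (J + 1))) := by
        rw [Int.cast_natCast, ZMod.natCast_zmod_val]
      simp only [Int.cast_mul, h5] at h4
      exact h4)
  have hκV : ∀ p ∈ s, Pb (fun b => Kev p.1 p.2 b) ≤
      (∑ t, Bq (fun j : {i // i ∈ D t} => p.1 j) (fun i : {i // i ∉ D t} => p.1 i) *
        (6 * ((1 + τ) / 2 ^ (J + 1)))) / Fintype.card T := by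
    rintro ⟨v, c⟩ hp
    rw [hmem] at hp
    obtain ⟨l₀, hl₀, hunit⟩ := exists_centers D v hu (fun t => (hp.1 t).1)
    have h4 := Pb_Kev v c
    have h5 := bpr_cq_le6 D hD v l₀ hl₀ hunit ((fun _ => c), (∑ i, lft (v i)) ^ 2)
    have e1 : Pb (fun b => Kev v c b) = Pb (Kev v c) := rfl
    simp only
    rw [e1, h4]
    refine h5.trans ?_
    have hT : (0 : ℝ) < Fintype.card T := by exact_mod_cast hT0
    rw [div_le_div_iff_of_pos_right hT]
    refine sum_le_sum fun t _ => ?_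
    rw [gpr_cq_offp]
    refine mul_le_mul_of_nonneg_left ?_ (Bq_nonneg _ _)
    have h7 := st5_pr_le hIJ (hp.1 t).2
    linarith only [h7]
  have h4 := h3.trans (sum_le_sum hκV)
  push_cast at h4
  have h5 : ∑ p ∈ s, (∑ t, Bq (fun j : {i // i ∈ D t} => p.1 j)
      (fun i : {i // i ∉ D t} => p.1 i) * (6 * ((1 + τ) / 2 ^ (J + 1)))) / Fintype.card T ≤
      12 * ((1 + τ) / 2 ^ (J + 1)) * X := by
    rw [hs, sum_sigma]
    have h6 : ∀ v ∈ V, ∑ _c ∈ univ.filter (fun c : ZMod (2 ^ (J + 1)) => 2 * c = ∑ i, v i),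
        (∑ t, Bq (fun j : {i // i ∈ D t} => v j) (fun i : {i // i ∉ D t} => v i) *
        (6 * ((1 + τ) / 2 ^ (J + 1)))) / Fintype.card T ≤
        2 * ((∑ t, Bq (fun j : {i // i ∈ D t} => v j) (fun i : {i // i ∉ D t} => v i) *
        (6 * ((1 + τ) / 2 ^ (J + 1)))) / Fintype.card T) := by
      intro v _
      rw [sum_const, nsmul_eq_mul]
      have h7 : ((univ.filter (fun c : ZMod (2 ^ (J + 1)) => 2 * c = ∑ i, v i)).card : ℝ) ≤ 2 := by
        exact_mod_cast card_two_mul_eq_le _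
      refine mul_le_mul_of_nonneg_right h7 ?_
      apply div_nonneg _ (by positivity)
      apply sum_nonneg
      intro t _
      have := Bq_nonneg (fun j : {i // i ∈ D t} => v j) (fun i : {i // i ∉ D t} => v i)
      (clear * - this hτ; positivity)
    refine (sum_le_sum h6).trans ?_
    rw [← mul_sum, ← sum_div, sum_comm]
    have hT : (0 : ℝ) < Fintype.card T := by exact_mod_cast hT0
    rw [mul_div_assoc', div_le_iff₀ hT]
    have h8 : ∀ t, ∑ v ∈ V, Bq (fun j : {i // i ∈ D t} => v j)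
        (fun i : {i // i ∉ D t} => v i) * (6 * ((1 + τ) / 2 ^ (J + 1))) ≤
        X * (6 * ((1 + τ) / 2 ^ (J + 1))) := by
      intro t
      rw [← sum_mul]
      refine mul_le_mul_of_nonneg_right ?_ (by positivity)
      have h9 := sum_restrict_le (D t) V (univ.filter (fun x :
        {i // i ∈ D t} → ZMod (2 ^ (J + 1)) => u ≤ nu x ∧ GoodX I τ x)) (fun v hv => by
        rw [hV, mem_filter] at hv
        rw [mem_filter]
        exact ⟨mem_univ _, (hv.2 t).1, (hv.2 t).2⟩) (fun x z => Bq x z)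
        (fun x z => Bq_nonneg x z)
      exact h9.trans (hblock t)
    refine (mul_le_mul_of_nonneg_left (sum_le_sum fun t _ => h8 t) (by norm_num)).trans
      (le_of_eq ?_)
    rw [sum_const, card_univ, nsmul_eq_mul]
    ring
  have h6 := h4.trans h5
  rw [le_div_iff₀ (by positivity)]
  have hN : (0 : ℝ) < 2 ^ (J + 1) := by positivity
  calc Pb (EvB6 D I u τ J) * ((2 : ℝ) ^ (J + 1)) ^ 2
      = 2 * (2 : ℝ) ^ (J + 1) * (2 ^ J * Pb (EvB6 D I u τ J)) := by ring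
    _ ≤ 2 * (2 : ℝ) ^ (J + 1) * (12 * ((1 + τ) / 2 ^ (J + 1)) * X) :=
        mul_le_mul_of_nonneg_left h6 (by positivity)
    _ = _ := by
        field_simp
        ring

end Vale.Agent.P160
end
end

section

section

set_option linter.unusedSectionVars false

namespace Vale.Agent.P160

open Finset

lemma st6d_exp {I L e b d m : ℕ} (he : e < I) (hbI : b * I + 1 ≤ L + I)
    (hm : b + d + 3 * I + 3 ≤ m) :
    4 + (I - e) * b + I * (b + 1) + (L + I - e) * d + (I + L * m) ≤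
      L * (d + 1) + (L + I - e) * m := by
  obtain ⟨k, hk⟩ : ∃ k, m = b + d + 3 * I + 3 + k := ⟨m - (b + d + 3 * I + 3), by omega⟩
  obtain ⟨f, hf⟩ : ∃ f, I = e + (f + 1) := ⟨I - e - 1, by omega⟩
  have h1 : I - e = f + 1 := by omega
  have h2 : L + I - e = L + (f + 1) := by omega
  rw [h1, h2]
  have h3 : I * b = b * I := Nat.mul_comm _ _
  have h4 : (L + (f + 1)) * m = L * m + (f + 1) * m := by ring
  have h5 : (f + 1) * m = (f + 1) * b + (f + 1) * d + (3 * I + 3) + (f * (3 * I + 3) + (f + 1) * k) := by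
    rw [hk]; ring
  have h6 : (L + (f + 1)) * d = L * d + (f + 1) * d := by ring
  have h7 : L * (d + 1) = L * d + L := by ring
  have h8 : I * (b + 1) = b * I + I := by ring
  rw [h4, h5, h6, h7, h8]
  have h9 : 0 ≤ f * (3 * I + 3) + (f + 1) * k := Nat.zero_le _
  omega

lemma st6d_term {I L e b d m : ℕ} {X : ℝ} (he : e < I) (hbI : b * I + 1 ≤ L + I)
    (hm : b + d + 3 * I + 3 ≤ m) (hX : X ≤ 2) :
    ((2 : ℝ) ^ (I - e)) ^ b * (8 * ((2 : ℝ) ^ I) ^ (b + 1) *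
      ((2 : ℝ) ^ (L + I - e)) ^ d * (1 / 2 ^ (L + I - e)) ^ m * X) ≤
      1 / 2 ^ I * (((2 : ℝ) ^ L) ^ (d + 1) * (1 / 2 ^ L) ^ m) := by
  have h1 : ((2 : ℝ) ^ (I - e)) ^ b * (8 * ((2 : ℝ) ^ I) ^ (b + 1) *
      ((2 : ℝ) ^ (L + I - e)) ^ d * (1 / 2 ^ (L + I - e)) ^ m * X) ≤
      ((2 : ℝ) ^ (I - e)) ^ b * (8 * ((2 : ℝ) ^ I) ^ (b + 1) *
      ((2 : ℝ) ^ (L + I - e)) ^ d * (1 / 2 ^ (L + I - e)) ^ m * 2) := by
    apply mul_le_mul_of_nonneg_left _ (by positivity)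
    exact mul_le_mul_of_nonneg_left hX (by (clear * -; positivity))
  refine h1.trans ?_
  have h2 : ((2 : ℝ) ^ (I - e)) ^ b * (8 * ((2 : ℝ) ^ I) ^ (b + 1) *
      ((2 : ℝ) ^ (L + I - e)) ^ d * (1 / 2 ^ (L + I - e)) ^ m * 2) =
      2 ^ (4 + (I - e) * b + I * (b + 1) + (L + I - e) * d) / 2 ^ ((L + I - e) * m) := by
    rw [one_div, inv_pow, ← pow_mul, ← pow_mul, ← pow_mul, ← pow_mul, pow_add, pow_add, pow_add]
    ring
  have h3 : 1 / 2 ^ I * (((2 : ℝ) ^ L) ^ (d + 1) * (1 / 2 ^ L) ^ m) =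
      2 ^ (L * (d + 1)) / 2 ^ (I + L * m) := by
    rw [one_div, one_div, inv_pow, ← pow_mul, ← pow_mul, pow_add 2 I]
    field_simp
  rw [h2, h3, div_le_div_iff₀ (by positivity) (by positivity), ← pow_add, ← pow_add]
  exact pow_le_pow_right₀ (by norm_num) (st6d_exp he hbI hm)

lemma st6d_kappa {I d m : ℕ} (hI : 1 ≤ I) (hd : 1 ≤ d) (hm : m ≤ 4 * d) :
    1 + (I : ℝ) * Real.exp (-(10 * ((I : ℝ) + 1)) * d) * 2 ^ (I * m) ≤ 2 := by
  have h1 : (I : ℝ) ≤ 2 ^ (I * d) := by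
    have : I < 2 ^ I := Nat.lt_two_pow_self
    have h2 : 2 ^ I ≤ 2 ^ (I * d) := Nat.pow_le_pow_right (by norm_num) (Nat.le_mul_of_pos_right I hd)
    exact_mod_cast (this.le.trans h2)
  have h2 : (2 : ℝ) ^ (I * m) ≤ 2 ^ (I * (4 * d)) :=
    pow_le_pow_right₀ (by norm_num) (Nat.mul_le_mul_left I hm)
  have h3 : (2 : ℝ) ^ (5 * I * d) ≤ Real.exp (5 * I * d) := by
    have h4 : (2 : ℝ) ≤ Real.exp 1 := by
      have := Real.add_one_le_exp (1 : ℝ); linarith only [this]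
    calc (2 : ℝ) ^ (5 * I * d) ≤ (Real.exp 1) ^ (5 * I * d) :=
          pow_le_pow_left₀ (by norm_num) h4 _
      _ = Real.exp (5 * I * d) := by
          rw [← Real.exp_nat_mul]; push_cast; ring_nf
  have hI' : (1 : ℝ) ≤ I := by exact_mod_cast hI
  have hd' : (1 : ℝ) ≤ d := by exact_mod_cast hd
  have h5 : (I : ℝ) * Real.exp (-(10 * ((I : ℝ) + 1)) * d) * 2 ^ (I * m) ≤ 1 := by
    calc (I : ℝ) * Real.exp (-(10 * ((I : ℝ) + 1)) * d) * 2 ^ (I * m) ≤
        2 ^ (I * d) * Real.exp (-(10 * ((I : ℝ) + 1)) * d) * 2 ^ (I * (4 * d)) := by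
          apply mul_le_mul _ h2 (by positivity) (by positivity)
          exact mul_le_mul_of_nonneg_right h1 (Real.exp_pos _).le
      _ = 2 ^ (5 * I * d) * Real.exp (-(10 * ((I : ℝ) + 1)) * d) := by
          rw [show 5 * I * d = I * d + I * (4 * d) by ring, pow_add]; ring
      _ ≤ Real.exp (5 * I * d) * Real.exp (-(10 * ((I : ℝ) + 1)) * d) :=
          mul_le_mul_of_nonneg_right h3 (Real.exp_pos _).le
      _ = Real.exp (5 * I * d + (-(10 * ((I : ℝ) + 1)) * d)) := (Real.exp_add _ _).symm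
      _ ≤ 1 := by
          rw [Real.exp_le_one_iff]
          nlinarith only []
  linarith only [h5]

lemma st6d_sum {I L b d m : ℕ} {X : ℝ} (hbI : b * I + 1 ≤ L + I)
    (hm : b + d + 3 * I + 3 ≤ m) (hX : X ≤ 2) :
    ∑ e ∈ range I, ((2 : ℝ) ^ (I - e)) ^ b * (8 * ((2 : ℝ) ^ I) ^ (b + 1) *
      ((2 : ℝ) ^ (L + I - e)) ^ d * (1 / 2 ^ (L + I - e)) ^ m * X) ≤
      ((2 : ℝ) ^ L) ^ (d + 1) * (1 / 2 ^ L) ^ m := by
  have h1 : ∀ e ∈ range I, ((2 : ℝ) ^ (I - e)) ^ b * (8 * ((2 : ℝ) ^ I) ^ (b + 1) *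
      ((2 : ℝ) ^ (L + I - e)) ^ d * (1 / 2 ^ (L + I - e)) ^ m * X) ≤
      1 / 2 ^ I * (((2 : ℝ) ^ L) ^ (d + 1) * (1 / 2 ^ L) ^ m) := fun e he =>
    st6d_term (mem_range.1 he) hbI hm hX
  refine (sum_le_sum h1).trans ?_
  rw [sum_const, card_range, nsmul_eq_mul, ← mul_assoc]
  have h2 : (I : ℝ) * (1 / 2 ^ I) ≤ 1 := by
    rw [mul_one_div, div_le_one (by positivity)]
    exact_mod_cast (Nat.lt_two_pow_self (n := I)).le
  calc (I : ℝ) * (1 / 2 ^ I) * (((2 : ℝ) ^ L) ^ (d + 1) * (1 / 2 ^ L) ^ m) ≤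
      1 * (((2 : ℝ) ^ L) ^ (d + 1) * (1 / 2 ^ L) ^ m) :=
        mul_le_mul_of_nonneg_right h2 (by positivity)
    _ = _ := one_mul _

lemma st6d_first {I L b d m : ℕ} (hbI : b * I ≤ L + I) :
    8 * ((2 : ℝ) ^ I) ^ b * ((2 : ℝ) ^ L) ^ d * (1 / 2 ^ L) ^ m ≤
      8 * 2 ^ I * (((2 : ℝ) ^ L) ^ (d + 1) * (1 / 2 ^ L) ^ m) := by
  have h1 : ((2 : ℝ) ^ I) ^ b ≤ 2 ^ I * 2 ^ L := by
    rw [← pow_mul, ← pow_add]
    exact pow_le_pow_right₀ (by norm_num) (by rw [Nat.mul_comm]; omega)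
  calc 8 * ((2 : ℝ) ^ I) ^ b * ((2 : ℝ) ^ L) ^ d * (1 / 2 ^ L) ^ m ≤
      8 * (2 ^ I * 2 ^ L) * ((2 : ℝ) ^ L) ^ d * (1 / 2 ^ L) ^ m := by
        (clear * - h1; gcongr)
    _ = _ := by rw [pow_succ]; ring

open Classical in
/-- Task T6d: block estimate for the unstructured event. -/
theorem sumB6 (I : ℕ) (hI : 1 ≤ I) {θ δ c : ℝ} (hθ : 0 < θ) (hθI : 8 ≤ θ * I) (hδ : 0 < δ)
    (hc : 0 < c) :
    ∃ d0 : ℕ, ∀ (α β : Type) [Fintype α] [DecidableEq α]
      [Fintype β] [DecidableEq β], d0 ≤ Fintype.card α →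
      (1 + θ) * Fintype.card α ≤ Fintype.card β → Fintype.card β ≤ 4 * Fintype.card α →
      ∀ L : ℕ, 2 * L ≤ Fintype.card α → 2 * I ≤ L →
      (∀ j : ℕ, I < j → j ≤ L + I →
      ((univ.filter (fun x : α → ZMod (2 ^ j) => δ * Fintype.card α ≤ nu x ∧
        BadL I (Real.exp (-c * Fintype.card α)) x)).card : ℝ) ≤
        Real.exp (-(10 * ((I : ℝ) + 1)) * Fintype.card α) * ((2 : ℝ) ^ j) ^ Fintype.card α) →
      ∑ x ∈ univ.filter (fun x : α → ZMod (2 ^ L) =>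
          δ * Fintype.card α ≤ nu x ∧ GoodX I (Real.exp (-c * Fintype.card α)) x),
        ∑ z : β → ZMod (2 ^ L), Bq x z ≤ (2 : ℝ) ^ (I + 8) := by
  obtain ⟨c3, hc3, c8, hc8, d1, hd1⟩ := near_tail I hI hθ hδ hc
  obtain ⟨c7, hc7, d2, hd2⟩ := far_part hθ hc8
  refine ⟨max d1 (max d2 (max (6 * I) (max (I * I) 1))), ?_⟩
  intro α β _ _ _ _ hd hb1 hb2 L hL hIL hbad
  simp only [max_le_iff] at hd
  obtain ⟨e1, e2, e3, e4, e5⟩ := hd
  have hI0 : (0 : ℝ) < I := by exact_mod_cast hI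
  have key : ∀ X : ℕ, I * X ≤ 8 * Fintype.card α → X + Fintype.card α ≤ Fintype.card β := by
    intro X hX
    have h1 : (I : ℝ) * X ≤ 8 * Fintype.card α := by exact_mod_cast hX
    have h2 : (8 : ℝ) * Fintype.card α ≤ θ * I * Fintype.card α :=
      mul_le_mul_of_nonneg_right hθI (Nat.cast_nonneg _)
    have h3 : (I : ℝ) * X ≤ I * (θ * Fintype.card α) := by
      calc (I : ℝ) * X ≤ θ * I * Fintype.card α := h1.trans h2
        _ = I * (θ * Fintype.card α) := by ring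
    have h4 : (X : ℝ) ≤ θ * Fintype.card α := le_of_mul_le_mul_left h3 hI0
    have h5 : (X : ℝ) + Fintype.card α ≤ Fintype.card β := by linarith only [hb1, h4]
    exact_mod_cast h5
  obtain ⟨b, hb⟩ : ∃ b, b = (L + I - 1) / I := ⟨_, rfl⟩
  have hbI : b * I + 1 ≤ L + I := by
    have := Nat.div_mul_le_self (L + I - 1) I
    rw [← hb] at this
    (clear * - hI hIL this; omega)
  have hLb : L ≤ b * I := by
    have h1 := Nat.div_add_mod (L + I - 1) I
    have h2 := Nat.mod_lt (L + I - 1) (by omega : I > 0)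
    rw [← hb, Nat.mul_comm] at h1
    (clear * - hbI h1 h2; omega)
  have hII : I ≤ I * I := Nat.le_mul_of_pos_right I hI
  have h3 : 3 * (L + I) ≤ 2 * Fintype.card α := by (clear * - hL e3; omega)
  have hbm : 2 * (b + 1) + Fintype.card α ≤ Fintype.card β := by
    apply key
    have : I * (2 * (b + 1)) = 2 * (b * I) + 2 * I := by ring
    omega
  have hbd : b + Fintype.card α + 3 * I + 3 ≤ Fintype.card β := by
    have h1 := key (b + 3 * I + 3) (by
      have : I * (b + 3 * I + 3) = b * I + 3 * (I * I) + 3 * I := by ring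
      omega)
    omega
  obtain ⟨Near, hNear⟩ : ∃ Near : (β → α → Fin 4) → Prop, Near = fun ω =>
    (kerN (2 ^ I) (hm ω)).card < 2 ^ (I + ⌊c3 * Fintype.card α⌋₊) := ⟨_, rfl⟩
  have hn := near_aug (α := α) (β := β) (I := I) (L := L) (b := b) (δ := δ)
    (τ := Real.exp (-c * Fintype.card α))
    (κ := Real.exp (-(10 * ((I : ℝ) + 1)) * Fintype.card α)) hI hIL h3 hbm (by omega) hLb Near
    (by
      intro J' hJ1 hJ2 x hx1 hx2 B hB1 hB2
      have h1 := (hd1 α β e1 hb1 hb2 J' hJ1 hJ2 x hx1 hx2).1 B hB1 hB2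
      rw [hNear]
      convert h1 using 3)
    (Real.exp_pos _).le hbad
  obtain ⟨Far, hFar⟩ : ∃ Far : (β → α → Fin 4) → Prop, ∀ ω, Far ω ↔ ¬ Near ω :=
    ⟨fun ω => ¬ Near ω, fun _ => Iff.rfl⟩
  have hf := hd2 α β e2 hb1 L hL Far
    (univ.filter (fun x : α → ZMod (2 ^ L) =>
          δ * Fintype.card α ≤ nu x ∧ GoodX I (Real.exp (-c * Fintype.card α)) x))
    (by
      intro x hx
      rw [mem_filter] at hx
      have h1 := (hd1 α β e1 hb1 hb2 L (by (clear * - hIL; omega)) (by omega) x hx.2.1 hx.2.2).2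
      convert h1 using 5
      rw [hFar, hNear, not_lt])
  have hbr := st6d_kappa hI e5 hb2
  have hs := st6d_sum (L := L) hbI hbd hbr
  have hfi := st6d_first (L := L) (d := Fintype.card α) (m := Fintype.card β)
    (by omega : b * I ≤ L + I)
  set C := univ.filter (fun x : α → ZMod (2 ^ L) =>
          δ * Fintype.card α ≤ nu x ∧ GoodX I (Real.exp (-c * Fintype.card α)) x) with hC
  set R : ℝ := ((2 : ℝ) ^ L) ^ (Fintype.card α + 1) * (1 / 2 ^ L) ^ Fintype.card β with hR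
  have hRpos : 0 < R := by positivity
  have hF : (0 : ℝ) < 4 ^ (Fintype.card β * Fintype.card α) := by positivity
  have hn' : (∑ x ∈ C, ∑ ω : β → α → Fin 4, if (∀ i, walk (ω i) x = 0) ∧ Near ω then
          ((kerN (2 ^ L) (augM x ω)).card : ℝ) else 0) ≤
      4 ^ (Fintype.card β * Fintype.card α) * (8 * 2 ^ I * R + R) :=
    hn.trans (mul_le_mul_of_nonneg_left (add_le_add hfi hs) hF.le)
  have hf' : (∑ x ∈ C, ∑ ω : β → α → Fin 4, if (∀ i, walk (ω i) x = 0) ∧ Far ω then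
          ((kerN (2 ^ L) (augM x ω)).card : ℝ) else 0) ≤
      4 ^ (Fintype.card β * Fintype.card α) * R := by
    have h1 : (∑ x ∈ C, ∑ ω : β → α → Fin 4, if (∀ i, walk (ω i) x = 0) ∧ Far ω then
          ((kerN (2 ^ L) (augM x ω)).card : ℝ) else 0) ≤
        2 ^ L * ∑ x ∈ C, ∑ ω : β → α → Fin 4, if (∀ i, walk (ω i) x = 0) ∧ Far ω then
          ((kerN (2 ^ L) (hm ω)).card : ℝ) else 0 := by
      rw [mul_sum]
      refine sum_le_sum fun x _ => ?_
      rw [mul_sum]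
      refine sum_le_sum fun ω _ => ?_
      split_ifs with h
      · exact_mod_cast card_aug_le x ω
      · simp
    have h0 : (0 : ℝ) ≤ 2 ^ L := by positivity
    refine h1.trans ((mul_le_mul_of_nonneg_left hf h0).trans ?_)
    have h2 : (2 : ℝ) ^ (-c7 * (Fintype.card α : ℝ) ^ 2) ≤ 1 := by
      apply Real.rpow_le_one_of_one_le_of_nonpos (by norm_num)
      nlinarith only [hc7]
    calc (2 : ℝ) ^ L * ((2 : ℝ) ^ (-c7 * (Fintype.card α : ℝ) ^ 2) * (2 ^ L) ^ Fintype.card α *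
          (1 / 2 ^ L) ^ Fintype.card β * 4 ^ (Fintype.card β * Fintype.card α)) =
        (2 : ℝ) ^ (-c7 * (Fintype.card α : ℝ) ^ 2) *
          (4 ^ (Fintype.card β * Fintype.card α) * R) := by
          rw [hR, pow_succ]; ring
      _ ≤ 1 * (4 ^ (Fintype.card β * Fintype.card α) * R) :=
          mul_le_mul_of_nonneg_right h2 (by positivity)
      _ = _ := one_mul _
  have hE : ∀ x : α → ZMod (2 ^ L), (∑ ω : β → α → Fin 4, if (∀ i, walk (ω i) x = 0) then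
      ((kerN (2 ^ L) (augM x ω)).card : ℝ) else 0) =
      (∑ ω : β → α → Fin 4, if (∀ i, walk (ω i) x = 0) ∧ Near ω then
          ((kerN (2 ^ L) (augM x ω)).card : ℝ) else 0) +
      ∑ ω : β → α → Fin 4, if (∀ i, walk (ω i) x = 0) ∧ Far ω then
          ((kerN (2 ^ L) (augM x ω)).card : ℝ) else 0 := by
    intro x
    rw [← sum_add_distrib]
    refine sum_congr rfl fun ω _ => ?_
    by_cases h1 : ∀ i, walk (ω i) x = 0 <;> by_cases h2 : Near ω <;> simp [h1, h2, hFar]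
  have htot : ((2 : ℝ) ^ L) ^ (Fintype.card α + 1) * ∑ x ∈ C, ∑ z : β → ZMod (2 ^ L), Bq x z ≤
      4 * ((2 : ℝ) ^ L) ^ Fintype.card β * (8 * 2 ^ I * R + R + R) := by
    rw [mul_sum]
    have h1 : ∀ x ∈ C, ((2 : ℝ) ^ L) ^ (Fintype.card α + 1) * ∑ z : β → ZMod (2 ^ L), Bq x z ≤
        4 * ((2 : ℝ) ^ L) ^ Fintype.card β * (1 / 4 ^ (Fintype.card β * Fintype.card α)) *
          (∑ ω : β → α → Fin 4, if (∀ i, walk (ω i) x = 0) then
            ((kerN (2 ^ L) (augM x ω)).card : ℝ) else 0) := by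
      intro x _
      refine (sum_Bq_le6 x).trans (le_of_eq ?_)
      ring
    refine (sum_le_sum h1).trans ?_
    rw [← mul_sum]
    simp only [hE]
    rw [sum_add_distrib]
    calc 4 * ((2 : ℝ) ^ L) ^ Fintype.card β * (1 / 4 ^ (Fintype.card β * Fintype.card α)) *
        ((∑ x ∈ C, ∑ ω : β → α → Fin 4, if (∀ i, walk (ω i) x = 0) ∧ Near ω then
          ((kerN (2 ^ L) (augM x ω)).card : ℝ) else 0) +
        ∑ x ∈ C, ∑ ω : β → α → Fin 4, if (∀ i, walk (ω i) x = 0) ∧ Far ω then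
          ((kerN (2 ^ L) (augM x ω)).card : ℝ) else 0) ≤
        4 * ((2 : ℝ) ^ L) ^ Fintype.card β * (1 / 4 ^ (Fintype.card β * Fintype.card α)) *
        (4 ^ (Fintype.card β * Fintype.card α) * (8 * 2 ^ I * R + R) +
          4 ^ (Fintype.card β * Fintype.card α) * R) :=
          mul_le_mul_of_nonneg_left (add_le_add hn' hf') (by positivity)
      _ = 4 * ((2 : ℝ) ^ L) ^ Fintype.card β * (8 * 2 ^ I * R + R + R) := by
          (clear * - hRpos; field_simp)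
  have hNm : ((2 : ℝ) ^ L) ^ Fintype.card β * R = ((2 : ℝ) ^ L) ^ (Fintype.card α + 1) := by
    rw [hR, mul_left_comm, ← mul_pow, mul_one_div_cancel (by positivity), one_pow, mul_one]
  have hfin : ((2 : ℝ) ^ L) ^ (Fintype.card α + 1) * ∑ x ∈ C, ∑ z : β → ZMod (2 ^ L), Bq x z ≤
      ((2 : ℝ) ^ L) ^ (Fintype.card α + 1) * (4 * (8 * 2 ^ I + 2)) := by
    refine htot.trans (le_of_eq ?_)
    rw [← hNm]
    ring
  have hlast := le_of_mul_le_mul_left hfin (by positivity)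
  refine hlast.trans ?_
  have h9 : (1 : ℝ) ≤ 2 ^ I := one_le_pow₀ (by norm_num)
  rw [pow_add]
  linarith only [h9]

end Vale.Agent.P160
end
end

section

section

set_option linter.unusedSectionVars false

namespace Vale.Agent.P160

open Finset

lemma st10_num {d m j I Tc : ℕ} {c7 K : ℝ} (hm : m ≤ 4 * d) (hj : 2 * (j + 1) ≤ d)
    (hK : 10 * (Tc : ℝ) + 30 ≤ K) (hc7 : 9 + 10 * (Tc : ℝ) ≤ c7 * d) :
    (2 : ℝ) ^ (j + 1) * (((2 : ℝ) ^ (10 * d)) ^ Tc *
      ((2 : ℝ) ^ (m + d + j + I + 3) * Real.exp (-K * d) +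
        (2 : ℝ) ^ ((m : ℝ) + d - c7 * (d : ℝ) ^ 2)) +
      ((2 : ℝ) ^ (10 * d))⁻¹ * ((2 : ℝ) ^ (m + d + j + I + 3) +
        (2 : ℝ) ^ ((m : ℝ) + d - c7 * (d : ℝ) ^ 2))) ≤
      (2 : ℝ) ^ (I + 6) * (2 : ℝ) ^ (-(3 * (d : ℝ))) := by
  have h2 : (0 : ℝ) < 2 := two_pos
  have h12 : (1 : ℝ) ≤ 2 := one_le_two
  have hmr : (m : ℝ) ≤ 4 * d := by exact_mod_cast hm
  have hjr : 2 * ((j : ℝ) + 1) ≤ d := by exact_mod_cast hj
  have hd0 : (0 : ℝ) ≤ d := Nat.cast_nonneg d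
  have hT0 : (0 : ℝ) ≤ Tc := Nat.cast_nonneg Tc
  have hj1 : (2 : ℝ) ^ (j + 1) ≤ (2 : ℝ) ^ (d : ℝ) := by
    rw [← Real.rpow_natCast]
    refine Real.rpow_le_rpow_of_exponent_le h12 ?_
    push_cast
    linarith only [hjr]
  have hL : ((2 : ℝ) ^ (10 * d)) ^ Tc = (2 : ℝ) ^ (10 * (Tc : ℝ) * d) := by
    rw [← pow_mul, ← Real.rpow_natCast]
    congr 1
    push_cast
    ring
  have hLi : ((2 : ℝ) ^ (10 * d))⁻¹ = (2 : ℝ) ^ (-(10 * (d : ℝ))) := by
    rw [Real.rpow_neg h2.le, ← Real.rpow_natCast]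
    push_cast
    rfl
  have hX : (2 : ℝ) ^ (m + d + j + I + 3) ≤ (2 : ℝ) ^ (6 * (d : ℝ) + I + 3) := by
    rw [← Real.rpow_natCast]
    refine Real.rpow_le_rpow_of_exponent_le h12 ?_
    push_cast
    linarith only [hmr, hjr]
  have hY : (2 : ℝ) ^ ((m : ℝ) + d - c7 * (d : ℝ) ^ 2) ≤
      (2 : ℝ) ^ (-((4 + 10 * (Tc : ℝ)) * d)) := by
    refine Real.rpow_le_rpow_of_exponent_le h12 ?_
    have := mul_le_mul_of_nonneg_right hc7 hd0
    nlinarith only [hmr, this]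
  have hk : Real.exp (-K * d) ≤ (2 : ℝ) ^ (-((10 * (Tc : ℝ) + 30) * d)) := by
    rw [Real.rpow_def_of_pos h2, Real.exp_le_exp]
    have hlog : Real.log 2 ≤ 1 := by linarith only [Real.log_two_lt_d9]
    have hlog0 : 0 ≤ Real.log 2 := Real.log_nonneg h12
    have h3 : (10 * (Tc : ℝ) + 30) * d ≤ K * d := mul_le_mul_of_nonneg_right hK hd0
    have h4 : 0 ≤ (10 * (Tc : ℝ) + 30) * d := by (clear * -; positivity)
    nlinarith only [h3, hlog, h4]
  have hadd : ∀ x y : ℝ, (2 : ℝ) ^ x * (2 : ℝ) ^ y = (2 : ℝ) ^ (x + y) :=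
    fun x y => (Real.rpow_add h2 x y).symm
  have hmono : ∀ x y : ℝ, x ≤ y → (2 : ℝ) ^ x ≤ (2 : ℝ) ^ y :=
    fun x y h => Real.rpow_le_rpow_of_exponent_le h12 h
  have e1 : (2 : ℝ) ^ (j + 1) * (((2 : ℝ) ^ (10 * d)) ^ Tc *
      ((2 : ℝ) ^ (m + d + j + I + 3) * Real.exp (-K * d) +
        (2 : ℝ) ^ ((m : ℝ) + d - c7 * (d : ℝ) ^ 2)) +
      ((2 : ℝ) ^ (10 * d))⁻¹ * ((2 : ℝ) ^ (m + d + j + I + 3) +
        (2 : ℝ) ^ ((m : ℝ) + d - c7 * (d : ℝ) ^ 2))) ≤
      (2 : ℝ) ^ (d : ℝ) * ((2 : ℝ) ^ (10 * (Tc : ℝ) * d) *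
      ((2 : ℝ) ^ (6 * (d : ℝ) + I + 3) * (2 : ℝ) ^ (-((10 * (Tc : ℝ) + 30) * d)) +
        (2 : ℝ) ^ (-((4 + 10 * (Tc : ℝ)) * d))) +
      (2 : ℝ) ^ (-(10 * (d : ℝ))) * ((2 : ℝ) ^ (6 * (d : ℝ) + I + 3) +
        (2 : ℝ) ^ (-((4 + 10 * (Tc : ℝ)) * d)))) := by
    rw [hL, hLi]
    (clear * - hj1 hX hk hY; gcongr)
  refine e1.trans ?_
  have e2 : (2 : ℝ) ^ (d : ℝ) * ((2 : ℝ) ^ (10 * (Tc : ℝ) * d) *
      ((2 : ℝ) ^ (6 * (d : ℝ) + I + 3) * (2 : ℝ) ^ (-((10 * (Tc : ℝ) + 30) * d)) +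
        (2 : ℝ) ^ (-((4 + 10 * (Tc : ℝ)) * d))) +
      (2 : ℝ) ^ (-(10 * (d : ℝ))) * ((2 : ℝ) ^ (6 * (d : ℝ) + I + 3) +
        (2 : ℝ) ^ (-((4 + 10 * (Tc : ℝ)) * d)))) =
      (2 : ℝ) ^ ((d : ℝ) + (10 * (Tc : ℝ) * d + ((6 * (d : ℝ) + I + 3) +
        (-((10 * (Tc : ℝ) + 30) * d))))) +
      (2 : ℝ) ^ ((d : ℝ) + (10 * (Tc : ℝ) * d + (-((4 + 10 * (Tc : ℝ)) * d)))) +
      ((2 : ℝ) ^ ((d : ℝ) + (-(10 * (d : ℝ)) + (6 * (d : ℝ) + I + 3))) +
      (2 : ℝ) ^ ((d : ℝ) + (-(10 * (d : ℝ)) + (-((4 + 10 * (Tc : ℝ)) * d))))) := by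
    simp only [mul_add, hadd]
  rw [e2]
  have hI3 : (2 : ℝ) ^ (I + 6) * (2 : ℝ) ^ (-(3 * (d : ℝ))) =
      8 * (2 : ℝ) ^ ((I : ℝ) + 3 - 3 * d) := by
    rw [← Real.rpow_natCast, hadd]
    have h8 : (8 : ℝ) = (2 : ℝ) ^ (3 : ℝ) := by norm_num
    rw [h8, hadd]
    congr 1
    push_cast
    ring
  rw [hI3]
  have hI0 : (0 : ℝ) ≤ I := Nat.cast_nonneg I
  have hTd : 0 ≤ (Tc : ℝ) * d := mul_nonneg hT0 hd0
  have t1 := hmono ((d : ℝ) + (10 * (Tc : ℝ) * d + ((6 * (d : ℝ) + I + 3) +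
        (-((10 * (Tc : ℝ) + 30) * d))))) ((I : ℝ) + 3 - 3 * d) (by nlinarith only [])
  have t2 := hmono ((d : ℝ) + (10 * (Tc : ℝ) * d + (-((4 + 10 * (Tc : ℝ)) * d))))
    ((I : ℝ) + 3 - 3 * d) (by nlinarith only [])
  have t3 := hmono ((d : ℝ) + (-(10 * (d : ℝ)) + (6 * (d : ℝ) + I + 3)))
    ((I : ℝ) + 3 - 3 * d) (by nlinarith only [])
  have t4 := hmono ((d : ℝ) + (-(10 * (d : ℝ)) + (-((4 + 10 * (Tc : ℝ)) * d))))
    ((I : ℝ) + 3 - 3 * d) (by nlinarith only [])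
  have t5 : (0 : ℝ) < (2 : ℝ) ^ ((I : ℝ) + 3 - 3 * d) := Real.rpow_pos_of_pos h2 _
  linarith only [t1, t2, t3, t4, t5]

open Classical in
lemma st10_term {n : ℕ} {T : Type} [Fintype T] [DecidableEq T] [Nonempty T]
    (D : T → Finset (Fin n)) (hD : Sep4 D) {I u d m j : ℕ} {τ K c7 : ℝ} (t₀ : T)
    (hcard : ∀ t, Fintype.card {i // i ∈ D t} = d) (hm : m ≤ 4 * d) (hj : 2 * (j + 1) ≤ d)
    (hK : 10 * (Fintype.card T : ℝ) + 30 ≤ K) (hc7 : 9 + 10 * (Fintype.card T : ℝ) ≤ c7 * d)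
    (hκ : ((univ.filter (fun x : {i // i ∈ D t₀} → ZMod (2 ^ (j + 1)) =>
      u ≤ nu x ∧ BadL I τ x)).card : ℝ) ≤ Real.exp (-K * d) * ((2 : ℝ) ^ (j + 1)) ^ d)
    (hblock : ∀ t, ∀ C : Finset ({i // i ∈ D t} → ZMod (2 ^ (j + 1))),
      (∀ x ∈ C, u ≤ nu x ∧ GoodX I τ (fun i => ((x i).cast : ZMod (2 ^ j)))) →
      ∑ x ∈ C, ∑ z : {i // i ∉ D t} → ZMod (2 ^ (j + 1)), Bpr 4 x z ≤
        (2 : ℝ) ^ (m + d + j + I + 3) * ((C.card : ℝ) / ((2 : ℝ) ^ (j + 1)) ^ d) +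
        (2 : ℝ) ^ ((m : ℝ) + d - c7 * (d : ℝ) ^ 2)) :
    Pb (EvA6 D I u τ j t₀) ≤ (2 : ℝ) ^ (I + 6) * (2 : ℝ) ^ (-(3 * (d : ℝ))) := by
  have h1 : (1 : ℝ) ≤ (2 : ℝ) ^ (10 * d) := one_le_pow₀ one_le_two
  have h2 : (0 : ℝ) ≤ (2 : ℝ) ^ (m + d + j + I + 3) := pow_nonneg zero_le_two _
  have h3 : (0 : ℝ) ≤ (2 : ℝ) ^ ((m : ℝ) + d - c7 * (d : ℝ) ^ 2) :=
    Real.rpow_nonneg zero_le_two _
  have h4 := Pb_EvA6_le D hD j t₀ hcard (Real.exp_pos (-K * d)).le h1 h2 h3 hκ hblock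
  exact h4.trans (st10_num (I := I) hm hj hK hc7)

lemma st10_params {a q n : ℕ} (ha : 3 ≤ a) (hq : 2 ≤ q) (hn1 : 2 * a ^ 2 * q ≤ n)
    (hn2 : n ≤ 2 * a ^ 2 * (q + 1)) :
    q ≤ (a ^ 2 - a) * q ∧ (a ^ 2 - a) * q ≤ n ∧
      (1 + 2 / ((a : ℝ) - 1)) * (((a ^ 2 - a) * q : ℕ) : ℝ) ≤ ((n - (a ^ 2 - a) * q : ℕ) : ℝ) ∧
      n - (a ^ 2 - a) * q ≤ 4 * ((a ^ 2 - a) * q) := by
  have haR : (3 : ℝ) ≤ a := by exact_mod_cast ha
  have hθa : 2 / ((a : ℝ) - 1) * ((a : ℝ) - 1) = 2 := by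
    have : (a : ℝ) - 1 ≠ 0 := by linarith only [haR]
    (clear * - this; field_simp)
  have ha2 : a ≤ a ^ 2 := Nat.le_self_pow (by norm_num) a
  have haa : 1 ≤ a ^ 2 - a := by
    have : a + 1 ≤ a ^ 2 := by nlinarith only [ha]
    omega
  have hqd : q ≤ (a ^ 2 - a) * q := Nat.le_mul_of_pos_left q haa
  have hdR : (((a ^ 2 - a) * q : ℕ) : ℝ) = ((a : ℝ) ^ 2 - a) * q := by
    push_cast [Nat.cast_sub ha2]
    ring
  have hq2 : (2 : ℝ) ≤ q := by exact_mod_cast hq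
  have hdn : (a ^ 2 - a) * q ≤ n := le_trans (Nat.mul_le_mul_right q (by omega)) hn1
  have hmR : ((n - (a ^ 2 - a) * q : ℕ) : ℝ) = n - (((a ^ 2 - a) * q : ℕ) : ℝ) :=
    Nat.cast_sub hdn
  have hn1R : 2 * (a : ℝ) ^ 2 * q ≤ n := by exact_mod_cast hn1
  have hn2R : (n : ℝ) ≤ 2 * (a : ℝ) ^ 2 * (q + 1) := by exact_mod_cast hn2
  refine ⟨hqd, hdn, ?_, ?_⟩
  · have h1 : (1 + 2 / ((a : ℝ) - 1)) * (((a ^ 2 - a) * q : ℕ) : ℝ) = ((a : ℝ) ^ 2 + a) * q := by
      rw [hdR]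
      linear_combination (a * q : ℝ) * hθa
    rw [h1, hmR, hdR]
    linarith only [hn1R]
  · have hm4R : ((n - (a ^ 2 - a) * q : ℕ) : ℝ) ≤ 4 * (((a ^ 2 - a) * q : ℕ) : ℝ) := by
      rw [hmR, hdR]
      have h3 : (4 : ℝ) * a ^ 2 ≤ 3 * (3 * a ^ 2 - 5 * a) := by nlinarith only [haR]
      have h4 : (0 : ℝ) ≤ 3 * (a : ℝ) ^ 2 - 5 * a := by nlinarith only [h3]
      have h5 := mul_le_mul_of_nonneg_left hq2 h4
      nlinarith only [hn2R, h3, h5]
    exact_mod_cast hm4R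

lemma st10_fin {d Tc I k : ℕ} (hk : k ≤ d) (hT : Tc + (I + 6) ≤ d) :
    ((k * Tc : ℕ) : ℝ) * (2 ^ (I + 6) * (2 : ℝ) ^ (-(3 * (d : ℝ)))) ≤ (2 : ℝ) ^ (-(d : ℝ)) := by
  have hcount : k * Tc ≤ d * Tc := Nat.mul_le_mul_right Tc hk
  have hcountR : ((k * Tc : ℕ) : ℝ) ≤ d * Tc := by exact_mod_cast hcount
  have hpos : (0 : ℝ) ≤ (2 : ℝ) ^ (I + 6) * (2 : ℝ) ^ (-(3 * (d : ℝ))) :=
    mul_nonneg (pow_nonneg zero_le_two _) (Real.rpow_nonneg zero_le_two _)
  refine (mul_le_mul_of_nonneg_right hcountR hpos).trans ?_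
  have hd2n : d ≤ 2 ^ d := Nat.lt_two_pow_self.le
  have hT2 : Tc * 2 ^ (I + 6) ≤ 2 ^ d := by
    calc Tc * 2 ^ (I + 6) ≤ 2 ^ Tc * 2 ^ (I + 6) :=
          Nat.mul_le_mul_right _ Nat.lt_two_pow_self.le
      _ = 2 ^ (Tc + (I + 6)) := (pow_add 2 Tc (I + 6)).symm
      _ ≤ 2 ^ d := Nat.pow_le_pow_right (by norm_num) hT
  have hd2R : (d : ℝ) ≤ 2 ^ d := by exact_mod_cast hd2n
  have hT2R : (Tc : ℝ) * 2 ^ (I + 6) ≤ 2 ^ d := by exact_mod_cast hT2
  have h5 : (d : ℝ) * Tc * 2 ^ (I + 6) ≤ 2 ^ d * 2 ^ d := by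
    rw [mul_assoc]
    exact mul_le_mul hd2R hT2R (by (clear * -; positivity)) (by positivity)
  calc (d : ℝ) * Tc * (2 ^ (I + 6) * (2 : ℝ) ^ (-(3 * (d : ℝ))))
      = (d : ℝ) * Tc * 2 ^ (I + 6) * (2 : ℝ) ^ (-(3 * (d : ℝ))) := by ring
    _ ≤ (2 ^ d * 2 ^ d) * (2 : ℝ) ^ (-(3 * (d : ℝ))) :=
        mul_le_mul_of_nonneg_right h5 (Real.rpow_nonneg zero_le_two _)
    _ = (2 : ℝ) ^ (-(d : ℝ)) := by
        rw [← Real.rpow_natCast, ← Real.rpow_add two_pos, ← Real.rpow_add two_pos]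
        congr 1
        ring

open Classical in
/-- The second claim for one size `d`. -/
lemma st10_sum {n : ℕ} {T : Type} [Fintype T] [DecidableEq T] [Nonempty T]
    (D : T → Finset (Fin n)) (hD : Sep4 D) {I d m : ℕ} {δ c K c7 : ℝ}
    (hcard : ∀ t, Fintype.card {i // i ∈ D t} = d) (hm : m ≤ 4 * d)
    (hK : 10 * (Fintype.card T : ℝ) + 30 ≤ K) (hc7 : 9 + 10 * (Fintype.card T : ℝ) ≤ c7 * d)
    (hT : Fintype.card T + (I + 6) ≤ d)
    (hbad : ∀ t, ∀ j : ℕ, I < j → 2 * j ≤ d + 2 * I + 4 → ∀ S : Finset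
      ({i // i ∈ D t} → ZMod (2 ^ j)), (∀ x ∈ S, δ * (d : ℝ) ≤ nu x ∧
        BadL I (Real.exp (-c * (d : ℝ))) x) → (S.card : ℝ) ≤
        Real.exp (-K * (d : ℝ)) * ((2 : ℝ) ^ j) ^ d)
    (hblock : ∀ j : ℕ, I ≤ j → 2 * j ≤ d → ∀ t,
      ∀ C : Finset ({i // i ∈ D t} → ZMod (2 ^ (j + 1))),
      (∀ x ∈ C, δ * (d : ℝ) ≤ nu x ∧
        GoodX I (Real.exp (-c * (d : ℝ))) (fun i => ((x i).cast : ZMod (2 ^ j)))) →
      ∑ x ∈ C, ∑ z : {i // i ∉ D t} → ZMod (2 ^ (j + 1)), Bpr 4 x z ≤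
        (2 : ℝ) ^ (m + d + j + I + 3) * ((C.card : ℝ) / ((2 : ℝ) ^ (j + 1)) ^ d) +
        (2 : ℝ) ^ ((m : ℝ) + d - c7 * (d : ℝ) ^ 2)) :
    ∀ J, 2 * (J + 1) ≤ d → ∀ u : ℕ, δ * (d : ℝ) ≤ u →
        (∑ p ∈ Icc I J ×ˢ (univ : Finset T),
          Pb (EvA6 D I u (Real.exp (-c * (d : ℝ))) p.1 p.2)) ≤ (2 : ℝ) ^ (-(d : ℝ)) := by
  intro J hJ u hu
  have hterm : ∀ p ∈ Icc I J ×ˢ (univ : Finset T),
      Pb (EvA6 D I u (Real.exp (-c * (d : ℝ))) p.1 p.2) ≤
        (2 : ℝ) ^ (I + 6) * (2 : ℝ) ^ (-(3 * (d : ℝ))) := by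
    intro p hp
    obtain ⟨hp1, hp2⟩ := mem_Icc.1 (mem_product.1 hp).1
    refine st10_term D hD p.2 hcard hm (by (clear * - hJ hp2; omega)) hK hc7 ?_ ?_
    · refine hbad p.2 (p.1 + 1) (by omega) (by omega) _ fun x hx => ?_
      rw [mem_filter] at hx
      exact ⟨hu.trans (by exact_mod_cast hx.2.1), hx.2.2⟩
    · intro t C hC
      exact hblock p.1 hp1 (by (clear * - hJ hp2; omega)) t C fun x hx =>
        ⟨hu.trans (by exact_mod_cast (hC x hx).1), (hC x hx).2⟩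
  refine (sum_le_sum hterm).trans ?_
  rw [sum_const, nsmul_eq_mul, card_product, Nat.card_Icc, card_univ]
  exact st10_fin (by omega) hT

open Classical in
/-- Task T10: the structured part for all levels and patterns. -/
theorem partA6 {a : ℕ} (ha : 3 ≤ a) {δ : ℝ} (hδ : 0 < δ) (hδ1 : δ ≤ 1) (I : ℕ) (hI : 4 * a ≤ I) :
    ∃ c : ℝ, 0 < c ∧ ∃ q0 : ℕ, ∀ q ≥ q0, ∀ n, 2 * a ^ 2 * q ≤ n → n ≤ 2 * a ^ 2 * (q + 1) →
      (∀ t : TTa a, ∀ j : ℕ, I < j → 2 * j ≤ (a ^ 2 - a) * q + 2 * I + 2 →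
        ((univ.filter (fun x : {i // i ∈ DDa a n q t} → ZMod (2 ^ j) =>
          δ * ((a ^ 2 - a) * q : ℕ) ≤ nu x ∧
          BadL I (Real.exp (-c * ((a ^ 2 - a) * q : ℕ))) x)).card : ℝ) ≤
          Real.exp (-(10 * ((I : ℝ) + 1)) * ((a ^ 2 - a) * q : ℕ)) *
            ((2 : ℝ) ^ j) ^ ((a ^ 2 - a) * q)) ∧
      ∀ J, 2 * (J + 1) ≤ (a ^ 2 - a) * q → ∀ u : ℕ, δ * ((a ^ 2 - a) * q : ℕ) ≤ u →
        (∑ p ∈ Icc I J ×ˢ (univ : Finset (TTa a)),
          Pb (EvA6 (DDa a n q) I u (Real.exp (-c * ((a ^ 2 - a) * q : ℕ))) p.1 p.2)) ≤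
          (2 : ℝ) ^ (-(((a ^ 2 - a) * q : ℕ) : ℝ)) := by
  have := nonempty_TTa a
  obtain ⟨Tc, hTc⟩ : ∃ Tc : ℕ, Tc = Fintype.card (TTa a) := ⟨_, rfl⟩
  obtain ⟨K, hK⟩ : ∃ K : ℝ, K = 10 * ((I : ℝ) + 1) + 10 * ((Tc : ℝ) + 2) := ⟨_, rfl⟩
  have haR : (3 : ℝ) ≤ a := by exact_mod_cast ha
  have hI1 : 1 ≤ I := by omega
  have ha1 : (0 : ℝ) < (a : ℝ) - 1 := by linarith only [haR]
  have hθ0 : 0 < 2 / ((a : ℝ) - 1) := div_pos two_pos ha1
  have hIR : 4 * (a : ℝ) ≤ I := by exact_mod_cast hI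
  have hθI : 4 ≤ 2 / ((a : ℝ) - 1) * I := by
    rw [div_mul_eq_mul_div, le_div_iff₀ ha1]
    (clear * - haR hIR; linarith)
  have hI0 : (0 : ℝ) ≤ (I : ℝ) := Nat.cast_nonneg I
  have hT0 : (0 : ℝ) ≤ (Tc : ℝ) := Nat.cast_nonneg Tc
  obtain ⟨c, hc, d1, H7⟩ := card_badL I K hδ
  obtain ⟨c7, hc7, d2, H4⟩ := sumA6 I hI1 hθ0 hθI hδ hc
  obtain ⟨M, hM⟩ := exists_nat_ge ((9 + 10 * (Tc : ℝ)) / c7)
  refine ⟨c, hc, 2 + d1 + d2 + M + (Tc + (I + 6)), fun q hq n hn1 hn2 => ?_⟩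
  obtain ⟨hqd, hdn, hm1, hm4⟩ := st10_params ha (by omega) hn1 hn2
  obtain ⟨d, hd⟩ : ∃ d : ℕ, d = (a ^ 2 - a) * q := ⟨_, rfl⟩
  rw [← hd] at hqd hdn hm1 hm4 ⊢
  obtain ⟨m, hm⟩ : ∃ m : ℕ, m = n - d := ⟨_, rfl⟩
  rw [← hm] at hm1 hm4
  have hcard : ∀ t : TTa a, Fintype.card {i // i ∈ DDa a n q t} = d := by
    intro t
    rw [Fintype.card_coe, card_DDa ha hn1 t, hd]
  have hcardc : ∀ t : TTa a, Fintype.card {i // i ∉ DDa a n q t} = m := by
    intro t
    have h1 := Fintype.card_subtype_compl (fun i => i ∈ DDa a n q t)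
    rw [h1, Fintype.card_fin, hcard t, hm]
  have hd1 : d1 ≤ d := by omega
  have hd2 : d2 ≤ d := by omega
  have hMd : (9 + 10 * (Tc : ℝ)) ≤ c7 * d := by
    have h1 : (M : ℝ) ≤ d := by
      have : M ≤ d := by omega
      exact_mod_cast this
    rw [div_le_iff₀ hc7] at hM
    nlinarith only [hM, hc7, h1]
  have hKT : 10 * (Tc : ℝ) + 30 ≤ K := by
    rw [hK]
    linarith only []
  have hbad : ∀ t : TTa a, ∀ j : ℕ, I < j → 2 * j ≤ d + 2 * I + 4 → ∀ S : Finset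
      ({i // i ∈ DDa a n q t} → ZMod (2 ^ j)), (∀ x ∈ S, δ * (d : ℝ) ≤ nu x ∧
        BadL I (Real.exp (-c * (d : ℝ))) x) → (S.card : ℝ) ≤
        Real.exp (-K * (d : ℝ)) * ((2 : ℝ) ^ j) ^ d := by
    intro t j hj1 hj2 S hS
    have h := H7 {i // i ∈ DDa a n q t} (by rw [hcard t]; exact hd1) j hj1
      (by rw [hcard t]; exact hj2)
    rw [hcard t] at h
    refine le_trans ?_ h
    have hsub : S ⊆ univ.filter (fun x : {i // i ∈ DDa a n q t} → ZMod (2 ^ j) =>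
        δ * (d : ℝ) ≤ nu x ∧ BadL I (Real.exp (-c * (d : ℝ))) x) := by
      intro x hx
      rw [mem_filter]
      exact ⟨mem_univ x, hS x hx⟩
    exact_mod_cast card_le_card hsub
  constructor
  · intro t j hj1 hj2
    refine (hbad t j hj1 (by omega) _ fun x hx => (mem_filter.1 hx).2).trans ?_
    refine mul_le_mul_of_nonneg_right ?_ (pow_nonneg (pow_nonneg zero_le_two _) _)
    rw [Real.exp_le_exp]
    have h3 : 10 * ((I : ℝ) + 1) ≤ K := by rw [hK]; linarith only []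
    exact mul_le_mul_of_nonneg_right (neg_le_neg h3) (Nat.cast_nonneg d)
  · refine st10_sum (DDa a n q) (Sep4_DDa ha n q) hcard hm4 (hTc ▸ hKT) (hTc ▸ hMd)
      (by (clear * - hTc hq hqd hd; omega)) hbad ?_
    intro j hj1 hj2 t C hC
    have h := H4 {i // i ∈ DDa a n q t} {i // i ∉ DDa a n q t} (by rw [hcard t]; exact hd2)
      (by rw [hcard t, hcardc t]; exact hm1) (by rw [hcard t, hcardc t]; exact hm4)
      j hj1 (by rw [hcard t]; exact hj2) C
    rw [hcard t, hcardc t] at h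
    exact h hC

end Vale.Agent.P160
end
end

section

section

set_option linter.unusedSectionVars false

namespace Vale.Agent.P160

open Finset

lemma st11_arith {a q : ℕ} (ha : 3 ≤ a) : 6 * q ≤ (a ^ 2 - a) * q := by
  have h1 : 6 ≤ a ^ 2 - a := by
    obtain ⟨k, rfl⟩ : ∃ k, a = k + 3 := ⟨a - 3, by omega⟩
    have : (k + 3) ^ 2 = (k + 3) + (k ^ 2 + 5 * k + 6) := by ring
    (clear * - ha this; omega)
  exact Nat.mul_le_mul_right q h1

lemma st11_sub_cast (a : ℕ) (ha : 3 ≤ a) : ((a ^ 2 - a : ℕ) : ℝ) = (a : ℝ) ^ 2 - a := by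
  rw [Nat.cast_sub (by nlinarith)]
  push_cast
  ring

/-- the size of the complement of a block, lower bound. -/
lemma st11_lower {a q n : ℕ} (ha : 3 ≤ a) (hn : 2 * a ^ 2 * q ≤ n) :
    (1 + 2 / ((a : ℝ) - 1)) * (((a ^ 2 - a) * q : ℕ) : ℝ) ≤ ((n - (a ^ 2 - a) * q : ℕ) : ℝ) := by
  have haR : (3 : ℝ) ≤ a := by exact_mod_cast ha
  have h1 : (a ^ 2 - a) * q ≤ n := by
    refine le_trans ?_ hn
    refine Nat.mul_le_mul_right q ?_
    have : a ^ 2 - a ≤ a ^ 2 := Nat.sub_le _ _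
    omega
  rw [Nat.cast_sub h1]
  have h2 : (2 * (a : ℝ) ^ 2 * q) ≤ n := by exact_mod_cast hn
  have h3 : (((a ^ 2 - a) * q : ℕ) : ℝ) = ((a : ℝ) ^ 2 - a) * q := by
    rw [Nat.cast_mul, st11_sub_cast a ha]
  rw [h3]
  have h4 : (a : ℝ) - 1 ≠ 0 := by linarith only [haR]
  have h5 : (1 + 2 / ((a : ℝ) - 1)) * (((a : ℝ) ^ 2 - a) * q) = ((a : ℝ) ^ 2 + a) * q := by
    field_simp
    ring
  rw [h5]
  linarith only [h2]

/-- the size of the complement of a block, upper bound. -/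
lemma st11_upper {a q n : ℕ} (ha : 3 ≤ a) (hq : 2 ≤ q) (hn : n ≤ 2 * a ^ 2 * (q + 1)) :
    n - (a ^ 2 - a) * q ≤ 4 * ((a ^ 2 - a) * q) := by
  have h0 : a * a = a ^ 2 := by ring
  have h1 : 2 * a ^ 2 * (q + 1) ≤ 5 * ((a ^ 2 - a) * q) := by
    obtain ⟨k, rfl⟩ : ∃ k, a = k + 3 := ⟨a - 3, by omega⟩
    obtain ⟨r, rfl⟩ : ∃ r, q = r + 2 := ⟨q - 2, by omega⟩
    have h2 : (k + 3) ^ 2 - (k + 3) = k ^ 2 + 5 * k + 6 := by
      have : (k + 3) ^ 2 = (k + 3) + (k ^ 2 + 5 * k + 6) := by ring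
      omega
    rw [h2]
    nlinarith only []
  (clear * - hn h1; omega)

/-- Task T11: the exponential bound for the family with parameter `a`. -/
theorem Pb_sing_le6 {a : ℕ} (ha : 3 ≤ a) {h : ℝ} (hh : 0 < h) :
    ∃ C : ℝ, 0 < C ∧ ∃ q0 : ℕ, ∀ q ≥ q0, ∀ n, 2 * a ^ 2 * q ≤ n → n ≤ 2 * a ^ 2 * (q + 1) →
      Pb (fun b : Sym2 (Fin n) → Bool => (signM b).det = 0) ≤
        C * (2 : ℝ) ^ (-(1 - h) * (((a ^ 2 - a) * q : ℕ) : ℝ)) := by
  classical
  have : Nonempty (TTa a) := nonempty_TTa a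
  have haR : (3 : ℝ) ≤ a := by exact_mod_cast ha
  obtain ⟨δ', hδ', hEv0⟩ := Pb_Ev0_6 hh
  obtain ⟨δ, hδdef⟩ : ∃ δ : ℝ, δ = min (δ' / 2) 1 := ⟨_, rfl⟩
  have hδ : 0 < δ := by rw [hδdef]; exact lt_min (by linarith only [hδ']) one_pos
  have hδ1 : δ ≤ 1 := by rw [hδdef]; exact min_le_right _ _
  have hδ2 : 2 * δ ≤ δ' := by
    have : δ ≤ δ' / 2 := by rw [hδdef]; exact min_le_left _ _
    linarith only [this]
  obtain ⟨I, hI⟩ : ∃ I, I = 4 * a := ⟨_, rfl⟩
  have hI1 : 1 ≤ I := by (clear * - ha hI; omega)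
  obtain ⟨c, hc, q0', hA⟩ := partA6 ha hδ hδ1 I hI.ge
  obtain ⟨θ, hθdef⟩ : ∃ θ : ℝ, θ = 2 / ((a : ℝ) - 1) := ⟨_, rfl⟩
  have hθ : 0 < θ := by rw [hθdef]; exact div_pos two_pos (by linarith only [haR])
  have hθI : 8 ≤ θ * I := by
    rw [hθdef, hI, div_mul_eq_mul_div, le_div_iff₀ (by linarith only [haR])]
    push_cast
    linarith only []
  obtain ⟨d0, hB⟩ := sumB6 I hI1 hθ hθI hδ hc
  obtain ⟨cT, hcT⟩ : ∃ cT : ℕ, cT = Fintype.card (TTa a) := ⟨_, rfl⟩
  obtain ⟨q1, hq1⟩ := exists_nat_ge (((cT : ℝ) + 1) / δ)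
  refine ⟨2 * cT + 1 + 96 * 2 ^ (I + 8), by (clear * -; positivity),
    max (max q0' q1) (max d0 (2 * I + 2)), fun q hq n hn1 hn2 => ?_⟩
  have hq0 : q0' ≤ q := le_trans (le_trans (le_max_left _ _) (le_max_left _ _)) hq
  have hqq1 : q1 ≤ q := le_trans (le_trans (le_max_right _ _) (le_max_left _ _)) hq
  have hqd : d0 ≤ q := le_trans (le_trans (le_max_left _ _) (le_max_right _ _)) hq
  have hqI : 2 * I + 2 ≤ q := le_trans (le_trans (le_max_right _ _) (le_max_right _ _)) hq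
  obtain ⟨hA1, hA2⟩ := hA q hq0 n hn1 hn2
  have h6 := st11_arith (q := q) ha
  have hlow := st11_lower ha hn1
  have hupp := st11_upper ha (by (clear * - hI hI1 hqI; omega) : 2 ≤ q) hn2
  obtain ⟨d, hd⟩ : ∃ d, d = (a ^ 2 - a) * q := ⟨_, rfl⟩
  rw [← hd] at hA1 hA2 h6 hlow hupp ⊢
  have hcardD : ∀ t, (DDa a n q t).card = d := fun t => by rw [card_DDa ha hn1 t, hd]
  have hcardα : ∀ t, Fintype.card {i // i ∈ DDa a n q t} = d := fun t => by
    rw [Fintype.card_coe, hcardD]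
  have hcardβ : ∀ t, Fintype.card {i // i ∉ DDa a n q t} = n - d := fun t => by
    rw [Fintype.card_subtype_compl, Fintype.card_fin, Fintype.card_coe, hcardD]
  have hdq : (q : ℝ) ≤ d := by
    have : q ≤ d := by (clear * - h6 hd; omega)
    exact_mod_cast this
  have hδd : (cT : ℝ) + 1 ≤ δ * d := by
    have h1 : ((cT : ℝ) + 1) / δ ≤ q := hq1.trans (by exact_mod_cast hqq1)
    rw [div_le_iff₀ hδ] at h1
    calc (cT : ℝ) + 1 ≤ q * δ := h1
      _ ≤ d * δ := by (clear * - hdq hδ; gcongr)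
      _ = δ * d := mul_comm _ _
  obtain ⟨u, hu⟩ : ∃ u, u = ⌈δ * d⌉₊ := ⟨_, rfl⟩
  have hu1 : δ * d ≤ u := by rw [hu]; exact Nat.le_ceil _
  have hu2 : (u : ℝ) ≤ δ' * d := by
    have h1 : (u : ℝ) < δ * d + 1 := by rw [hu]; exact Nat.ceil_lt_add_one (by (clear * - hδ; positivity))
    have h2 : (0 : ℝ) ≤ cT := by (clear * -; positivity)
    have h3 : 2 * δ * d ≤ δ' * d := by (clear * - hδ2; gcongr)
    linarith only [hδd, h1, h3]
  have hucT : Fintype.card (TTa a) ≤ u := by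
    rw [← hcT]
    have : (cT : ℝ) ≤ u := by linarith only [hδd, hu1]
    exact_mod_cast this
  obtain ⟨J, hJ⟩ : ∃ J, J = d / 2 - 1 := ⟨_, rfl⟩
  have hJ1 : J + 1 = d / 2 := by (clear * - ha hI hqI h6 hd hJ; omega)
  have hIJ : I ≤ J := by omega
  have hJd : 2 * (J + 1) ≤ d := by omega
  obtain ⟨τ, hτ⟩ : ∃ τ : ℝ, τ = Real.exp (-c * (d : ℝ)) := ⟨_, rfl⟩
  have hτ0 : 0 ≤ τ := by rw [hτ]; positivity
  have hτ1 : τ ≤ 1 := by
    rw [hτ, Real.exp_le_one_iff]
    have : 0 ≤ c * (d : ℝ) := by (clear * - hc; positivity)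
    linarith only [this]
  -- case distinction and union bound
  have hcase : Pb (fun b : Sym2 (Fin n) → Bool => (signM b).det = 0) ≤
      ∑ t : TTa a, Pb (Ev0 (DDa a n q t) u) +
        (∑ p ∈ Icc I J ×ˢ (univ : Finset (TTa a)), Pb (EvA6 (DDa a n q) I u τ p.1 p.2) +
          Pb (EvB6 (DDa a n q) I u τ J)) := by
    have h1 := Pb_mono (fun b hb => sing_cases6 (DDa a n q) I u hI1 τ J b hb)
    refine h1.trans ((Pb_or _ _).trans (add_le_add (Pb_exists _ _) ?_))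
    exact (Pb_or _ _).trans (add_le_add (Pb_exists _ _) le_rfl)
  obtain ⟨ρ, hρ⟩ : ∃ ρ : ℝ, ρ = (2 : ℝ) ^ (-(1 - h) * (d : ℝ)) := ⟨_, rfl⟩
  have hρ1 : (2 : ℝ) ^ (-(d : ℝ)) ≤ ρ := by
    rw [hρ]
    apply Real.rpow_le_rpow_of_exponent_le one_le_two
    have : 0 ≤ h * (d : ℝ) := by (clear * - hh; positivity)
    linarith only [this]
  have hρ0 : 0 < ρ := by rw [hρ]; positivity
  have p0 : ∑ t : TTa a, Pb (Ev0 (DDa a n q t) u) ≤ 2 * cT * ρ := by
    have h1 : ∀ t : TTa a, Pb (Ev0 (DDa a n q t) u) ≤ 2 * ρ := by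
      intro t
      have h2 := hEv0 n (DDa a n q t) u (by rw [hcardD]; exact hu2)
      rw [hcardD, ← hρ] at h2
      exact h2
    refine (sum_le_sum fun t _ => h1 t).trans (le_of_eq ?_)
    rw [sum_const, card_univ, nsmul_eq_mul, ← hcT]
    ring
  have p1 : ∑ p ∈ Icc I J ×ˢ (univ : Finset (TTa a)), Pb (EvA6 (DDa a n q) I u τ p.1 p.2) ≤ ρ := by
    rw [hτ]
    exact (hA2 J hJd u hu1).trans hρ1
  have p2 : Pb (EvB6 (DDa a n q) I u τ J) ≤ 96 * 2 ^ (I + 8) * ρ := by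
    have h2 := Pb_EvB6_le (DDa a n q) (Sep4_DDa ha n q) hucT hτ0 J hIJ (X := (2 : ℝ) ^ (I + 8)) ?_
    · refine h2.trans ?_
      have e1 : (2 : ℝ) ^ (d : ℝ) ≤ 2 * ((2 : ℝ) ^ (J + 1)) ^ 2 := by
        rw [Real.rpow_natCast, ← pow_mul, ← pow_succ']
        exact pow_le_pow_right₀ one_le_two (by omega)
      have e2 : 1 / ((2 : ℝ) ^ (J + 1)) ^ 2 ≤ 2 * (2 : ℝ) ^ (-(d : ℝ)) := by
        rw [Real.rpow_neg (by norm_num), ← div_eq_mul_inv,
          div_le_div_iff₀ (by positivity) (by positivity)]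
        linarith only [e1]
      calc 24 * (1 + τ) * (2 : ℝ) ^ (I + 8) / ((2 : ℝ) ^ (J + 1)) ^ 2
          = 24 * (1 + τ) * (2 : ℝ) ^ (I + 8) * (1 / ((2 : ℝ) ^ (J + 1)) ^ 2) := by ring
        _ ≤ 24 * (1 + 1) * (2 : ℝ) ^ (I + 8) * (2 * (2 : ℝ) ^ (-(d : ℝ))) := by (clear * - hτ1 e2; gcongr)
        _ = 96 * 2 ^ (I + 8) * (2 : ℝ) ^ (-(d : ℝ)) := by ring
        _ ≤ 96 * 2 ^ (I + 8) * ρ := by (clear * - hρ1; gcongr)
    · intro t
      have h3 := hB {i // i ∈ DDa a n q t} {i // i ∉ DDa a n q t} (by rw [hcardα]; (clear * - hqd h6 hd; omega))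
        (by rw [hcardα, hcardβ, hθdef]; exact hlow)
        (by rw [hcardα, hcardβ]; exact hupp) (J + 1) (by rw [hcardα]; exact hJd)
        (by omega) (by
          intro j hj1 hj2
          have h4 := hA1 t j hj1 (by omega)
          rw [hcardα]
          exact h4)
      rw [hcardα, ← hτ] at h3
      refine le_trans (sum_le_sum_of_subset_of_nonneg ?_ ?_) h3
      · intro x hx
        rw [mem_filter] at hx ⊢
        refine ⟨mem_univ _, ?_, hx.2.2⟩
        have h4 : (u : ℝ) ≤ nu x := by exact_mod_cast hx.2.1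
        exact hu1.trans h4
      · intro x _ _
        exact sum_nonneg fun z _ => Bq_nonneg x z
  calc Pb (fun b : Sym2 (Fin n) → Bool => (signM b).det = 0) ≤ _ := hcase
    _ ≤ 2 * cT * ρ + (ρ + 96 * 2 ^ (I + 8) * ρ) := add_le_add p0 (add_le_add p1 p2)
    _ = (2 * cT + 1 + 96 * 2 ^ (I + 8)) * (2 : ℝ) ^ (-(1 - h) * (d : ℝ)) := by
        rw [← hρ]; ring

end Vale.Agent.P160
end
end

section

section

set_option linter.unusedSectionVars false

namespace Vale.Agent.P160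

open Filter

lemma st12_Pb_le_one (n : ℕ) :
    Pb (fun b : Sym2 (Fin n) → Bool => (signM b).det = 0) ≤ 1 := by
  classical
  unfold Pb
  rw [div_le_one (by positivity)]
  have h := Finset.card_le_univ
    (Finset.univ.filter (fun b : Sym2 (Fin n) → Bool => (signM b).det = 0))
  rw [Fintype.card_fun, Fintype.card_bool] at h
  have h' : (((Finset.univ.filter (fun b : Sym2 (Fin n) → Bool =>
      (signM b).det = 0)).card : ℕ) : ℝ) ≤ 2 ^ Fintype.card (Sym2 (Fin n)) := by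
    exact_mod_cast h
  refine le_trans (le_of_eq ?_) h'
  congr!

/-- Choice of the parameters. -/
lemma st12_params {lam : ℝ} (h : 1 / Real.sqrt 2 < lam) :
    ∃ a : ℕ, 3 ≤ a ∧ ∃ h : ℝ, 0 < h ∧
      (2 : ℝ) ^ (-(1 - h) * ((a ^ 2 - a : ℕ) : ℝ)) < lam ^ (2 * a ^ 2) := by
  have hs : 0 < 1 / Real.sqrt 2 := by positivity
  have hl : 0 < lam := hs.trans h
  obtain ⟨μ, hμ⟩ : ∃ μ, μ = -Real.logb 2 lam := ⟨_, rfl⟩
  have hlam : lam = (2 : ℝ) ^ (-μ) := by
    rw [hμ, neg_neg, Real.rpow_logb (by norm_num) (by norm_num) hl]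
  have hμ1 : μ < 1 / 2 := by
    have h1 : 1 / Real.sqrt 2 = (2 : ℝ) ^ (-(1 / 2 : ℝ)) := by
      rw [Real.rpow_neg (by norm_num), Real.sqrt_eq_rpow, one_div]
    rw [h1, hlam, Real.rpow_lt_rpow_left_iff (by norm_num)] at h
    (clear * - h; linarith)
  obtain ⟨η, hη⟩ : ∃ η, η = (1 / 2 - μ) / 2 := ⟨_, rfl⟩
  have hη0 : 0 < η := by rw [hη]; linarith only [hμ1]
  obtain ⟨a0, ha0⟩ := exists_nat_gt (1 / (2 * η))
  refine ⟨max a0 3, le_max_right _ _, η, hη0, ?_⟩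
  have ha3 : 3 ≤ max a0 3 := le_max_right _ _
  have haa : 1 / (2 * η) < ((max a0 3 : ℕ) : ℝ) :=
    lt_of_lt_of_le ha0 (by exact_mod_cast le_max_left a0 3)
  generalize max a0 3 = a at ha3 haa
  have haR : (3 : ℝ) ≤ a := by exact_mod_cast ha3
  rw [st11_sub_cast a ha3, hlam, ← Real.rpow_natCast ((2 : ℝ) ^ (-μ)) (2 * a ^ 2),
    ← Real.rpow_mul (by norm_num), Real.rpow_lt_rpow_left_iff (by norm_num)]
  rw [div_lt_iff₀ (by (clear * - hη0; positivity))] at haa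
  push_cast
  have h3 : 0 < (a : ℝ) := by linarith only [haR]
  have h4 : μ = 1 / 2 - 2 * η := by rw [hη]; ring
  rw [h4]
  nlinarith only [haa]

/-- Task T12 -/
theorem eventually_le6 {lam : ℝ} (h : 1 / Real.sqrt 2 < lam) :
    ∀ᶠ n : ℕ in atTop, Pb (fun b : Sym2 (Fin n) → Bool => (signM b).det = 0) ≤ lam ^ n := by
  rcases le_or_gt 1 lam with hlam | hlam
  · exact Filter.Eventually.of_forall fun n => (st12_Pb_le_one n).trans (one_le_pow₀ hlam)
  have hs : 0 < 1 / Real.sqrt 2 := by (clear * -; positivity)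
  have hl : 0 < lam := hs.trans h
  obtain ⟨a, ha, η, hη0, hR⟩ := st12_params h
  obtain ⟨C, hC, q0, hq0⟩ := Pb_sing_le6 ha hη0
  set ρ : ℝ := (2 : ℝ) ^ (-(1 - η) * ((a ^ 2 - a : ℕ) : ℝ)) with hρ
  have hρ0 : 0 < ρ := by positivity
  obtain ⟨m, hm⟩ : ∃ m, m = 2 * a ^ 2 := ⟨_, rfl⟩
  have hm0 : 0 < m := by
    rw [hm]
    have : 0 < a := by omega
    positivity
  rw [← hm] at hR hq0
  have hR0 : 0 < lam ^ m := by positivity
  set r : ℝ := ρ / lam ^ m with hr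
  have hr0 : 0 ≤ r := by positivity
  have hr1 : r < 1 := by rw [hr, div_lt_one hR0]; exact hR
  have ht : Tendsto (fun k : ℕ => C / lam ^ m * r ^ k) atTop (nhds (C / lam ^ m * 0)) :=
    Tendsto.const_mul _ (tendsto_pow_atTop_nhds_zero_of_lt_one hr0 hr1)
  rw [mul_zero] at ht
  have h1 : ∀ᶠ k : ℕ in atTop, C / lam ^ m * r ^ k < 1 :=
    ht.eventually (gt_mem_nhds one_pos)
  obtain ⟨k0, hk0⟩ := Filter.eventually_atTop.1 h1
  filter_upwards [eventually_ge_atTop (m * (max k0 q0))] with n hn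
  obtain ⟨k, hk⟩ : ∃ k, k = n / m := ⟨_, rfl⟩
  have hk1 : m * k ≤ n := by rw [hk]; exact Nat.mul_div_le n m
  have hk2 : n ≤ m * (k + 1) := by
    rw [hk]
    exact (Nat.lt_mul_div_succ n hm0).le
  have hk3 : max k0 q0 ≤ k := by
    rw [hk, Nat.le_div_iff_mul_le hm0, mul_comm]
    exact hn
  have hkk0 : k0 ≤ k := le_trans (le_max_left _ _) hk3
  have hkq0 : q0 ≤ k := le_trans (le_max_right _ _) hk3
  refine (hq0 k hkq0 n hk1 hk2).trans ?_
  have h2 := hk0 k hkk0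
  have h4 : (2 : ℝ) ^ (-(1 - η) * (((a ^ 2 - a) * k : ℕ) : ℝ)) = ρ ^ k := by
    rw [hρ, ← Real.rpow_natCast _ k, ← Real.rpow_mul (by norm_num)]
    congr 1
    push_cast
    ring
  rw [h4]
  have h3 : C * ρ ^ k = (C / lam ^ m * r ^ k) * lam ^ (m * (k + 1)) := by
    have e1 : lam ^ (m * (k + 1)) = (lam ^ m) ^ k * lam ^ m := by
      rw [pow_mul, pow_succ]
    rw [hr, div_pow, e1]
    (clear * - hl hρ0 hC; field_simp)
  rw [h3]
  calc _ ≤ 1 * lam ^ (m * (k + 1)) := by (clear * - h2 hl; gcongr)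
    _ = lam ^ (m * (k + 1)) := one_mul _
    _ ≤ lam ^ n := pow_le_pow_of_le_one hl.le hlam.le hk2

end Vale.Agent.P160
end
end
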